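import Vale.Agent.P338.H921.S2Transfer

/-!
# P338, second reduction: final forms, from the programs
-/

namespace Vale.Agent.P338.S2

/-- The programs are available: for every number `k` of levels, the parameters can be found
and the digits can be swapped, with big multiplications in time `Tb` and tiny ones in time
`Tt`. -/
def Avail (Tb Tt : ℕ → ℕ) : Prop :=
  ∃ (J E : Type) (_ : DecidableEq J) (_ : Finite J) (_ : Finite E), ∀ k : ℕ,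
    ∃ (par dsw : Pr J E) (C D : ℕ), ParSpec par k Tt C ∧ DSpec dsw k Tb Tt D

/-- The constant for rectangular matrices. -/
def K4 : ℕ := 4 * K2

theorem avail_sq {Tb Tt : ℕ → ℕ} (h : Avail Tb Tt) (k : ℕ) :
    ∃ (B : TM) (C : ℕ), Transposes B ∧ ∀ n : ℕ, 1 ≤ n →
      transTime B n ≤ C * (n ^ 2 + Tb (K2 * n ^ 2) + n ^ 2 * tinyT Tt k (16 * n)) := by
  obtain ⟨J, E, _, _, _, h⟩ := h
  obtain ⟨par, dsw, C, D, h1, h2⟩ := h k
  exact exists_machine_sq2 h1 h2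

theorem avail_rect {Tb Tt : ℕ → ℕ} (h : Avail Tb Tt) (k K q ρ : ℕ) (hK : K4 ≤ K) :
    ∃ (B : TM) (C : ℕ), TransposesRect B ∧ ∀ a b : ℕ, 1 ≤ a → 1 ≤ b →
      rectTime B a b ≤ C * ((max a b) ^ 2 + Tb (mszK K q ρ a b) +
        (max a b) ^ 2 * tinyT Tt k (16 * max a b)) := by
  obtain ⟨J, E, _, _, _, h⟩ := h
  obtain ⟨par, dsw, C, D, h1, h2⟩ := h k
  exact exists_machine_rect2 h1 h2 K q ρ hK

/-! ### The time after the splitting into limbs -/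

/-- The time of a multiplication of `M` bits with `K` limbs. -/
def limbT (K : ℕ) (T : ℕ → ℕ) (M : ℕ) : ℕ := T ((M + K - 1) / K)

theorem limbT_mul {K : ℕ} (hK : 1 ≤ K) (T : ℕ → ℕ) (m : ℕ) : limbT K T (K * m) = T m := by
  unfold limbT
  congr 1
  have h : K * m + K - 1 = (K - 1) + K * m := by omega
  rw [h, Nat.add_mul_div_left _ _ (by omega), Nat.div_eq_of_lt (by omega), Nat.zero_add]

theorem mszK_mul (K q ρ a b : ℕ) :
    mszK K (K * q) (K * ρ) a b = K * mszK 1 q ρ a b := by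
  unfold mszK
  split_ifs <;> ring

theorem sq_le_msz1 {q ρ a b : ℕ} : (max a b) ^ 2 ≤ 4 * mszK 1 q ρ a b := by
  unfold mszK
  split_ifs with hc
  · have h1 : max a b ≤ 2 * a := by omega
    have h2 : (max a b) ^ 2 ≤ (2 * a) ^ 2 := Nat.pow_le_pow_left h1 2
    have h3 : (2 * a) ^ 2 = 4 * a ^ 2 := by ring
    omega
  · omega

/-! ### Square matrices -/

/-- The bit size of the tiny multiplications on level `i`, for `n × n` matrices: with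
`L₀ = 16 n` and `L_{i+1} = max 1 (⌊log₂ L_i⌋ / 8)`, it is eight times the number of
binary digits of `L_i`. -/
def tinySize (n i : ℕ) : ℕ := tsz (nxt^[i] (16 * n))

/-- Several levels. -/
theorem final_levels {T Tt : ℕ → ℕ} (hT : ∀ m, 1 ≤ m → m ≤ T m)
    (h : Avail (limbT K2 T) Tt) (k : ℕ) :
    ∃ (B : TM) (C : ℕ), Transposes B ∧ ∀ n : ℕ, 1 ≤ n →
      transTime B n ≤ C * (T (n ^ 2) + n ^ 2 * (∑ i ∈ Finset.range (k + 1),
        Tt (tinySize n i) / tinySize n i + (Nat.log 2)^[k + 2] n)) := by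
  obtain ⟨B, C, hB, hC⟩ := avail_sq h (k + 1)
  refine ⟨B, C * 2, hB, fun n hn => (hC n hn).trans ?_⟩
  rw [limbT_mul (by norm_num [K2]), Nat.mul_assoc]
  apply Nat.mul_le_mul_left
  have h1 := hT (n ^ 2) (Nat.one_le_pow _ _ hn)
  have h2 : n ^ 2 * tinyT Tt (k + 1) (16 * n) ≤ n ^ 2 * (∑ i ∈ Finset.range (k + 1),
      Tt (tinySize n i) / tinySize n i + (Nat.log 2)^[k + 2] n) := by
    apply Nat.mul_le_mul_left
    rw [tinyT_eq]
    exact Nat.add_le_add_left (log_nxt_iter_le hn k) _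
  omega

/-- One level, with tiny multiplications in time `O(m (log m + 1) ^ e)`. -/
theorem final_poly {T Tt : ℕ → ℕ} {D e : ℕ} (he : 1 ≤ e) (hT : ∀ m, 1 ≤ m → m ≤ T m)
    (hTt : ∀ m, 1 ≤ m → Tt m ≤ D * (m * (Nat.log 2 m + 1) ^ e))
    (h : Avail (limbT K2 T) Tt) :
    ∃ (B : TM) (C : ℕ), Transposes B ∧ ∀ n : ℕ, 1 ≤ n →
      transTime B n ≤ C * (T (n ^ 2) + n ^ 2 * (Nat.log 2 (Nat.log 2 n) + 1) ^ e) := by
  obtain ⟨B, C, hB, hC⟩ := avail_sq h 1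
  refine ⟨B, C * (D * 7 ^ e + 3), hB, fun n hn => (hC n hn).trans ?_⟩
  rw [limbT_mul (by norm_num [K2]), Nat.mul_assoc]
  apply Nat.mul_le_mul_left
  have h1 := hT (n ^ 2) (Nat.one_le_pow _ _ hn)
  have h2 := Nat.mul_le_mul_left (n ^ 2) (tinyT_poly he hTt hn)
  set G := (Nat.log 2 (Nat.log 2 n) + 1) ^ e with hG
  have h3 : n ^ 2 * ((D * 7 ^ e + 1) * G) = (D * 7 ^ e + 1) * (n ^ 2 * G) := by ring
  rw [h3] at h2
  set X := n ^ 2 * G with hX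
  have h4 : (D * 7 ^ e + 3) * (T (n ^ 2) + X) =
      D * 7 ^ e * T (n ^ 2) + 3 * T (n ^ 2) + (D * 7 ^ e + 1) * X + 2 * X := by ring
  rw [h4]
  have h5 := Nat.zero_le (D * 7 ^ e * T (n ^ 2))
  omega

/-- The case where `T m / m` is nondecreasing up to a constant. -/
theorem final_regular {T : ℕ → ℕ} {c : ℕ} (hT : ∀ m, 1 ≤ m → m ≤ T m)
    (hreg : ∀ m m', 1 ≤ m → m ≤ m' → T m * m' ≤ c * (T m' * m))
    (h : Avail (limbT K2 T) T) (j : ℕ) :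
    ∃ (B : TM) (C : ℕ), Transposes B ∧ ∀ n : ℕ, 1 ≤ n →
      transTime B n ≤ C * (T (n ^ 2) + n ^ 2 * (Nat.log 2)^[j] n) := by
  obtain ⟨B, C, hB, hC⟩ := avail_sq h (j + 1)
  obtain ⟨C', hC'⟩ := tinyT_regular hT hreg j
  refine ⟨B, C * (2 + C'), hB, fun n hn => (hC n hn).trans ?_⟩
  rw [limbT_mul (by norm_num [K2]), Nat.mul_assoc]
  apply Nat.mul_le_mul_left
  have h1 := hT (n ^ 2) (Nat.one_le_pow _ _ hn)
  have h2 := hC' n (n ^ 2) hn le_rfl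
  have h3 : (Nat.log 2)^[j + 2] n ≤ (Nat.log 2)^[j] n := by
    rw [Function.iterate_succ_apply', Function.iterate_succ_apply']
    exact (Nat.log_le_self _ _).trans (Nat.log_le_self _ _)
  have h4 := Nat.mul_le_mul_left (n ^ 2) h3
  set X := n ^ 2 * (Nat.log 2)^[j] n with hX
  have h5 : C' * (T (n ^ 2) + n ^ 2 * (Nat.log 2)^[j + 2] n) ≤ C' * (T (n ^ 2) + X) :=
    Nat.mul_le_mul_left _ (Nat.add_le_add_left h4 _)
  have h6 : (2 + C') * (T (n ^ 2) + X) = 2 * T (n ^ 2) + 2 * X + C' * (T (n ^ 2) + X) := by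
    ring
  rw [h6]
  omega

/-! ### Rectangular matrices -/

/-- One level, with tiny multiplications in time `O(m (log m + 1) ^ e)`. -/
theorem final_rect {T Tt : ℕ → ℕ} {D e : ℕ} (he : 1 ≤ e) (hT : ∀ m, 1 ≤ m → m ≤ T m)
    (hTt : ∀ m, 1 ≤ m → Tt m ≤ D * (m * (Nat.log 2 m + 1) ^ e))
    (h : Avail (limbT K4 T) Tt) (q ρ : ℕ) :
    ∃ (B : TM) (C : ℕ), TransposesRect B ∧ ∀ a b : ℕ, 1 ≤ a → 1 ≤ b →
      rectTime B a b ≤ C * (T (mszK 1 q ρ a b) +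
        (max a b) ^ 2 * (Nat.log 2 (Nat.log 2 (max a b)) + 1) ^ e) := by
  obtain ⟨B, C, hB, hC⟩ := avail_rect h 1 K4 (K4 * q) (K4 * ρ) le_rfl
  refine ⟨B, C * (D * 7 ^ e + 5), hB, fun a b ha hb => (hC a b ha hb).trans ?_⟩
  rw [mszK_mul, limbT_mul (by norm_num [K4, K2]), Nat.mul_assoc]
  apply Nat.mul_le_mul_left
  have h0 : (max a b) ^ 2 ≤ 4 * mszK 1 q ρ a b := sq_le_msz1
  have hN : 1 ≤ max a b := by omega
  have hN2 : 1 ≤ (max a b) ^ 2 := Nat.one_le_pow _ _ hN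
  have h1 := hT (mszK 1 q ρ a b) (by omega)
  have h2 := Nat.mul_le_mul_left ((max a b) ^ 2) (tinyT_poly he hTt hN)
  set N := max a b
  set m := mszK 1 q ρ a b
  set G := (Nat.log 2 (Nat.log 2 N) + 1) ^ e with hG
  have h3 : N ^ 2 * ((D * 7 ^ e + 1) * G) = (D * 7 ^ e + 1) * (N ^ 2 * G) := by ring
  rw [h3] at h2
  set X := N ^ 2 * G with hX
  have h4 : (D * 7 ^ e + 5) * (T m + X) =
      D * 7 ^ e * T m + 5 * T m + (D * 7 ^ e + 1) * X + 4 * X := by ring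
  rw [h4]
  have h5 := Nat.zero_le (D * 7 ^ e * T m)
  omega

/-! ### Lower bounds -/

/-- Square matrices: transfer of a lower bound `n² φ(n)` to the multiplication of numbers with
`n²` digits. -/
theorem final_lower_sq {T Tt : ℕ → ℕ} {D e : ℕ} (he : 1 ≤ e) (hT : ∀ m, 1 ≤ m → m ≤ T m)
    (hTt : ∀ m, 1 ≤ m → Tt m ≤ D * (m * (Nat.log 2 m + 1) ^ e))
    (h : Avail (limbT K2 T) Tt) {φ : ℕ → ℝ}
    (hφ : ∀ ε : ℝ, 0 < ε → ∃ N : ℕ, ∀ n : ℕ, N ≤ n →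
      ((Nat.log 2 (Nat.log 2 n) + 1 : ℕ) : ℝ) ^ e ≤ ε * φ n)
    (hlow : ∀ B : TM, Transposes B → ∃ c : ℝ, 0 < c ∧ ∃ N : ℕ, ∀ n : ℕ, N ≤ n →
      c * ((n : ℝ) ^ 2 * φ n) ≤ transTime B n) :
    ∃ c : ℝ, 0 < c ∧ ∃ N : ℕ, ∀ n : ℕ, N ≤ n → c * ((n : ℝ) ^ 2 * φ n) ≤ T (n ^ 2) := by
  obtain ⟨B, C, hB, hC⟩ := final_poly he hT hTt h
  exact lower_sq (M := fun n => n ^ 2) hC (by exact_mod_cast hφ) (hlow B hB)

/-- Near-square matrices: transfer of a lower bound `a² φ(a)` to all lengths. -/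
theorem final_lower_rect {T Tt : ℕ → ℕ} {D e : ℕ} (he : 1 ≤ e) (hT : ∀ m, 1 ≤ m → m ≤ T m)
    (hTt : ∀ m, 1 ≤ m → Tt m ≤ D * (m * (Nat.log 2 m + 1) ^ e))
    (h : Avail (limbT K4 T) Tt) {φ : ℕ → ℝ}
    (hφ : ∀ ε : ℝ, 0 < ε → ∃ N : ℕ, ∀ n : ℕ, N ≤ n →
      ((Nat.log 2 (Nat.log 2 n) + 1 : ℕ) : ℝ) ^ e ≤ ε * φ n) {δ : ℝ} (hδ : 0 < δ)
    (hlow : ∀ B : TM, TransposesRect B → ∃ c : ℝ, 0 < c ∧ ∃ N : ℕ, ∀ a b : ℕ, N ≤ a → a ≤ b →
      (b : ℝ) ≤ (1 + δ) * a → c * ((a : ℝ) ^ 2 * φ a) ≤ rectTime B a b) :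
    ∃ c : ℝ, 0 < c ∧ ∃ N : ℕ, 2 ≤ N ∧ ∀ n : ℕ, N ≤ n →
      c * ((n : ℝ) * φ (Nat.sqrt n)) ≤ T n :=
  lower_rect hδ (fun q ρ => final_rect he hT hTt h q ρ) hφ hlow

end Vale.Agent.P338.S2
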