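import Vale.Agent.P338.H921.GBitsF
import Vale.Agent.P338.H921.S2Final

/-!
# P338, matrices of every shape: asymptotic forms
-/

namespace Vale.Agent.P338.GS.Top

open Vale.Agent.P338 S2

/-- The program for the transposition of words is available. -/
def AvailG (Tb Tt : ℕ → ℕ) : Prop :=
  ∃ (J E : Type) (_ : DecidableEq J) (_ : Finite J) (_ : Finite E) (p : PW J E) (C : ℕ),
    PermSpec p Tb Tt C

/-! ### Logarithms -/

theorem log_add_le (x c : ℕ) : Nat.log 2 (x + c) ≤ Nat.log 2 x + c := by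
  induction c with
  | zero => simp
  | succ c ih =>
    rcases Nat.eq_zero_or_pos (x + c) with h | h
    · have : x + (c + 1) = 1 := by omega
      rw [this]
      simp
    · have h1 : Nat.log 2 (x + (c + 1)) ≤ Nat.log 2 ((x + c) * 2) :=
        Nat.log_mono_right (by omega)
      rw [Nat.log_mul_base (by norm_num) (by omega)] at h1
      omega

theorem size_le_log (n : ℕ) : Nat.size n ≤ Nat.log 2 n + 1 :=
  Nat.size_le.mpr (Nat.lt_pow_succ_log_self (by norm_num) n)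

theorem sizes_le {a b : ℕ} (ha : 1 ≤ a) (hb : 1 ≤ b) :
    Nat.size a + Nat.size b ≤ Nat.log 2 (a * b) + 2 := by
  have h1 := size_le_log a
  have h2 := size_le_log b
  have h3 : Nat.log 2 a + Nat.log 2 b ≤ Nat.log 2 (a * b) := by
    apply Nat.le_log_of_pow_le (by norm_num)
    rw [pow_add]
    exact Nat.mul_le_mul (Nat.pow_log_le_self 2 (by omega)) (Nat.pow_log_le_self 2 (by omega))
  omega

/-- The double logarithm bounds the exponent of the length of the words. -/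
theorem pi_le {a b : ℕ} (ha : 1 ≤ a) (hb : 1 ≤ b) :
    Nat.size (Nat.size a + Nat.size b) ≤ Nat.log 2 (Nat.log 2 (a * b)) + 3 := by
  have h1 := sizes_le ha hb
  have h2 := size_le_log (Nat.size a + Nat.size b)
  have h3 : Nat.log 2 (Nat.size a + Nat.size b) ≤ Nat.log 2 (Nat.log 2 (a * b) + 2) :=
    Nat.log_mono_right h1
  have h4 := log_add_le (Nat.log 2 (a * b)) 2
  omega

theorem log_64_pow (π : ℕ) : Nat.log 2 (64 * 2 ^ π) = π + 6 := by
  have : 64 * 2 ^ π = 2 ^ (π + 6) := by rw [pow_add]; norm_num; ring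
  rw [this, Nat.log_pow (by norm_num)]

/-! ### Tiny multiplications in time `O(m (log m + 1) ^ e)` -/

theorem tiny_le {Tt : ℕ → ℕ} {D e : ℕ}
    (hTt : ∀ m, 1 ≤ m → Tt m ≤ D * (m * (Nat.log 2 m + 1) ^ e)) (π : ℕ) :
    Tt (64 * 2 ^ π) / (64 * 2 ^ π) ≤ D * (π + 7) ^ e := by
  apply Nat.div_le_of_le_mul
  have h := hTt (64 * 2 ^ π) (by have := Nat.one_le_two_pow (n := π); omega)
  rw [log_64_pow] at h
  calc Tt (64 * 2 ^ π) ≤ D * (64 * 2 ^ π * (π + 6 + 1) ^ e) := h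
    _ = 64 * 2 ^ π * (D * (π + 7) ^ e) := by ring

theorem tiny_le' {Tt : ℕ → ℕ} {D e : ℕ}
    (hTt : ∀ m, 1 ≤ m → Tt m ≤ D * (m * (Nat.log 2 m + 1) ^ e)) {a b : ℕ} (ha : 1 ≤ a)
    (hb : 1 ≤ b) :
    Tt (64 * 2 ^ Nat.size (Nat.size a + Nat.size b)) /
        (64 * 2 ^ Nat.size (Nat.size a + Nat.size b)) ≤
      D * 10 ^ e * (Nat.log 2 (Nat.log 2 (a * b)) + 1) ^ e := by
  refine (tiny_le hTt _).trans ?_
  have h1 := pi_le ha hb
  calc D * (Nat.size (Nat.size a + Nat.size b) + 7) ^ e ≤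
      D * (10 * (Nat.log 2 (Nat.log 2 (a * b)) + 1)) ^ e :=
        Nat.mul_le_mul_left _ (Nat.pow_le_pow_left (by omega) e)
    _ = D * 10 ^ e * (Nat.log 2 (Nat.log 2 (a * b)) + 1) ^ e := by rw [mul_pow]; ring

theorem lvG_one_le (Tt : ℕ → ℕ) (u v : ℕ) :
    lvG Tt 1 u v ≤ Tt (64 * 2 ^ Nat.size (u + v)) / (64 * 2 ^ Nat.size (u + v)) +
      Nat.size (u + v) + 2 := by
  simp only [lvG]
  have := min_le_right v (Nat.size (u + v))
  omega

theorem costG_poly {Tt : ℕ → ℕ} {D e : ℕ} (he : 1 ≤ e)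
    (hTt : ∀ m, 1 ≤ m → Tt m ≤ D * (m * (Nat.log 2 m + 1) ^ e)) {a c : ℕ} (w : ℕ)
    (ha : 1 ≤ a) (hc : 1 ≤ c) :
    costG Tt 1 (Nat.size a) (Nat.size c) w ≤
      (D * 10 ^ e + 5) * (Nat.log 2 (Nat.log 2 (a * c)) + 1) ^ e := by
  have h1 := tiny_le' hTt ha hc
  have h2 := pi_le ha hc
  have h3 := lvG_one_le Tt (Nat.size a) (Nat.size c)
  set y := Nat.log 2 (Nat.log 2 (a * c)) + 1 with hy
  have h4 : y ≤ y ^ e := Nat.le_self_pow (by omega) y
  have h5 : (D * 10 ^ e + 5) * y ^ e = D * 10 ^ e * y ^ e + 5 * y ^ e := by ring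
  rw [h5]
  unfold costG
  split_ifs <;> omega

/-! ### Regular multiplication times -/

/-- The number of rows at the last level. -/
def vK : ℕ → ℕ → ℕ → ℕ
  | 0, _, v => v
  | k + 1, u, v => vK k (min u (Nat.size (u + v))) (min v (Nat.size (u + v)))

theorem lvG_le (T : ℕ → ℕ) (N Q : ℕ) (k : ℕ) : ∀ u v : ℕ,
    (∀ π ≤ Nat.size (u + v), N * (T (64 * 2 ^ π) / (64 * 2 ^ π)) ≤ Q) →
    N * lvG T k u v ≤ k * (Q + N) + N * (vK k u v + 1) := by
  induction k with
  | zero =>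
    intro u v _
    simp [lvG, vK]
  | succ k ih =>
    intro u v h
    have h1 := ih (min u (Nat.size (u + v))) (min v (Nat.size (u + v))) (by
      intro π hπ
      refine h π (hπ.trans (Nat.size_le_size ?_))
      exact Nat.add_le_add (min_le_left _ _) (min_le_left _ _))
    have h2 := h _ le_rfl
    simp only [lvG, vK]
    have h3 : N * (T (64 * 2 ^ Nat.size (u + v)) / (64 * 2 ^ Nat.size (u + v)) + 1 +
        lvG T k (min u (Nat.size (u + v))) (min v (Nat.size (u + v)))) =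
        N * (T (64 * 2 ^ Nat.size (u + v)) / (64 * 2 ^ Nat.size (u + v))) + N +
        N * lvG T k (min u (Nat.size (u + v))) (min v (Nat.size (u + v))) := by ring
    have h4 : (k + 1) * (Q + N) = k * (Q + N) + Q + N := by ring
    rw [h3, h4]
    omega

theorem vK_le (k : ℕ) : ∀ K : ℕ, ∃ K' : ℕ, ∀ u v L : ℕ, u + v ≤ K * (L + 1) →
    vK k u v ≤ K' * ((Nat.log 2)^[k] L + 1) := by
  induction k with
  | zero =>
    intro K
    refine ⟨K, fun u v L h => ?_⟩
    simp only [vK, Function.iterate_zero, id]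
    omega
  | succ k ih =>
    intro K
    obtain ⟨K', hK'⟩ := ih (2 * (K + 2))
    refine ⟨K', fun u v L h => ?_⟩
    simp only [vK]
    rw [Function.iterate_succ_apply]
    apply hK'
    have h1 := min_le_right u (Nat.size (u + v))
    have h2 := min_le_right v (Nat.size (u + v))
    have h3 : Nat.size (u + v) ≤ (K + 2) * (Nat.log 2 L + 1) := by
      have h4 := size_le_log (u + v)
      have h5 : Nat.log 2 (u + v) ≤ K + Nat.log 2 (L + 1) := by
        rcases Nat.eq_zero_or_pos (u + v) with h0 | h0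
        · rw [h0]
          simp
        · have h6 : u + v < 2 ^ (K + Nat.log 2 (L + 1) + 1) := by
            have h7 : K < 2 ^ K := Nat.lt_two_pow_self
            have h8 : L + 1 < 2 ^ (Nat.log 2 (L + 1) + 1) :=
              Nat.lt_pow_succ_log_self (by norm_num) _
            calc u + v ≤ K * (L + 1) := h
              _ ≤ 2 ^ K * (L + 1) := Nat.mul_le_mul_right _ h7.le
              _ < 2 ^ K * 2 ^ (Nat.log 2 (L + 1) + 1) :=
                Nat.mul_lt_mul_of_pos_left h8 (by positivity)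
              _ = 2 ^ (K + Nat.log 2 (L + 1) + 1) := by rw [← pow_add]; congr 1
          exact Nat.lt_succ_iff.mp (Nat.log_lt_of_lt_pow (by omega) h6)
      have h9 := log_add_le L 1
      have h10 : (K + 2) * (Nat.log 2 L + 1) = K * Nat.log 2 L + 2 * Nat.log 2 L + K + 2 := by
        ring
      rw [h10]
      have h11 := Nat.zero_le (K * Nat.log 2 L)
      omega
    have h12 : 2 * (K + 2) * (Nat.log 2 L + 1) = 2 * ((K + 2) * (Nat.log 2 L + 1)) := by ring
    rw [h12]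
    omega

theorem lin_log_le {x : ℕ} (hx : 11 ≤ x) : 128 * (x + 2) ≤ 2 ^ x := by
  induction x, hx using Nat.le_induction with
  | base => norm_num
  | succ n hn ih =>
    rw [pow_succ]
    omega

/-- The tiny multiplications cost no more than the long one, for regular times. -/
theorem regular_tiny {T : ℕ → ℕ} {c₀ : ℕ} (hT : ∀ m, 1 ≤ m → m ≤ T m)
    (hreg : ∀ m m', 1 ≤ m → m ≤ m' → T m * m' ≤ c₀ * (T m' * m)) :
    ∃ K : ℕ, ∀ a b N : ℕ, 1 ≤ a → 1 ≤ b → a * b ≤ N →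
      ∀ π ≤ Nat.size (Nat.size a + Nat.size b),
        N * (T (64 * 2 ^ π) / (64 * 2 ^ π)) ≤ K * T N := by
  obtain ⟨K, hK⟩ : ∃ K : ℕ, ∀ π < 12, T (64 * 2 ^ π) ≤ K :=
    ⟨(Finset.range 12).sup fun π => T (64 * 2 ^ π), fun π hπ =>
      Finset.le_sup (f := fun π => T (64 * 2 ^ π)) (Finset.mem_range.2 hπ)⟩
  refine ⟨c₀ + K, fun a b N ha hb hN π hπ => ?_⟩
  have hab : 1 ≤ a * b := Nat.mul_pos ha hb
  have hp : 1 ≤ 2 ^ π := Nat.one_le_two_pow
  rcases le_or_gt (64 * 2 ^ π) N with h3 | h3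
  · have h4 := hreg _ _ (by omega) h3
    refine (Nat.mul_div_le_mul_div_assoc _ _ _).trans ?_
    apply Nat.div_le_of_le_mul
    calc N * T (64 * 2 ^ π) = T (64 * 2 ^ π) * N := Nat.mul_comm _ _
      _ ≤ c₀ * (T N * (64 * 2 ^ π)) := h4
      _ = 64 * 2 ^ π * (c₀ * T N) := by ring
      _ ≤ 64 * 2 ^ π * ((c₀ + K) * T N) :=
        Nat.mul_le_mul_left _ (Nat.mul_le_mul_right _ (Nat.le_add_right _ _))
  · have h4 : 2 ^ π ≤ 2 * (Nat.size a + Nat.size b) :=
      (Nat.pow_le_pow_right (by norm_num) hπ).trans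
        (pl_le (u := Nat.size a) (v := Nat.size b) (Nat.size_pos.2 ha))
    have h5 := sizes_le ha hb
    have h6 : Nat.log 2 (a * b) < 11 := by
      by_contra h7
      have h8 := lin_log_le (not_lt.mp h7)
      have h9 := Nat.pow_log_le_self 2 (x := a * b) (by omega)
      omega
    have h7 : π < 12 := by
      by_contra h8
      have h9 : 2 ^ 12 ≤ 2 ^ π := Nat.pow_le_pow_right (by norm_num) (not_lt.mp h8)
      norm_num at h9
      omega
    have h8 : T (64 * 2 ^ π) / (64 * 2 ^ π) ≤ K := (Nat.div_le_self _ _).trans (hK π h7)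
    calc N * (T (64 * 2 ^ π) / (64 * 2 ^ π)) ≤ T N * K :=
          Nat.mul_le_mul (hT N (by omega)) h8
      _ = K * T N := Nat.mul_comm _ _
      _ ≤ (c₀ + K) * T N := Nat.mul_le_mul_right _ (Nat.le_add_left _ _)

theorem regular_lvG {T : ℕ → ℕ} {c₀ : ℕ} (hT : ∀ m, 1 ≤ m → m ≤ T m)
    (hreg : ∀ m m', 1 ≤ m → m ≤ m' → T m * m' ≤ c₀ * (T m' * m)) (k : ℕ) :
    ∃ K : ℕ, ∀ a b N : ℕ, 1 ≤ a → 1 ≤ b → a * b ≤ N →
      N * lvG T k (Nat.size a) (Nat.size b) ≤
        K * (T N + N * (Nat.log 2)^[k + 1] (a * b)) := by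
  obtain ⟨K₁, h1⟩ := regular_tiny hT hreg
  obtain ⟨K₂, h2⟩ := vK_le k 2
  refine ⟨k * (K₁ + 1) + K₂ + 1, fun a b N ha hb hN => ?_⟩
  have h3 := lvG_le T N (K₁ * T N) k (Nat.size a) (Nat.size b) (h1 a b N ha hb hN)
  have h4 := h2 (Nat.size a) (Nat.size b) (Nat.log 2 (a * b)) (by
    have := sizes_le ha hb
    omega)
  rw [← Function.iterate_succ_apply] at h4
  have hN1 : 1 ≤ N := le_trans (Nat.mul_pos ha hb) hN
  have h5 := hT N hN1
  set G := (Nat.log 2)^[k + 1] (a * b) with hG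
  have h6 : N * (vK k (Nat.size a) (Nat.size b) + 1) ≤ N * (K₂ * (G + 1) + 1) :=
    Nat.mul_le_mul_left _ (by omega)
  have h7 : k * (K₁ * T N + N) ≤ k * (K₁ * T N + T N) := Nat.mul_le_mul_left _ (by omega)
  have h8 : (k * (K₁ + 1) + K₂ + 1) * (T N + N * G) = k * (K₁ * T N + T N) + K₂ * (N * G) +
      K₂ * T N + T N + (k * (K₁ + 1) * (N * G) + N * G) := by ring
  have h9 : N * (K₂ * (G + 1) + 1) = K₂ * (N * G) + K₂ * N + N := by ring
  have h10 : K₂ * N ≤ K₂ * T N := Nat.mul_le_mul_left _ h5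
  rw [h8]
  rw [h9] at h6
  omega

/-! ### Final forms, from the program -/

theorem availG_ent {T Tt : ℕ → ℕ} (hT : ∀ m, 1 ≤ m → m ≤ T m)
    (h : AvailG (limbT 4608 T) Tt) (k : ℕ) :
    ∃ (B : TM) (C : ℕ), TransposesEnt B ∧ ∀ a c w : ℕ, 1 ≤ a → 1 ≤ c → 1 ≤ w →
      entTime B a c w ≤ C * (T (a * c * w) +
        a * c * w * costG Tt k (Nat.size a) (Nat.size c) w) := by
  obtain ⟨J, E, _, _, _, p, C, hp⟩ := h
  obtain ⟨B, C', hB, hC'⟩ := ent_machine hp k
  refine ⟨B, C' * 2, hB, fun a c w ha hc hw => (hC' a c w ha hc hw).trans ?_⟩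
  unfold cT
  rw [limbT_mul (by norm_num), Nat.mul_assoc C' 2]
  apply Nat.mul_le_mul_left
  have h1 := hT (a * c * w) (Nat.mul_pos (Nat.mul_pos ha hc) hw)
  omega

theorem availG_bit {T Tt : ℕ → ℕ} (hT : ∀ m, 1 ≤ m → m ≤ T m)
    (h : AvailG (limbT 4608 T) Tt) (k : ℕ) :
    ∃ (B : TM) (C : ℕ), TransposesRect B ∧ ∀ a b : ℕ, 1 ≤ a → 1 ≤ b →
      rectTime B a b ≤ C * (T (a * b) + a * b * lvG Tt k (Nat.size a) (Nat.size b)) := by
  obtain ⟨J, E, _, _, _, p, C, hp⟩ := h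
  obtain ⟨B, C', hB, hC'⟩ := bit_machine hp k
  refine ⟨B, C' * 2, hB, fun a b ha hb => (hC' a b ha hb).trans ?_⟩
  unfold cT costG
  rw [if_pos (by
    apply Nat.one_lt_two_pow
    have : 0 < Nat.size (Nat.size a + Nat.size b) :=
      Nat.size_pos.2 (by have := Nat.size_pos.2 ha; omega)
    omega), limbT_mul (by norm_num), Nat.mul_assoc C' 2, Nat.mul_one]
  apply Nat.mul_le_mul_left
  have h1 := hT (a * b) (Nat.mul_pos ha hb)
  omega

/-- Bit matrices, two multiplications. -/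
theorem bit_two {T Tt : ℕ → ℕ} (hT : ∀ m, 1 ≤ m → m ≤ T m)
    (h : AvailG (limbT 4608 T) Tt) :
    ∃ (B : TM) (C : ℕ), TransposesRect B ∧ ∀ a b : ℕ, 1 ≤ a → 1 ≤ b →
      rectTime B a b ≤ C * (T (a * b) + a * b *
        (Tt (64 * 2 ^ Nat.size (Nat.size a + Nat.size b)) /
          (64 * 2 ^ Nat.size (Nat.size a + Nat.size b)) + Nat.log 2 (Nat.log 2 (a * b)))) := by
  obtain ⟨B, C, hB, hC⟩ := availG_bit hT h 1
  refine ⟨B, C * 6, hB, fun a b ha hb => (hC a b ha hb).trans ?_⟩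
  rw [Nat.mul_assoc C 6]
  apply Nat.mul_le_mul_left
  have h1 := hT (a * b) (Nat.mul_pos ha hb)
  have h2 := lvG_one_le Tt (Nat.size a) (Nat.size b)
  have h3 := pi_le ha hb
  set R := Tt (64 * 2 ^ Nat.size (Nat.size a + Nat.size b)) /
    (64 * 2 ^ Nat.size (Nat.size a + Nat.size b)) with hR
  set y := Nat.log 2 (Nat.log 2 (a * b)) with hy
  have h4 : a * b * lvG Tt 1 (Nat.size a) (Nat.size b) ≤ a * b * (R + y + 5) :=
    Nat.mul_le_mul_left _ (by omega)
  have h5 : a * b * (R + y + 5) = a * b * (R + y) + 5 * (a * b) := by ring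
  rw [h5] at h4
  omega

/-- Bit matrices, tiny multiplications in time `O(m (log m + 1) ^ e)`. -/
theorem bit_poly {T Tt : ℕ → ℕ} {D e : ℕ} (he : 1 ≤ e) (hT : ∀ m, 1 ≤ m → m ≤ T m)
    (hTt : ∀ m, 1 ≤ m → Tt m ≤ D * (m * (Nat.log 2 m + 1) ^ e))
    (h : AvailG (limbT 4608 T) Tt) :
    ∃ (B : TM) (C : ℕ), TransposesRect B ∧ ∀ a b : ℕ, 1 ≤ a → 1 ≤ b →
      rectTime B a b ≤ C * (T (a * b) + a * b *
        (Nat.log 2 (Nat.log 2 (a * b)) + 1) ^ e) := by
  obtain ⟨B, C, hB, hC⟩ := bit_two hT h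
  refine ⟨B, C * (D * 10 ^ e + 1), hB, fun a b ha hb => (hC a b ha hb).trans ?_⟩
  rw [Nat.mul_assoc C (D * 10 ^ e + 1)]
  apply Nat.mul_le_mul_left
  have h1 := tiny_le' hTt ha hb
  set R := Tt (64 * 2 ^ Nat.size (Nat.size a + Nat.size b)) /
    (64 * 2 ^ Nat.size (Nat.size a + Nat.size b)) with hR
  set y := Nat.log 2 (Nat.log 2 (a * b)) with hy
  have h2 : y ≤ (y + 1) ^ e := le_trans (by omega) (Nat.le_self_pow (by omega) (y + 1))
  set G := (y + 1) ^ e with hG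
  have h3 : a * b * (R + y) ≤ a * b * ((D * 10 ^ e + 1) * G) := by
    apply Nat.mul_le_mul_left
    have : (D * 10 ^ e + 1) * G = D * 10 ^ e * G + G := by ring
    omega
  calc T (a * b) + a * b * (R + y) ≤ T (a * b) + a * b * ((D * 10 ^ e + 1) * G) :=
        Nat.add_le_add_left h3 _
    _ ≤ (D * 10 ^ e + 1) * T (a * b) + a * b * ((D * 10 ^ e + 1) * G) :=
        Nat.add_le_add_right (Nat.le_mul_of_pos_left _ (by omega)) _
    _ = (D * 10 ^ e + 1) * (T (a * b) + a * b * G) := by ring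

/-- Bit matrices, regular multiplication time. -/
theorem bit_regular {T : ℕ → ℕ} {c₀ : ℕ} (hT : ∀ m, 1 ≤ m → m ≤ T m)
    (hreg : ∀ m m', 1 ≤ m → m ≤ m' → T m * m' ≤ c₀ * (T m' * m))
    (h : AvailG (limbT 4608 T) T) (j : ℕ) :
    ∃ (B : TM) (C : ℕ), TransposesRect B ∧ ∀ a b : ℕ, 1 ≤ a → 1 ≤ b →
      rectTime B a b ≤ C * (T (a * b) + a * b * (Nat.log 2)^[j] (a * b)) := by
  obtain ⟨B, C, hB, hC⟩ := availG_bit hT h j
  obtain ⟨K, hK⟩ := regular_lvG hT hreg j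
  refine ⟨B, C * (K + 1), hB, fun a b ha hb => (hC a b ha hb).trans ?_⟩
  rw [Nat.mul_assoc C (K + 1)]
  apply Nat.mul_le_mul_left
  have h1 := hK a b (a * b) ha hb le_rfl
  have h2 : (Nat.log 2)^[j + 1] (a * b) ≤ (Nat.log 2)^[j] (a * b) := by
    rw [Function.iterate_succ_apply']
    exact Nat.log_le_self _ _
  set G := (Nat.log 2)^[j] (a * b) with hG
  have h3 : K * (T (a * b) + a * b * (Nat.log 2)^[j + 1] (a * b)) ≤
      K * (T (a * b) + a * b * G) :=
    Nat.mul_le_mul_left _ (Nat.add_le_add_left (Nat.mul_le_mul_left _ h2) _)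
  have h4 : (K + 1) * (T (a * b) + a * b * G) =
      K * (T (a * b) + a * b * G) + (T (a * b) + a * b * G) := by ring
  rw [h4]
  have h5 := Nat.zero_le (a * b * G)
  omega

/-- Words: the length of the entries. -/
theorem words_le {a c w : ℕ} (ha : 1 ≤ a) (hw : 2 * (Nat.size a + Nat.size c) ≤ w) :
    ¬ w < 2 ^ Nat.size (Nat.size a + Nat.size c) := by
  have := pl_le (u := Nat.size a) (v := Nat.size c) (Nat.size_pos.2 ha)
  omega

/-- Entries of several bits, tiny multiplications in time `O(m (log m + 1) ^ e)`. -/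
theorem ent_poly {T Tt : ℕ → ℕ} {D e : ℕ} (he : 1 ≤ e) (hT : ∀ m, 1 ≤ m → m ≤ T m)
    (hTt : ∀ m, 1 ≤ m → Tt m ≤ D * (m * (Nat.log 2 m + 1) ^ e))
    (h : AvailG (limbT 4608 T) Tt) :
    ∃ (B : TM) (C : ℕ), TransposesEnt B ∧ ∀ a c w : ℕ, 1 ≤ a → 1 ≤ c → 1 ≤ w →
      entTime B a c w ≤ C * (T (a * c * w) + a * c * w *
        (Nat.log 2 (Nat.log 2 (a * c)) + 1) ^ e) := by
  obtain ⟨B, C, hB, hC⟩ := availG_ent hT h 1
  refine ⟨B, C * (D * 10 ^ e + 5), hB, fun a c w ha hc hw => (hC a c w ha hc hw).trans ?_⟩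
  rw [Nat.mul_assoc C (D * 10 ^ e + 5)]
  apply Nat.mul_le_mul_left
  have h1 := costG_poly he hTt w ha hc
  set G := (Nat.log 2 (Nat.log 2 (a * c)) + 1) ^ e with hG
  calc T (a * c * w) + a * c * w * costG Tt 1 (Nat.size a) (Nat.size c) w ≤
      T (a * c * w) + a * c * w * ((D * 10 ^ e + 5) * G) :=
        Nat.add_le_add_left (Nat.mul_le_mul_left _ h1) _
    _ ≤ (D * 10 ^ e + 5) * T (a * c * w) + a * c * w * ((D * 10 ^ e + 5) * G) :=
        Nat.add_le_add_right (Nat.le_mul_of_pos_left _ (by omega)) _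
    _ = (D * 10 ^ e + 5) * (T (a * c * w) + a * c * w * G) := by ring

/-- Words, two multiplications. -/
theorem ent_two {T Tt : ℕ → ℕ} (hT : ∀ m, 1 ≤ m → m ≤ T m)
    (h : AvailG (limbT 4608 T) Tt) :
    ∃ (B : TM) (C : ℕ), TransposesEnt B ∧ ∀ a c w : ℕ, 1 ≤ a → 1 ≤ c → 1 ≤ w →
      2 * (Nat.size a + Nat.size c) ≤ w →
      entTime B a c w ≤ C * (T (a * c * w) + a * c * w *
        (Tt (64 * 2 ^ Nat.size (Nat.size a + Nat.size c)) /
          (64 * 2 ^ Nat.size (Nat.size a + Nat.size c)))) := by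
  obtain ⟨B, C, hB, hC⟩ := availG_ent hT h 0
  refine ⟨B, C, hB, fun a c w ha hc hw hww => (hC a c w ha hc hw).trans ?_⟩
  unfold costG
  rw [if_neg (words_le ha hww)]

/-- Entries of several bits, regular multiplication time. For words there is no error term. -/
theorem ent_regular {T : ℕ → ℕ} {c₀ : ℕ} (hT : ∀ m, 1 ≤ m → m ≤ T m)
    (hreg : ∀ m m', 1 ≤ m → m ≤ m' → T m * m' ≤ c₀ * (T m' * m))
    (h : AvailG (limbT 4608 T) T) (j : ℕ) :
    ∃ (B : TM) (C : ℕ), TransposesEnt B ∧ (∀ a c w : ℕ, 1 ≤ a → 1 ≤ c → 1 ≤ w →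
      entTime B a c w ≤ C * (T (a * c * w) + a * c * w * (Nat.log 2)^[j] (a * c))) ∧
      ∀ a c w : ℕ, 1 ≤ a → 1 ≤ c → 1 ≤ w → 2 * (Nat.size a + Nat.size c) ≤ w →
        entTime B a c w ≤ C * T (a * c * w) := by
  obtain ⟨B, C, hB, hC⟩ := availG_ent hT h j
  obtain ⟨K, hK⟩ := regular_lvG hT hreg j
  obtain ⟨K₁, hK₁⟩ := regular_tiny hT hreg
  refine ⟨B, C * (K + K₁ + 1), hB, fun a c w ha hc hw => (hC a c w ha hc hw).trans ?_,
    fun a c w ha hc hw hww => (hC a c w ha hc hw).trans ?_⟩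
  · rw [Nat.mul_assoc C (K + K₁ + 1)]
    apply Nat.mul_le_mul_left
    have hle : a * c ≤ a * c * w := Nat.le_mul_of_pos_right _ hw
    have h1 := hK a c (a * c * w) ha hc hle
    have h1' := hK₁ a c (a * c * w) ha hc hle _ le_rfl
    have h2 : (Nat.log 2)^[j + 1] (a * c) ≤ (Nat.log 2)^[j] (a * c) := by
      rw [Function.iterate_succ_apply']
      exact Nat.log_le_self _ _
    set G := (Nat.log 2)^[j] (a * c) with hG
    have h3 : K * (T (a * c * w) + a * c * w * (Nat.log 2)^[j + 1] (a * c)) ≤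
        K * (T (a * c * w) + a * c * w * G) :=
      Nat.mul_le_mul_left _ (Nat.add_le_add_left (Nat.mul_le_mul_left _ h2) _)
    have h4 : (K + K₁ + 1) * (T (a * c * w) + a * c * w * G) =
        K * (T (a * c * w) + a * c * w * G) + K₁ * T (a * c * w) + T (a * c * w) +
          (K₁ * (a * c * w * G) + a * c * w * G) := by ring
    rw [h4]
    unfold costG
    split_ifs with hif
    · omega
    · omega
  · rw [Nat.mul_assoc C (K + K₁ + 1)]
    apply Nat.mul_le_mul_left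
    have hle : a * c ≤ a * c * w := Nat.le_mul_of_pos_right _ hw
    have h1 := hK₁ a c (a * c * w) ha hc hle _ le_rfl
    unfold costG
    rw [if_neg (words_le ha hww)]
    have h4 : (K + K₁ + 1) * T (a * c * w) =
        K * T (a * c * w) + K₁ * T (a * c * w) + T (a * c * w) := by ring
    rw [h4]
    have h5 := Nat.zero_le (K * T (a * c * w))
    omega

end Vale.Agent.P338.GS.Top
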