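import Vale.Agent.P338.H921.S2Final
import Vale.Agent.P338.S2Real
import Vale.Agent.P338.S2Small
import Vale.Agent.P338.Two
import Vale.Agent.P338.CallFull
import Vale.Agent.P338.SSCall
import Vale.Agent.P338.SSStages
import Vale.Agent.P338.SSAdd
import Vale.Agent.P338.SSBase
import Vale.Agent.P338.SSAsm
import Vale.Agent.P338.SSRed
import Vale.Agent.P338.SSNorm
import Vale.Agent.P338.SSDown
import Vale.Agent.P338.SSUpMain
import Vale.Agent.P338.H294.SSMain
import Vale.Agent.P338.LimbMain
import Vale.Agent.P338.MulGe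

/-!
# P338: availability of the programs
-/

namespace Vale.Agent.P338.S2

open Vale.Agent.P338

/-- There is a program that multiplies in time `O(m + T m)`. -/
def HasCall (T : ℕ → ℕ) : Prop :=
  ∃ (J E : Type) (_ : DecidableEq J) (_ : Finite J) (_ : Finite E) (call : Pr J E) (C : ℕ),
    CallFullSpec call T C

theorem avail_of {Tb Tt : ℕ → ℕ} (h1 : HasCall Tb) (h2 : HasCall Tt) : Avail Tb Tt := by
  obtain ⟨J1, E1, _, _, _, c1, C1, h1⟩ := h1
  obtain ⟨J2, E2, _, _, _, c2, C2, h2⟩ := h2
  obtain ⟨g1, g2⟩ := callFull_two h1 h2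
  exact ⟨Loc J1 ⊕ Loc J2, E1 ⊕ E2, inferInstance, inferInstance, inferInstance,
    fun k => exists_progs g1 g2 smallSpec k⟩

open Classical in
theorem hasCall_mul {A : TM} (hA : Multiplies A) : HasCall (mulTime A) := by
  have := A.finΓ
  have := A.finQ
  exact ⟨AReg A.k, ASym A, inferInstance, inferInstance, inferInstance, callFull A, 100,
    callFullSpec A hA⟩

/-- All stacks of the built-in multiplication. -/
def allQ : List SS.Q :=
  [.AX, .AY, .AZ, .X, .Y, .O, .A, .O2, .P, .V, .T1, .T2, .T3, .C1, .C2, .AC, .EE, .HB, .QQ,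
    .WW, .ST, .PP, .DD, .KP, .UU, .FR, .MM, .F1, .F2, .F3, .F4, .F5, .F6]

instance : Finite SS.Q := by
  have h : (Set.univ : Set SS.Q).Finite :=
    (List.finite_toSet allQ).subset fun q _ => by cases q <;> simp [allQ]
  exact Set.finite_univ_iff.mp h

/-- The built-in multiplication. -/
theorem hasCall_SS : HasCall SS.tSS :=
  ⟨SS.Q, Empty, inferInstance, inferInstance, inferInstance, _, _,
    SS.ssCall_spec (SS.mainSpec (SS.down_spec SS.fwd_spec SS.split_spec)
      (SS.up_spec SS.redSpec SS.inv_spec SS.normSpec SS.asm_spec) SS.base_spec)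
      Function.injective_id⟩

/-- All additional stacks of the multiplication by limbs. -/
def allLr : List Limb.Lr :=
  [.AX, .AY, .AZ, .XR, .YR, .YC, .XL, .TA, .MM, .PZ, .LL, .LZ, .KK, .KO, .Z, .WA, .P, .V, .T,
    .T2, .C1, .C2, .F4, .F5, .F6]

instance : Finite Limb.Lr := by
  have h : (Set.univ : Set Limb.Lr).Finite :=
    (List.finite_toSet allLr).subset fun q _ => by cases q <;> simp [allLr]
  exact Set.finite_univ_iff.mp h

/-- The multiplication by limbs. -/
theorem hasCall_limb {K : ℕ} (hK : 1 ≤ K) {T : ℕ → ℕ} (h : HasCall T) :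
    HasCall (limbT K T) := by
  obtain ⟨J, E, _, _, _, c, C, h⟩ := h
  exact ⟨J ⊕ Limb.Lr, E, inferInstance, inferInstance, inferInstance, Limb.limb K c, _,
    Limb.limb_spec hK h⟩

theorem avail_mul {A A' : TM} (hA : Multiplies A) (hA' : Multiplies A') {K : ℕ} (hK : 1 ≤ K) :
    Avail (limbT K (mulTime A)) (mulTime A') :=
  avail_of (hasCall_limb hK (hasCall_mul hA)) (hasCall_mul hA')

theorem avail_SS {A : TM} (hA : Multiplies A) {K : ℕ} (hK : 1 ≤ K) :
    Avail (limbT K (mulTime A)) SS.tSS :=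
  avail_of (hasCall_limb hK (hasCall_mul hA)) hasCall_SS

end Vale.Agent.P338.S2
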