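import Vale.Agent.P338.H921.T2F
import Vale.Agent.P338.H921.GBitsG

/-!
# P338, matrices of every shape: the bounds with the double logarithm
-/

namespace Vale.Agent.P338.GS.Top

open Vale.Agent.P338 Vale.Agent.P338.S2

/-- The program for the transposition of words is available, second form. -/
def AvailG2 (Tb : ℕ → ℕ) : Prop :=
  ∃ (J E : Type) (_ : DecidableEq J) (_ : Finite J) (_ : Finite E) (p : PW J E) (C : ℕ),
    PermSpec2 p Tb C

theorem pi_le2 {a b : ℕ} (ha : 1 ≤ a) (hb : 1 ≤ b) :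
    Nat.size (Nat.size a + Nat.size b) + 1 ≤ 4 * (Nat.log 2 (Nat.log 2 (a * b)) + 1) := by
  have := pi_le ha hb
  omega

/-- Entries of several bits. -/
theorem ent2_final {T : ℕ → ℕ} (hT : ∀ m, 1 ≤ m → m ≤ T m) (h : AvailG2 (limbT K5 T)) :
    ∃ (B : TM) (C : ℕ), TransposesEnt B ∧ ∀ a c w : ℕ, 1 ≤ a → 1 ≤ c → 1 ≤ w →
      entTime B a c w ≤ C * (T (a * c * w) + a * c * w *
        (Nat.log 2 (Nat.log 2 (a * c)) + 1)) := by
  obtain ⟨J, E, _, _, _, p, C, hp⟩ := h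
  obtain ⟨B, C', hB, hC'⟩ := ent2_machine (mP3_spec (E := E) K5) hp (by norm_num [K5])
    (fun a c w => by omega)
  refine ⟨B, C' * 5, hB, fun a c w ha hc hw => (hC' a c w ha hc hw).trans ?_⟩
  rw [Nat.mul_assoc C' 5]
  apply Nat.mul_le_mul_left
  unfold cT2
  beta_reduce
  rw [limbT_mul (by norm_num [K5])]
  have h1 := hT (a * c * w) (Nat.mul_pos (Nat.mul_pos ha hc) hw)
  have h2 := pi_le2 ha hc
  set y := Nat.log 2 (Nat.log 2 (a * c)) + 1 with hy
  have h3 : a * c * w * (Nat.size (Nat.size a + Nat.size c) + 1) ≤ a * c * w * (4 * y) :=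
    Nat.mul_le_mul_left _ h2
  have h4 : a * c * w * (4 * y) = 4 * (a * c * w * y) := by ring
  omega

/-- Bit matrices of every shape. -/
theorem rect2_final {T : ℕ → ℕ} (hT : ∀ m, 1 ≤ m → m ≤ T m) (h : AvailG2 (limbT K5 T)) :
    ∃ (B : TM) (C : ℕ), TransposesRect B ∧ ∀ a b : ℕ, 1 ≤ a → 1 ≤ b →
      rectTime B a b ≤ C * (T (a * b) + a * b * (Nat.log 2 (Nat.log 2 (a * b)) + 1)) := by
  obtain ⟨J, E, _, _, _, p, C, hp⟩ := h
  obtain ⟨B, C', hB, hC'⟩ := bit2_machine (mP3_spec (E := E) K5) hp (by norm_num [K5])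
    (fun a c w => by omega)
  refine ⟨B, C' * 5, hB, fun a b ha hb => (hC' a b ha hb).trans ?_⟩
  rw [Nat.mul_assoc C' 5]
  apply Nat.mul_le_mul_left
  unfold cT2
  beta_reduce
  rw [limbT_mul (by norm_num [K5]), Nat.mul_one]
  have h1 := hT (a * b) (Nat.mul_pos ha hb)
  have h2 := pi_le2 ha hb
  set y := Nat.log 2 (Nat.log 2 (a * b)) + 1 with hy
  have h3 : a * b * (Nat.size (Nat.size a + Nat.size b) + 1) ≤ a * b * (4 * y) :=
    Nat.mul_le_mul_left _ h2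
  have h4 : a * b * (4 * y) = 4 * (a * b * y) := by ring
  omega

theorem loglog_sq_le (n : ℕ) :
    Nat.log 2 (Nat.log 2 (n * n)) + 1 ≤ 3 * (Nat.log 2 (Nat.log 2 n) + 1) := by
  rcases Nat.eq_zero_or_pos n with hn | hn
  · subst hn
    simp
  have h1 : Nat.log 2 (n * n) ≤ 2 * Nat.log 2 n + 1 := by
    have h2 : n * n < 2 ^ (2 * Nat.log 2 n + 2) := by
      have h3 : n < 2 ^ (Nat.log 2 n + 1) := Nat.lt_pow_succ_log_self (by norm_num) n
      calc n * n < 2 ^ (Nat.log 2 n + 1) * 2 ^ (Nat.log 2 n + 1) :=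
            Nat.mul_lt_mul_of_lt_of_lt h3 h3
        _ = 2 ^ (2 * Nat.log 2 n + 2) := by rw [← pow_add]; congr 1; ring
    have := Nat.log_lt_of_lt_pow (by positivity) h2
    omega
  have h2 : Nat.log 2 (Nat.log 2 (n * n)) ≤ Nat.log 2 (2 * Nat.log 2 n + 1) :=
    Nat.log_mono_right h1
  rcases Nat.eq_zero_or_pos (Nat.log 2 n) with h | h
  · rw [h] at h2 ⊢
    simp only [Nat.mul_zero, Nat.zero_add, Nat.log_one_right] at h2
    omega
  · have h3 : Nat.log 2 (2 * Nat.log 2 n + 1) ≤ Nat.log 2 (Nat.log 2 n * 2 * 2) :=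
      Nat.log_mono_right (by omega)
    rw [Nat.log_mul_base (by norm_num) (by omega), Nat.log_mul_base (by norm_num) (by omega)]
      at h3
    omega

/-- Square bit matrices. -/
theorem sq2_final {T : ℕ → ℕ} (hT : ∀ m, 1 ≤ m → m ≤ T m) (h : AvailG2 (limbT K5 T)) :
    ∃ (B : TM) (C : ℕ), Transposes B ∧ ∀ n : ℕ, 1 ≤ n →
      transTime B n ≤ C * (T (n ^ 2) + n ^ 2 * (Nat.log 2 (Nat.log 2 n) + 1)) := by
  obtain ⟨J, E, _, _, _, p, C, hp⟩ := h
  obtain ⟨B, C', hB, hC'⟩ := sq2_machine (mP3_spec (E := E) K5) hp (by norm_num [K5])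
    (fun a c w => by omega)
  refine ⟨B, C' * 13, hB, fun n hn => (hC' n hn).trans ?_⟩
  rw [Nat.mul_assoc C' 13]
  apply Nat.mul_le_mul_left
  unfold cT2
  beta_reduce
  rw [limbT_mul (by norm_num [K5]), Nat.mul_one, sq]
  have h1 := hT (n * n) (Nat.mul_pos hn hn)
  have h2 := (pi_le2 hn hn).trans (Nat.mul_le_mul_left 4 (loglog_sq_le n))
  set y := Nat.log 2 (Nat.log 2 n) + 1 with hy
  have h3 : n * n * (Nat.size (Nat.size n + Nat.size n) + 1) ≤ n * n * (4 * (3 * y)) :=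
    Nat.mul_le_mul_left _ h2
  have h4 : n * n * (4 * (3 * y)) = 12 * (n * n * y) := by ring
  omega

/-- Near-square bit matrices, multiplications of a given size. -/
theorem near2_final {T : ℕ → ℕ} (hT : ∀ m, 1 ≤ m → m ≤ T m) (h : AvailG2 (limbT K5 T))
    (q ρ : ℕ) :
    ∃ (B : TM) (C : ℕ), TransposesRect B ∧ ∀ a b : ℕ, 1 ≤ a → 1 ≤ b →
      rectTime B a b ≤ C * (T (mszK 1 q ρ a b) +
        (max a b) ^ 2 * (Nat.log 2 (Nat.log 2 (max a b)) + 1) ^ 1) := by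
  obtain ⟨J, E, _, _, _, p, C, hp⟩ := h
  obtain ⟨B, C', hB, hC'⟩ := bit2_machine (mP4_spec (E := E) K5 q ρ) hp (by norm_num [K5])
    (fun a c w => le_mszK q ρ a c w)
  refine ⟨B, C' * 13, hB, fun a b ha hb => (hC' a b ha hb).trans ?_⟩
  rw [Nat.mul_assoc C' 13]
  apply Nat.mul_le_mul_left
  unfold cT2
  beta_reduce
  rw [limbT_mul (by norm_num [K5]), Nat.mul_one, Nat.mul_one, pow_one]
  have h0 : 1 ≤ mszK 1 q ρ a b := by
    have h1 := le_mszK q ρ a b 1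
    rw [Nat.mul_one, Nat.mul_one] at h1
    have h2 : 1 ≤ a * b := Nat.mul_pos ha hb
    omega
  have h1 := hT _ h0
  set m := max a b with hm
  have hab : a * b ≤ m * m := Nat.mul_le_mul (le_max_left _ _) (le_max_right _ _)
  have h2 : Nat.log 2 (Nat.log 2 (a * b)) ≤ Nat.log 2 (Nat.log 2 (m * m)) :=
    Nat.log_mono_right (Nat.log_mono_right hab)
  have h2' := loglog_sq_le m
  have h2'' := pi_le2 ha hb
  have h3 : Nat.size (Nat.size a + Nat.size b) + 1 ≤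
      4 * (3 * (Nat.log 2 (Nat.log 2 m) + 1)) := by omega
  set y := Nat.log 2 (Nat.log 2 m) + 1 with hy
  have h4 : a * b * (Nat.size (Nat.size a + Nat.size b) + 1) ≤ m * m * (4 * (3 * y)) :=
    Nat.mul_le_mul hab h3
  have h5 : m * m * (4 * (3 * y)) = 12 * (m ^ 2 * y) := by ring
  omega

end Vale.Agent.P338.GS.Top
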