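import Mathlib

/-!
# P338: pure real analysis for the asymptotic form of the reduction
-/

namespace Vale.Agent.P338

open Filter

/-- From `t ≤ C (j T + S l / 2^j)` for every `j ≥ 1` and `t ≥ c S l` one gets `T ≥ c' S l`. -/
theorem lower_of_reduction {C c : ℝ} (hC : 0 ≤ C) (hc : 0 < c) :
    ∃ c' : ℝ, 0 < c' ∧ ∀ t T X : ℝ, 0 ≤ X → 
      (∀ j : ℕ, 1 ≤ j → t ≤ C * (j * T + X / 2 ^ j)) → c * X ≤ t → 0 ≤ T → c' * X ≤ T := by
  obtain ⟨j, hj⟩ : ∃ j : ℕ, 2 * C / c < 2 ^ j := pow_unbounded_of_one_lt _ (by norm_num)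
  set i := j + 1 with hi
  have hi1 : 1 ≤ i := by omega
  have h2i : (0 : ℝ) < 2 ^ i := by positivity
  have hji : 2 * C < c * 2 ^ i := by
    have h1 : 2 * C < c * 2 ^ j := by
      rw [div_lt_iff₀ hc] at hj; linarith
    have h2 : (2 : ℝ) ^ j ≤ 2 ^ i := pow_le_pow_right₀ (by norm_num) (by omega)
    nlinarith
  refine ⟨c / (2 * (C + 1) * i), by positivity, fun t T X hX ht hcX hT => ?_⟩
  have h1 := ht i hi1
  have h3 : C * (X / 2 ^ i) ≤ c / 2 * X := by
    rw [← mul_div_assoc, div_le_iff₀ h2i]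
    nlinarith
  have h4 : c / 2 * X ≤ C * (i * T) := by
    have : C * (i * T + X / 2 ^ i) = C * (i * T) + C * (X / 2 ^ i) := by ring
    rw [this] at h1
    linarith
  have hiT : 0 ≤ (i : ℝ) * T := by positivity
  have h5 : c / 2 * X ≤ (C + 1) * (i * T) := by nlinarith
  have hpos : (0 : ℝ) < 2 * (C + 1) * i := by
    have : (0 : ℝ) < i := by exact_mod_cast hi1
    positivity
  rw [div_mul_eq_mul_div, div_le_iff₀ hpos]
  nlinarith

end Vale.Agent.P338
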