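import Vale.Agent.P338.Assembly
import Vale.Agent.P338.H921.AsymPure

/-!
# P338: the asymptotic form of the reduction
-/

namespace Vale.Agent.P338

theorem natLog_le_log {n : ℕ} (hn : 1 ≤ n) : (Nat.log 2 n : ℝ) ≤ 2 * Real.log n := by
  have h1 : ((2 ^ Nat.log 2 n : ℕ) : ℝ) ≤ n := by
    exact_mod_cast Nat.pow_log_le_self 2 (by omega)
  have h2 : Real.log ((2 ^ Nat.log 2 n : ℕ) : ℝ) ≤ Real.log n :=
    Real.log_le_log (by positivity) h1
  rw [Nat.cast_pow, Real.log_pow] at h2
  have h3 := Real.log_two_gt_d9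
  have h4 : (0 : ℝ) ≤ Nat.log 2 n := Nat.cast_nonneg _
  have h5 : (Nat.log 2 n : ℝ) * (1 / 2) ≤ Nat.log 2 n * Real.log (2 : ℕ) := by
    apply mul_le_mul_of_nonneg_left _ h4
    push_cast
    linarith
  have h6 := h5.trans h2
  linarith

/-- If every machine that transposes square bit matrices needs time at least `c n² log n` for
all large `n`, then every multiplying machine needs time at least `c m log m` at the lengths
`m = 1920 n²`, `n` large. -/
theorem mul_lower_of_sq
    (h : ∀ B : TM, Transposes B → ∃ c : ℝ, 0 < c ∧ ∃ N : ℕ, ∀ n : ℕ, N ≤ n →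
      c * ((n : ℝ) ^ 2 * Real.log n) ≤ transTime B n)
    (A : TM) (hA : Multiplies A) :
    ∃ c : ℝ, 0 < c ∧ ∃ N : ℕ, ∀ n : ℕ, N ≤ n →
      c * (((1920 * n ^ 2 : ℕ) : ℝ) * Real.log ((1920 * n ^ 2 : ℕ) : ℝ)) ≤
        mulTime A (1920 * n ^ 2) := by
  obtain ⟨B, C, hB, hC⟩ := reduction_sq A hA
  obtain ⟨c, hc, N, hN⟩ := h B hB
  obtain ⟨c', hc', h'⟩ := lower_of_reduction (C := 2 * C) (by positivity) hc
  refine ⟨c' / (3 * 1920), by positivity, max N 1920, fun n hn => ?_⟩
  have hnN : N ≤ n := le_trans (le_max_left _ _) hn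
  have hn1920 : 1920 ≤ n := le_trans (le_max_right _ _) hn
  have hn1 : 1 ≤ n := by omega
  have hnR : (1920 : ℝ) ≤ n := by exact_mod_cast hn1920
  have hlog : 0 ≤ Real.log n := Real.log_nonneg (by linarith)
  have key := h' (transTime B n) (mulTime A (1920 * n ^ 2)) ((n : ℝ) ^ 2 * Real.log n)
    (by positivity) (fun j hj => ?_) (hN n hnN) (by positivity)
  · have h1 : Real.log ((1920 * n ^ 2 : ℕ) : ℝ) ≤ 3 * Real.log n := by
      push_cast
      rw [Real.log_mul (by norm_num) (by positivity), Real.log_pow]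
      have : Real.log 1920 ≤ Real.log n := Real.log_le_log (by norm_num) hnR
      push_cast
      linarith
    refine le_trans ?_ key
    have h2 : (0 : ℝ) ≤ ((1920 * n ^ 2 : ℕ) : ℝ) := Nat.cast_nonneg _
    calc c' / (3 * 1920) * (((1920 * n ^ 2 : ℕ) : ℝ) * Real.log ((1920 * n ^ 2 : ℕ) : ℝ))
        ≤ c' / (3 * 1920) * (((1920 * n ^ 2 : ℕ) : ℝ) * (3 * Real.log n)) := by
          apply mul_le_mul_of_nonneg_left _ (by positivity)
          exact mul_le_mul_of_nonneg_left h1 h2
      _ = c' * ((n : ℝ) ^ 2 * Real.log n) := by push_cast; ring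
  · refine (hC n j hn1 hj).trans ?_
    have h3 := natLog_le_log hn1
    have h4 : (n : ℝ) ^ 2 * Nat.log 2 n / 2 ^ j ≤ 2 * ((n : ℝ) ^ 2 * Real.log n / 2 ^ j) := by
      have : 2 * ((n : ℝ) ^ 2 * Real.log n / 2 ^ j) = (n : ℝ) ^ 2 * (2 * Real.log n) / 2 ^ j := by
        ring
      rw [this]
      gcongr
    have h5 : (0 : ℝ) ≤ j * mulTime A (1920 * n ^ 2) := by positivity
    have h6 : (0 : ℝ) ≤ C := Nat.cast_nonneg _
    nlinarith

/-- The same along a sequence: an infinite set of sizes where transposition is slow for each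
machine gives an infinite set of lengths where multiplication is slow. -/
theorem mul_lower_frequently_of_sq
    (h : ∀ B : TM, Transposes B → ∃ c : ℝ, 0 < c ∧ ∀ N : ℕ, ∃ n : ℕ, N ≤ n ∧
      c * ((n : ℝ) ^ 2 * Real.log n) ≤ transTime B n)
    (A : TM) (hA : Multiplies A) :
    ∃ c : ℝ, 0 < c ∧ ∀ N : ℕ, ∃ m : ℕ, N ≤ m ∧ c * ((m : ℝ) * Real.log m) ≤ mulTime A m := by
  obtain ⟨B, C, hB, hC⟩ := reduction_sq A hA
  obtain ⟨c, hc, hN⟩ := h B hB
  obtain ⟨c', hc', h'⟩ := lower_of_reduction (C := 2 * C) (by positivity) hc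
  refine ⟨c' / (3 * 1920), by positivity, fun N => ?_⟩
  obtain ⟨n, hn, hcn⟩ := hN (max N 1920)
  have hnN : N ≤ n := le_trans (le_max_left _ _) hn
  have hn1920 : 1920 ≤ n := le_trans (le_max_right _ _) hn
  have hn1 : 1 ≤ n := by omega
  have hnR : (1920 : ℝ) ≤ n := by exact_mod_cast hn1920
  have hlog : 0 ≤ Real.log n := Real.log_nonneg (by linarith)
  refine ⟨1920 * n ^ 2, by nlinarith, ?_⟩
  have key := h' (transTime B n) (mulTime A (1920 * n ^ 2)) ((n : ℝ) ^ 2 * Real.log n)
    (by positivity) (fun j hj => ?_) hcn (by positivity)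
  · have h1 : Real.log ((1920 * n ^ 2 : ℕ) : ℝ) ≤ 3 * Real.log n := by
      push_cast
      rw [Real.log_mul (by norm_num) (by positivity), Real.log_pow]
      have : Real.log 1920 ≤ Real.log n := Real.log_le_log (by norm_num) hnR
      push_cast
      linarith
    refine le_trans ?_ key
    have h2 : (0 : ℝ) ≤ ((1920 * n ^ 2 : ℕ) : ℝ) := Nat.cast_nonneg _
    calc c' / (3 * 1920) * (((1920 * n ^ 2 : ℕ) : ℝ) * Real.log ((1920 * n ^ 2 : ℕ) : ℝ))
        ≤ c' / (3 * 1920) * (((1920 * n ^ 2 : ℕ) : ℝ) * (3 * Real.log n)) := by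
          apply mul_le_mul_of_nonneg_left _ (by positivity)
          exact mul_le_mul_of_nonneg_left h1 h2
      _ = c' * ((n : ℝ) ^ 2 * Real.log n) := by push_cast; ring
  · refine (hC n j hn1 hj).trans ?_
    have h3 := natLog_le_log hn1
    have h4 : (n : ℝ) ^ 2 * Nat.log 2 n / 2 ^ j ≤ 2 * ((n : ℝ) ^ 2 * Real.log n / 2 ^ j) := by
      have : 2 * ((n : ℝ) ^ 2 * Real.log n / 2 ^ j) = (n : ℝ) ^ 2 * (2 * Real.log n) / 2 ^ j := by
        ring
      rw [this]
      gcongr
    have h5 : (0 : ℝ) ≤ j * mulTime A (1920 * n ^ 2) := by positivity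
    have h6 : (0 : ℝ) ≤ C := Nat.cast_nonneg _
    nlinarith

/-- Every length `n ≥ K` is the multiplication length `msz K q ρ a b` of a near-square shape
`(a, b)`, for one of the `q` values `ρ < q`. -/
theorem exists_shape {K D n : ℕ} (hK : 1 ≤ K) (hD : 1 ≤ D) (hn : K ≤ n) :
    ∃ a b ρ : ℕ, ρ < 3 * K * D ∧ 1 ≤ a ∧ a ≤ b ∧ (b - a) * D ≤ a ∧
      msz K (3 * K * D) ρ a b = n ∧ n < K * (a + 1) ^ 2 := by
  set a := Nat.sqrt (n / K) with ha
  have h1 : 1 ≤ n / K := (Nat.le_div_iff_mul_le (by omega)).2 (by omega)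
  have ha1 : 1 ≤ a := by
    rw [ha, Nat.le_sqrt]; omega
  have h2 : a * a ≤ n / K := Nat.sqrt_le _
  have h3 : n / K < (a + 1) * (a + 1) := Nat.lt_succ_sqrt _
  have h4 : K * (a * a) ≤ n := by
    calc K * (a * a) ≤ K * (n / K) := Nat.mul_le_mul_left _ h2
      _ ≤ n := Nat.mul_div_le _ _
  have h5 : n < K * ((a + 1) * (a + 1)) := by
    have := Nat.div_lt_iff_lt_mul (x := n) (y := (a + 1) * (a + 1)) (k := K) (by omega)
    rw [mul_comm]
    exact this.1 h3
  set r := n - K * (a * a) with hr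
  have h6 : r < 3 * K * a := by
    have : K * ((a + 1) * (a + 1)) = K * (a * a) + K * (2 * a + 1) := by ring
    have h7 : K * (2 * a + 1) ≤ 3 * K * a := by nlinarith
    omega
  have hq : 0 < 3 * K * D := by positivity
  refine ⟨a, a + r / (3 * K * D), r % (3 * K * D), Nat.mod_lt _ hq, ha1,
    Nat.le_add_right _ _, ?_, ?_, ?_⟩
  · have h8 : a + r / (3 * K * D) - a = r / (3 * K * D) := Nat.add_sub_cancel_left _ _
    rw [h8, ← Nat.div_div_eq_div_mul]
    calc r / (3 * K) / D * D ≤ r / (3 * K) := Nat.div_mul_le_self _ _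
      _ ≤ a := by
        apply Nat.div_le_of_le_mul
        exact h6.le
  · have h8 : a + r / (3 * K * D) - a = r / (3 * K * D) := Nat.add_sub_cancel_left _ _
    have h9 : r / (3 * K * D) ≤ a := by
      apply Nat.div_le_of_le_mul
      calc r ≤ 3 * K * a := h6.le
        _ ≤ 3 * K * D * a := by
          apply Nat.mul_le_mul_right
          exact Nat.le_mul_of_pos_right _ (by omega)
    unfold msz
    rw [if_pos ⟨Nat.le_add_right _ _, by rw [h8]; exact h9⟩, h8]
    have h10 := Nat.div_add_mod r (3 * K * D)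
    have h11 : K * a ^ 2 = K * (a * a) := by ring
    rw [h11]
    omega
  · have : (a + 1) ^ 2 = (a + 1) * (a + 1) := by ring
    rw [this]; exact h5

/-- **Question 1 for all lengths, from near-square transposition.** Fix any `δ > 0`. If every
machine that transposes rectangular bit matrices needs time at least `c a² log a` on the
near-square shapes `a × b`, `a ≤ b ≤ (1 + δ) a`, `a` large, then every multiplying machine
needs time at least `c n log n` for all large `n`. -/
theorem mul_lower_of_rect {δ : ℝ} (hδ : 0 < δ)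
    (h : ∀ B : TM, TransposesRect B → ∃ c : ℝ, 0 < c ∧ ∃ N : ℕ, ∀ a b : ℕ, N ≤ a → a ≤ b →
      (b : ℝ) ≤ (1 + δ) * a → c * ((a : ℝ) ^ 2 * Real.log a) ≤ rectTime B a b)
    (A : TM) (hA : Multiplies A) :
    ∃ c : ℝ, 0 < c ∧ ∃ N : ℕ, 2 ≤ N ∧ ∀ n : ℕ, N ≤ n →
      c * ((n : ℝ) * Real.log n) ≤ mulTime A n := by
  obtain ⟨D, hD⟩ : ∃ D : ℕ, 1 / δ < D := exists_nat_gt _
  have hD1 : 1 ≤ D := by
    have : (0 : ℝ) < D := lt_trans (by positivity) hD
    exact_mod_cast this
  set K := 7680 with hKdef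
  set q := 3 * K * D with hq
  have hqpos : 0 < q := by positivity
  have step : ∀ ρ : ℕ, ∃ c : ℝ, 0 < c ∧ ∃ N : ℕ, ∀ a b : ℕ, N ≤ a → a ≤ b →
      (b - a) * D ≤ a → msz K q ρ a b < K * (a + 1) ^ 2 →
      c * ((msz K q ρ a b : ℝ) * Real.log (msz K q ρ a b)) ≤ mulTime A (msz K q ρ a b) := by
    intro ρ
    obtain ⟨B, C, hB, hC⟩ := reduction_rect A hA K q ρ le_rfl
    obtain ⟨c, hc, N, hN⟩ := h B hB
    obtain ⟨c', hc', h'⟩ := lower_of_reduction (C := 16 * K * C) (by positivity) hc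
    refine ⟨c' / (12 * K), by positivity, max N (4 * K), fun a b ha hab hbD hm => ?_⟩
    have haN : N ≤ a := le_trans (le_max_left _ _) ha
    have haK : 4 * K ≤ a := le_trans (le_max_right _ _) ha
    have ha1 : 1 ≤ a := by omega
    have haR : ((4 * K : ℕ) : ℝ) ≤ a := by exact_mod_cast haK
    have haR' : (30720 : ℝ) ≤ a := by
      have : ((4 * K : ℕ) : ℝ) = 30720 := by norm_num [hKdef]
      linarith
    have hlog : 0 ≤ Real.log a := Real.log_nonneg (by linarith)
    have hb2 : b ≤ 2 * a := by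
      have : b - a ≤ (b - a) * D := Nat.le_mul_of_pos_right _ (by omega)
      omega
    have hbδ : (b : ℝ) ≤ (1 + δ) * a := by
      have h1 : ((b - a : ℕ) : ℝ) * D ≤ a := by exact_mod_cast hbD
      have h2 : ((b - a : ℕ) : ℝ) = b - a := by
        rw [Nat.cast_sub hab]
      rw [h2] at h1
      have h3 : (0 : ℝ) ≤ (b : ℝ) - a := by
        have : (a : ℝ) ≤ b := by exact_mod_cast hab
        linarith
      have h4 : (1 : ℝ) ≤ δ * D := by
        rw [div_lt_iff₀ hδ] at hD
        linarith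
      nlinarith
    set m := msz K q ρ a b with hmdef
    have hm4 : m ≤ 4 * K * a ^ 2 := by
      have : K * (a + 1) ^ 2 ≤ K * (2 * a) ^ 2 :=
        Nat.mul_le_mul_left _ (Nat.pow_le_pow_left (by omega) 2)
      calc m ≤ K * (a + 1) ^ 2 := hm.le
        _ ≤ K * (2 * a) ^ 2 := this
        _ = 4 * K * a ^ 2 := by ring
    have hm4R : (m : ℝ) ≤ 4 * K * (a : ℝ) ^ 2 := by exact_mod_cast hm4
    have hm1 : 1 ≤ m := by
      have h1 := le_msz (K := K) (q := q) (ρ := ρ) (a := a) (b := b) le_rfl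
      have h2 : 1 ≤ (max a b) ^ 2 := Nat.one_le_pow _ _ (by omega)
      omega
    have hm1R : (1 : ℝ) ≤ m := by exact_mod_cast hm1
    have key := h' (rectTime B a b) (mulTime A m) ((a : ℝ) ^ 2 * Real.log a)
      (by positivity) (fun j hj => ?_) (hN a b haN hab hbδ) (by positivity)
    · have h1 : Real.log (m : ℝ) ≤ 3 * Real.log a := by
        have h2 : Real.log (m : ℝ) ≤ Real.log ((4 * K : ℕ) * (a : ℝ) ^ 2) := by
          apply Real.log_le_log (by linarith)
          push_cast
          exact hm4R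
        rw [Real.log_mul (by positivity) (by positivity), Real.log_pow] at h2
        have h3 : Real.log ((4 * K : ℕ) : ℝ) ≤ Real.log a :=
          Real.log_le_log (by positivity) haR
        push_cast at h2 h3
        linarith
      refine le_trans ?_ key
      calc c' / (12 * K) * ((m : ℝ) * Real.log m)
          ≤ c' / (12 * K) * ((4 * K * (a : ℝ) ^ 2) * (3 * Real.log a)) := by
            apply mul_le_mul_of_nonneg_left _ (by positivity)
            exact mul_le_mul hm4R h1 (Real.log_nonneg hm1R) (by positivity)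
        _ = c' * ((a : ℝ) ^ 2 * Real.log a) := by
            have : (K : ℝ) ≠ 0 := by positivity
            field_simp
            ring
    · refine (hC a b j ha1 (by omega) hj).trans ?_
      rw [← hmdef]
      have hmax : max a b = b := max_eq_right hab
      rw [hmax]
      have h3 : (Nat.log 2 b : ℝ) ≤ 4 * Real.log a := by
        have h4 := natLog_le_log (n := b) (by omega)
        have h5 : Real.log (b : ℝ) ≤ Real.log (2 * a) := by
          apply Real.log_le_log
          · exact_mod_cast (by omega : 0 < b)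
          · exact_mod_cast hb2
        rw [Real.log_mul (by norm_num) (by positivity)] at h5
        have h6 : Real.log 2 ≤ Real.log a := Real.log_le_log (by norm_num) (by linarith)
        linarith
      have h4 : (m : ℝ) * Nat.log 2 b / 2 ^ j ≤
          16 * K * ((a : ℝ) ^ 2 * Real.log a / 2 ^ j) := by
        have : 16 * K * ((a : ℝ) ^ 2 * Real.log a / 2 ^ j) =
            (4 * K * (a : ℝ) ^ 2) * (4 * Real.log a) / 2 ^ j := by ring
        rw [this]
        gcongr
      have h5 : (0 : ℝ) ≤ j * mulTime A m := by positivity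
      have h6 : (0 : ℝ) ≤ C := Nat.cast_nonneg _
      have h7 : (1 : ℝ) ≤ 16 * K := by
        have : (1 : ℝ) ≤ (K : ℝ) := by norm_num [hKdef]
        linarith
      have h8 : (j : ℝ) * mulTime A m ≤ 16 * K * (j * mulTime A m) := by nlinarith
      calc (C : ℝ) * (j * mulTime A m + m * Nat.log 2 b / 2 ^ j)
          ≤ C * (16 * K * (j * mulTime A m) + 16 * K * ((a : ℝ) ^ 2 * Real.log a / 2 ^ j)) := by
            apply mul_le_mul_of_nonneg_left _ h6
            linarith
        _ = 16 * K * C * (j * mulTime A m + (a : ℝ) ^ 2 * Real.log a / 2 ^ j) := by ring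
  choose c hc N hN using step
  have hne : (Finset.range q).Nonempty := ⟨0, Finset.mem_range.2 hqpos⟩
  set c₀ := (Finset.range q).inf' hne c with hc₀
  have hc₀pos : 0 < c₀ := by
    rw [hc₀, Finset.lt_inf'_iff]
    exact fun i _ => hc i
  set N₀ := (Finset.range q).sup N with hN₀
  refine ⟨c₀, hc₀pos, K * (N₀ + 1) ^ 2 + 2 + K, by omega, fun n hn => ?_⟩
  obtain ⟨a, b, ρ, hρ, ha1, hab, hbD, hmn, hlt⟩ :=
    exists_shape (K := K) (D := D) (n := n) (by norm_num [hKdef]) hD1 (by omega)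
  have haN : N ρ ≤ a := by
    have h1 : N ρ ≤ N₀ := Finset.le_sup (f := N) (Finset.mem_range.2 hρ)
    have h2 : K * (N₀ + 1) ^ 2 < K * (a + 1) ^ 2 := by omega
    have h3 : (N₀ + 1) ^ 2 < (a + 1) ^ 2 := lt_of_mul_lt_mul_left h2 (by norm_num [hKdef])
    have h4 : N₀ + 1 < a + 1 := lt_of_pow_lt_pow_left₀ 2 (by omega) h3
    omega
  have h1 := hN ρ a b haN hab hbD (by rw [hmn]; exact hlt)
  rw [hmn] at h1
  refine le_trans ?_ h1
  apply mul_le_mul_of_nonneg_right
  · exact Finset.inf'_le _ (Finset.mem_range.2 hρ)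
  · have : (1 : ℝ) ≤ n := by exact_mod_cast (by omega : 1 ≤ n)
    exact mul_nonneg (by linarith) (Real.log_nonneg this)

end Vale.Agent.P338
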