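import Vale.Agent.P338.H921.GTopE

/-!
# P338, matrices of every shape: shuffles of small matrices
-/

namespace Vale.Agent.P338.GS.Top

open Vale.Agent.P338

variable {E : Type}

/-! ### Nested concatenations -/

theorem cat_fold {α : Type} (m n : ℕ) (f : ℕ → ℕ → List α) :
    (cat m fun i => cat n fun j => f i j) = cat (m * n) fun k => f (k / n) (k % n) := by
  rcases Nat.eq_zero_or_pos n with hn | hn
  · subst hn
    rw [Nat.mul_zero, cat_zero]
    exact cat_eq_nil _ fun _ _ => rfl
  · rw [cat_mul]
    refine cat_congr fun i _ => cat_congr fun j hj => ?_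
    rw [Nat.mul_comm i n, Nat.mul_add_div hn, Nat.div_eq_of_lt hj, Nat.add_zero,
      Nat.mul_add_mod, Nat.mod_eq_of_lt hj]

theorem cat_two {α : Type} (f : ℕ → List α) : cat 2 f = f 0 ++ f 1 := by
  rw [show (2 : ℕ) = 1 + 1 from rfl, cat_succ, cat_one]

theorem cat_append {α : Type} (n : ℕ) (f : ℕ → List α) (h : ∀ i < n, f i = []) (l : List α) :
    cat n f ++ l = l := by
  rw [cat_eq_nil _ h, List.nil_append]

/-! ### The data during the shuffles -/

/-- The data: `X` matrices with `M` rows and `N` columns, with entries `e x i j`. -/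
def A3 {α : Type} (X M N : ℕ) (e : ℕ → ℕ → ℕ → List α) : List α :=
  cat X fun x => cat M fun i => cat N fun j => e x i j

/-- The data after `s` shuffles. -/
def dS {α : Type} (X u v s : ℕ) (e : ℕ → ℕ → ℕ → List α) : List α :=
  cat X fun x => cat (2 ^ s) fun c0 => cat (2 ^ u) fun i => cat (2 ^ (v - s)) fun c1 =>
    e x i (c1 * 2 ^ s + c0)

theorem dS_zero {α : Type} (X u v : ℕ) (e : ℕ → ℕ → ℕ → List α) :
    dS X u v 0 e = A3 X (2 ^ u) (2 ^ v) e := by
  unfold dS A3
  refine cat_congr fun x _ => ?_
  rw [pow_zero, cat_one, Nat.sub_zero]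
  refine cat_congr fun i _ => cat_congr fun j _ => ?_
  rw [Nat.mul_one, Nat.add_zero]

theorem dS_last {α : Type} (X u v : ℕ) (e : ℕ → ℕ → ℕ → List α) :
    dS X u v v e = A3 X (2 ^ v) (2 ^ u) fun x j i => e x i j := by
  unfold dS A3
  refine cat_congr fun x _ => cat_congr fun j _ => cat_congr fun i _ => ?_
  rw [Nat.sub_self, pow_zero, cat_one, Nat.zero_mul, Nat.zero_add]

/-- The even entries of the blocks. -/
def dP {α : Type} (u v s : ℕ) (e : ℕ → ℕ → ℕ → List α) (x q : ℕ) : List α :=
  e x (q / 2 ^ (v - (s + 1)) % 2 ^ u)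
    (2 * (q % 2 ^ (v - (s + 1))) * 2 ^ s + q / 2 ^ (v - (s + 1)) / 2 ^ u)

/-- The odd entries of the blocks. -/
def dQ {α : Type} (u v s : ℕ) (e : ℕ → ℕ → ℕ → List α) (x q : ℕ) : List α :=
  e x (q / 2 ^ (v - (s + 1)) % 2 ^ u)
    ((2 * (q % 2 ^ (v - (s + 1))) + 1) * 2 ^ s + q / 2 ^ (v - (s + 1)) / 2 ^ u)

theorem dS_eq {α : Type} (X u v s : ℕ) (hs : s < v) (e : ℕ → ℕ → ℕ → List α) :
    dS X u v s e = cat X fun x => cat (2 ^ (u + v - 1)) fun q =>
      dP u v s e x q ++ dQ u v s e x q := by
  unfold dS
  refine cat_congr fun x _ => ?_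
  have e1 : 2 ^ (v - s) = 2 ^ (v - (s + 1)) * 2 := by
    rw [← pow_succ]
    congr 1
    omega
  have e2 : 2 ^ (u + v - 1) = 2 ^ s * 2 ^ u * 2 ^ (v - (s + 1)) := by
    rw [← pow_add, ← pow_add]
    congr 1
    omega
  have e3 : ∀ c0 i : ℕ, (cat (2 ^ (v - s)) fun c1 => e x i (c1 * 2 ^ s + c0)) =
      cat (2 ^ (v - (s + 1))) fun c1 => e x i (2 * c1 * 2 ^ s + c0) ++
        e x i ((2 * c1 + 1) * 2 ^ s + c0) := by
    intro c0 i
    rw [e1, cat_mul]
    refine cat_congr fun c1 _ => ?_
    rw [cat_two, Nat.add_zero, Nat.mul_comm c1 2]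
  simp only [e3]
  rw [cat_fold, cat_fold, e2]
  rfl

theorem dS_succ {α : Type} (X u v s : ℕ) (hs : s < v) (e : ℕ → ℕ → ℕ → List α) :
    dS X u v (s + 1) e = cat X fun x => cat (2 ^ (u + v - 1)) (dP u v s e x) ++
      cat (2 ^ (u + v - 1)) (dQ u v s e x) := by
  unfold dS
  refine cat_congr fun x _ => ?_
  have e2 : 2 ^ (u + v - 1) = 2 ^ s * 2 ^ u * 2 ^ (v - (s + 1)) := by
    rw [← pow_add, ← pow_add]
    congr 1
    omega
  have e3 : 2 ^ (s + 1) = 2 * 2 ^ s := by rw [pow_succ]; ring
  rw [e2, e3, cat_mul, cat_two, Nat.zero_mul, Nat.one_mul]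
  congr 1
  · rw [cat_fold, cat_fold]
    refine cat_congr fun q _ => ?_
    unfold dP
    congr 1
    ring
  · rw [cat_fold, cat_fold]
    refine cat_congr fun q _ => ?_
    unfold dQ
    congr 1
    ring

/-! ### Doubling -/

/-- Double the number on `h`. -/
def dblH : PT E := (Prog.tag .h .n1 1 .n2 mk).seq ((Prog.rev .n1 .h).seq (Prog.rev .n2 .h))

theorem runs_dblH (X : ℕ) (K : GT E) :
    Runs dblH ({K with h := una X, n1 := [], n2 := []} : GT E).st
      ({K with h := una (2 * X), n1 := [], n2 := []} : GT E).st (13 * X + 2) := by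
  have h1 := Runs.tag (x := Gr.h) (y := .n1) (i := .n2) (by decide) (by decide) (by decide) 1
    (mk : SSym E) ({K with h := una X, n1 := [], n2 := []} : GT E).st
  have h2 := Runs.rev (i := Gr.n1) (j := .h) (by decide)
    ({K with h := [], n1 := una X, n2 := una X} : GT E).st
  have h3 := Runs.rev (i := Gr.n2) (j := .h) (by decide)
    ({K with h := una X, n1 := [], n2 := una X} : GT E).st
  simp only [GT.st, length_una, List.append_nil, reverse_una, Nat.one_mul] at h1 h2 h3
  have g1 : Runs _ _ ({K with h := [], n1 := una X, n2 := una X} : GT E).st _ :=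
    h1.of_eq (by rw [upd_h, upd_n1, upd_n2]; rfl)
  have g2 : Runs _ _ ({K with h := una X, n1 := [], n2 := una X} : GT E).st _ :=
    h2.of_eq (by rw [upd_n1, upd_h])
  have g3 : Runs _ _ ({K with h := una (2 * X), n1 := [], n2 := []} : GT E).st _ :=
    h3.of_eq (by
      rw [upd_n2, upd_h]
      have := una_append_una (E := E) X X []
      rw [List.append_nil, List.append_nil] at this
      rw [this, ← Nat.two_mul])
  exact (g1.seq (g2.seq g3)).mono (by omega)

/-- Double the number on `n3`. -/
def dbl3 : PT E := (Prog.tag .n3 .n1 1 .n2 mk).seq ((Prog.rev .n1 .n3).seq (Prog.rev .n2 .n3))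

theorem runs_dbl3 (X : ℕ) (K : GT E) :
    Runs dbl3 ({K with n3 := una X, n1 := [], n2 := []} : GT E).st
      ({K with n3 := una (2 * X), n1 := [], n2 := []} : GT E).st (13 * X + 2) := by
  have h1 := Runs.tag (x := Gr.n3) (y := .n1) (i := .n2) (by decide) (by decide) (by decide) 1
    (mk : SSym E) ({K with n3 := una X, n1 := [], n2 := []} : GT E).st
  have h2 := Runs.rev (i := Gr.n1) (j := .n3) (by decide)
    ({K with n3 := [], n1 := una X, n2 := una X} : GT E).st
  have h3 := Runs.rev (i := Gr.n2) (j := .n3) (by decide)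
    ({K with n3 := una X, n1 := [], n2 := una X} : GT E).st
  simp only [GT.st, length_una, List.append_nil, reverse_una, Nat.one_mul] at h1 h2 h3
  have g1 : Runs _ _ ({K with n3 := [], n1 := una X, n2 := una X} : GT E).st _ :=
    h1.of_eq (by rw [upd_n3, upd_n1, upd_n2]; rfl)
  have g2 : Runs _ _ ({K with n3 := una X, n1 := [], n2 := una X} : GT E).st _ :=
    h2.of_eq (by rw [upd_n1, upd_n3])
  have g3 : Runs _ _ ({K with n3 := una (2 * X), n1 := [], n2 := []} : GT E).st _ :=
    h3.of_eq (by
      rw [upd_n2, upd_n3]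
      have := una_append_una (E := E) X X []
      rw [List.append_nil, List.append_nil] at this
      rw [this, ← Nat.two_mul])
  exact (g1.seq (g2.seq g3)).mono (by omega)

theorem sum_two_pow (n : ℕ) : ∑ k ∈ Finset.range n, 2 ^ k = 2 ^ n - 1 := by
  have := Nat.geomSum_eq (m := 2) le_rfl n
  simpa using this

/-- `n3 := 2 ^ (u + v - 1)`. -/
def halfP : PT E :=
  (Prog.push .n3 mk).seq ((Prog.copyOnto .u .n4 .n1).seq ((Prog.copyOnto .v .n4 .n1).seq
    ((Prog.pop .n4).seq ((Prog.forr .n4 .n5 dbl3).seq (Prog.clear .n4)))))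

theorem runs_halfP (u v : ℕ) (huv : 1 ≤ u + v) (K : GT E) :
    Runs halfP ({K with u := una u, v := una v, n1 := [], n2 := [], n3 := [], n4 := [],
                        n5 := []} : GT E).st
      ({K with u := una u, v := una v, n1 := [], n2 := [], n3 := una (2 ^ (u + v - 1)),
               n4 := [], n5 := []} : GT E).st (40 * 2 ^ (u + v)) := by
  have h1 := Runs.push Gr.n3 mk
    ({K with u := una u, v := una v, n1 := [], n2 := [], n3 := [], n4 := [], n5 := []} :
      GT E).st
  rw [upd_n3] at h1
  have h2 := Runs.copyOnto (a := Gr.u) (b := .n4) (t := .n1) (by decide) (by decide)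
    (by decide) ({K with u := una u, v := una v, n1 := [], n2 := [], n3 := una 1, n4 := [],
                         n5 := []} : GT E).st rfl
  have h3 := Runs.copyOnto (a := Gr.v) (b := .n4) (t := .n1) (by decide) (by decide)
    (by decide) ({K with u := una u, v := una v, n1 := [], n2 := [], n3 := una 1,
                         n4 := una u, n5 := []} : GT E).st rfl
  have h4 := Runs.pop Gr.n4 ({K with u := una u, v := una v, n1 := [], n2 := [],
                                     n3 := una 1, n4 := una (v + u), n5 := []} : GT E).st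
  have h5 := Runs.forr' (u := Gr.n4) (t := .n5) (by decide) (body := (dbl3 : PT E))
    (u + v - 1) mk
    (fun k => ({K with u := una u, v := una v, n1 := [], n2 := [], n3 := una (2 ^ k),
                       n4 := una (u + v - 1), n5 := []} : GT E).st)
    (fun k => 13 * 2 ^ k + 2) (fun _ _ => rfl) (fun _ _ => rfl)
    (by
      intro k hk l l'
      rw [upd_n4, upd_n5, upd_n4, upd_n5, pow_succ, Nat.mul_comm (2 ^ k) 2]
      exact runs_dbl3 (2 ^ k) {K with u := una u, v := una v, n4 := l, n5 := l'})
  have h6 := Runs.clear Gr.n4 ({K with u := una u, v := una v, n1 := [], n2 := [],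
                                       n3 := una (2 ^ (u + v - 1)), n4 := una (u + v - 1),
                                       n5 := []} : GT E).st
  simp only [GT.st, length_una, List.append_nil] at h2 h3 h4 h6
  have e1 : (una v : List (SSym E)) ++ una u = una (v + u) := by
    have := una_append_una (E := E) v u []
    rwa [List.append_nil, List.append_nil] at this
  have e2 : (una (v + u) : List (SSym E)).tail = una (u + v - 1) := by
    rw [← List.drop_one, drop_una, Nat.add_comm]
  rw [e1] at h3
  rw [e2] at h4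
  have g2 := h2.of_eq (upd_n4 _ _)
  have g3 := h3.of_eq (upd_n4 _ _)
  have g4 := h4.of_eq (upd_n4 _ _)
  have g6 := h6.of_eq (upd_n4 _ _)
  refine (h1.seq (g2.seq (g3.seq (g4.seq (h5.seq g6))))).mono ?_
  have s1 : ∑ k ∈ Finset.range (u + v - 1), (13 * 2 ^ k + 2 + 4) =
      13 * (2 ^ (u + v - 1) - 1) + 6 * (u + v - 1) := by
    rw [← sum_two_pow, Finset.mul_sum, Finset.sum_congr rfl fun k _ =>
      show 13 * 2 ^ k + 2 + 4 = 13 * 2 ^ k + 6 by ring, Finset.sum_add_distrib]
    simp [mul_comm]
  rw [s1]
  have s2 : 2 ^ (u + v) = 2 * 2 ^ (u + v - 1) := by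
    rw [← pow_succ']
    congr 1
    omega
  have s3 : u + v ≤ 2 ^ (u + v) := Nat.lt_two_pow_self.le
  omega

/-! ### One shuffle -/

/-- Two words. -/
def pairP : PT E := (Prog.movs .z .n1 .x .n4).seq (Prog.movs .z .n1 .x .n5)

theorem runs_pairP (b b' : List (SSym E)) (w : ℕ) (hb : b.length = w) (hb' : b'.length = w)
    (r P Q : List (SSym E)) (K : GT E) :
    Runs pairP ({K with z := una w, n1 := [], x := b ++ (b' ++ r), n4 := P,
                        n5 := Q} : GT E).st
      ({K with z := una w, n1 := [], x := r, n4 := b.reverse ++ P,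
               n5 := b'.reverse ++ Q} : GT E).st (16 * w + 3) := by
  have h1 := Runs.movs (u := Gr.z) (t := .n1) (x := .x) (y := .n4) (by decide) (by decide)
    (by decide) (by decide) (by decide) (by decide) mk
    ({K with z := una w, n1 := [], x := b ++ (b' ++ r), n4 := P, n5 := Q} : GT E).st
    b (b' ++ r) (by rw [hb]; rfl) rfl rfl
  rw [upd_x, upd_n4, hb] at h1
  have h2 := Runs.movs (u := Gr.z) (t := .n1) (x := .x) (y := .n5) (by decide) (by decide)
    (by decide) (by decide) (by decide) (by decide) mk
    ({K with z := una w, n1 := [], x := b' ++ r, n4 := b.reverse ++ P, n5 := Q} : GT E).st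
    b' r (by rw [hb']; rfl) rfl rfl
  rw [upd_x, upd_n5, hb'] at h2
  exact (h1.seq h2).mono (by omega)

/-- One shuffle of a block. -/
def dealB : PT E :=
  (Prog.forr .n3 .n2 pairP).seq ((Prog.rev .n4 .n6).seq ((Prog.rev .n6 .y).seq
    ((Prog.rev .n5 .n6).seq (Prog.rev .n6 .y))))

theorem runs_dealB (w H : ℕ) (P Q : ℕ → List (SSym E)) (hP : ∀ q, (P q).length = w)
    (hQ : ∀ q, (Q q).length = w) (r Y : List (SSym E)) (K : GT E) :
    Runs dealB ({K with z := una w, n1 := [], n2 := [], n3 := una H, n4 := [], n5 := [],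
                        n6 := [], x := (cat H fun q => P q ++ Q q) ++ r, y := Y} : GT E).st
      ({K with z := una w, n1 := [], n2 := [], n3 := una H, n4 := [], n5 := [],
               n6 := [], x := r, y := (cat H P ++ cat H Q).reverse ++ Y} : GT E).st
      (28 * (H * w) + 10 * H + 5) := by
  have h1 := Runs.forr' (u := Gr.n3) (t := .n2) (by decide) (body := (pairP : PT E)) H mk
    (fun k => ({K with z := una w, n1 := [], n2 := [], n3 := una H,
                       n4 := (cat k P).reverse, n5 := (cat k Q).reverse, n6 := [],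
                       x := (cat (H - k) fun q => P (k + q) ++ Q (k + q)) ++ r,
                       y := Y} : GT E).st)
    (fun _ => 16 * w + 3) (fun _ _ => rfl) (fun _ _ => rfl)
    (by
      intro k hk l l'
      simp only [upd_n3, upd_n2]
      obtain ⟨m, hm⟩ : ∃ m, H - k = m + 1 := ⟨H - k - 1, by omega⟩
      have e1 : ((cat (H - k) fun q => P (k + q) ++ Q (k + q)) : List (SSym E)) ++ r =
          P k ++ (Q k ++ ((cat (H - (k + 1)) fun q => P (k + 1 + q) ++ Q (k + 1 + q)) ++ r)) := by
        rw [hm, cat_succ', show H - (k + 1) = m by omega, Nat.add_zero, List.append_assoc,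
          List.append_assoc]
        congr 3
        refine cat_congr fun i _ => ?_
        rw [show k + (i + 1) = k + 1 + i by omega]
      rw [e1, cat_succ, cat_succ, List.reverse_append, List.reverse_append]
      exact runs_pairP (P k) (Q k) w (hP k) (hQ k) _ _ _
        {K with n2 := l', n3 := l, n6 := [], y := Y})
  have e0 : ((cat (H - 0) fun q => P (0 + q) ++ Q (0 + q)) : List (SSym E)) ++ r =
      (cat H fun q => P q ++ Q q) ++ r := by
    simp only [Nat.sub_zero, Nat.zero_add]
  have e2 : ((cat (H - H) fun q => P (H + q) ++ Q (H + q)) : List (SSym E)) ++ r = r := by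
    rw [Nat.sub_self, cat_zero, List.nil_append]
  simp only [e0] at h1
  rw [e2] at h1
  have lP : (cat H P).length = H * w := length_cat_of fun i _ => hP i
  have lQ : (cat H Q).length = H * w := length_cat_of fun i _ => hQ i
  have h2 := Runs.rev (i := Gr.n4) (j := .n6) (by decide)
    ({K with z := una w, n1 := [], n2 := [], n3 := una H, n4 := (cat H P).reverse,
             n5 := (cat H Q).reverse, n6 := [], x := r, y := Y} : GT E).st
  have h3 := Runs.rev (i := Gr.n6) (j := .y) (by decide)
    ({K with z := una w, n1 := [], n2 := [], n3 := una H, n4 := [],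
             n5 := (cat H Q).reverse, n6 := cat H P, x := r, y := Y} : GT E).st
  have h4 := Runs.rev (i := Gr.n5) (j := .n6) (by decide)
    ({K with z := una w, n1 := [], n2 := [], n3 := una H, n4 := [],
             n5 := (cat H Q).reverse, n6 := [], x := r,
             y := (cat H P).reverse ++ Y} : GT E).st
  have h5 := Runs.rev (i := Gr.n6) (j := .y) (by decide)
    ({K with z := una w, n1 := [], n2 := [], n3 := una H, n4 := [],
             n5 := [], n6 := cat H Q, x := r, y := (cat H P).reverse ++ Y} : GT E).st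
  simp only [GT.st, List.length_reverse, List.reverse_reverse, List.append_nil, lP, lQ]
    at h2 h3 h4 h5
  have g2 : Runs _ _
      ({K with z := una w, n1 := [], n2 := [], n3 := una H, n4 := [],
               n5 := (cat H Q).reverse, n6 := cat H P, x := r, y := Y} : GT E).st _ :=
    h2.of_eq (by rw [upd_n4, upd_n6])
  have g3 : Runs _ _
      ({K with z := una w, n1 := [], n2 := [], n3 := una H, n4 := [],
               n5 := (cat H Q).reverse, n6 := [], x := r,
               y := (cat H P).reverse ++ Y} : GT E).st _ :=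
    h3.of_eq (by rw [upd_n6, upd_y])
  have g4 : Runs _ _
      ({K with z := una w, n1 := [], n2 := [], n3 := una H, n4 := [],
               n5 := [], n6 := cat H Q, x := r, y := (cat H P).reverse ++ Y} : GT E).st _ :=
    h4.of_eq (by rw [upd_n5, upd_n6])
  have g5 : Runs _ _
      ({K with z := una w, n1 := [], n2 := [], n3 := una H, n4 := [],
               n5 := [], n6 := [], x := r, y := (cat H P ++ cat H Q).reverse ++ Y} :
        GT E).st _ :=
    h5.of_eq (by rw [upd_n6, upd_y, List.reverse_append, List.append_assoc])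
  refine (h1.seq (g2.seq (g3.seq (g4.seq g5)))).mono ?_
  rw [Finset.sum_const, Finset.card_range, smul_eq_mul]
  have : H * (16 * w + 3 + 4) = 16 * (H * w) + 7 * H := by ring
  omega

/-- One shuffle of all blocks. -/
def dealP : PT E := (Prog.forr .h .n7 dealB).seq (Prog.rev .y .x)

theorem runs_dealP (X w H : ℕ) (P Q : ℕ → ℕ → List (SSym E))
    (hP : ∀ x q, (P x q).length = w) (hQ : ∀ x q, (Q x q).length = w) (K : GT E) :
    Runs dealP ({K with h := una X, z := una w, n1 := [], n2 := [], n3 := una H, n4 := [],
                        n5 := [], n6 := [], n7 := [],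
                        x := cat X fun x => cat H fun q => P x q ++ Q x q, y := []} :
        GT E).st
      ({K with h := una X, z := una w, n1 := [], n2 := [], n3 := una H, n4 := [], n5 := [],
               n6 := [], n7 := [], x := cat X fun x => cat H (P x) ++ cat H (Q x),
               y := []} : GT E).st (34 * (X * (H * w)) + 10 * (X * H) + 12 * X + 2) := by
  have h1 := runs_forr_cat (u := Gr.h) (t := .n7) (x := .x) (y := .y) (by decide) (by decide)
    (by decide) (by decide) (by decide) (body := dealB) mk (28 * (H * w) + 10 * H + 5)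
    ({K with h := una X, z := una w, n1 := [], n2 := [], n3 := una H, n4 := [], n5 := [],
             n6 := [], n7 := [], x := cat X fun x => cat H fun q => P x q ++ Q x q,
             y := []} : GT E).st X
    (fun x => cat H fun q => P x q ++ Q x q) (fun x => cat H (P x) ++ cat H (Q x)) []
    rfl rfl (by rw [List.append_nil]; rfl)
    (by
      intro k hk l₁ l₂ r' Y'
      simp only [upd_x, upd_y, upd_h, upd_n7]
      exact runs_dealB w H (P k) (Q k) (hP k) (hQ k) r' Y' {K with h := l₁, n7 := l₂})
  rw [upd_x, upd_y] at h1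
  have hl : (cat X fun x => cat H (P x) ++ cat H (Q x)).length = 2 * (X * (H * w)) := by
    rw [length_cat_of (L := 2 * (H * w))]
    · ring
    · intro x _
      rw [List.length_append, length_cat_of (L := w) fun i _ => hP x i,
        length_cat_of (L := w) fun i _ => hQ x i]
      ring
  have h2 := Runs.rev (i := Gr.y) (j := .x) (by decide)
    ({K with h := una X, z := una w, n1 := [], n2 := [], n3 := una H, n4 := [], n5 := [],
             n6 := [], n7 := [], x := [],
             y := (cat X fun x => cat H (P x) ++ cat H (Q x)).reverse ++ []} : GT E).st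
  simp only [GT.st, List.append_nil, List.length_reverse, List.reverse_reverse, hl] at h2
  have g2 : Runs _ _ ({K with h := una X, z := una w, n1 := [], n2 := [], n3 := una H,
                              n4 := [], n5 := [], n6 := [], n7 := [],
                              x := cat X fun x => cat H (P x) ++ cat H (Q x), y := []} :
      GT E).st _ := h2.of_eq (by rw [upd_y, upd_x])
  have g1 := h1.of_eq (s'' :=
    ({K with h := una X, z := una w, n1 := [], n2 := [],
             n3 := una H, n4 := [], n5 := [], n6 := [], n7 := [], x := [],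
             y := (cat X fun x => cat H (P x) ++ cat H (Q x)).reverse} : GT E).st) (by
    have : ∀ l : List (SSym E), l ++ [] = l := List.append_nil
    show
      ({K with h := una X, z := una w, n1 := [], n2 := [],
               n3 := una H, n4 := [], n5 := [], n6 := [], n7 := [], x := [],
               y := (cat X fun x => cat H (P x) ++ cat H (Q x)).reverse ++ []} : GT E).st = _
    rw [this])
  refine (g1.seq g2).mono ?_
  have : X * (28 * (H * w) + 10 * H + 5 + 7) = 28 * (X * (H * w)) + 10 * (X * H) + 12 * X := by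
    ring
  omega

/-! ### All shuffles -/

/-- Transpose by shuffles. -/
def dealsP : PT E := halfP.seq ((Prog.forr .v .n8 dealP).seq (Prog.clear .n3))

theorem runs_dealsP (X u v w : ℕ) (hX : 1 ≤ X) (hu : 1 ≤ u) (hw : 1 ≤ w)
    (e : ℕ → ℕ → ℕ → List (SSym E))
    (he : ∀ x i j, (e x i j).length = w) (K : GT E) :
    Runs dealsP ({K with h := una X, z := una w, u := una u, v := una v, n1 := [], n2 := [],
                         n3 := [], n4 := [], n5 := [], n6 := [], n7 := [], n8 := [],
                         x := A3 X (2 ^ u) (2 ^ v) e, y := []} : GT E).st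
      ({K with h := una X, z := una w, u := una u, v := una v, n1 := [], n2 := [],
               n3 := [], n4 := [], n5 := [], n6 := [], n7 := [], n8 := [],
               x := A3 X (2 ^ v) (2 ^ u) fun x j i => e x i j, y := []} : GT E).st
      (100 * (X * 2 ^ (u + v) * w) * (v + 1)) := by
  have h1 := runs_halfP (E := E) u v (by omega)
    {K with h := una X, z := una w, n6 := [], n7 := [], n8 := [],
            x := A3 X (2 ^ u) (2 ^ v) e, y := []}
  have h2 := Runs.forr' (u := Gr.v) (t := .n8) (by decide) (body := (dealP : PT E)) v mk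
    (fun s => ({K with h := una X, z := una w, u := una u, v := una v, n1 := [], n2 := [],
                       n3 := una (2 ^ (u + v - 1)), n4 := [], n5 := [], n6 := [], n7 := [],
                       n8 := [], x := dS X u v s e, y := []} : GT E).st)
    (fun _ => 34 * (X * (2 ^ (u + v - 1) * w)) + 10 * (X * 2 ^ (u + v - 1)) + 12 * X + 2)
    (fun _ _ => rfl) (fun _ _ => rfl)
    (by
      intro s hs l l'
      simp only [upd_v, upd_n8]
      rw [dS_eq X u v s hs, dS_succ X u v s hs]
      exact runs_dealP X w (2 ^ (u + v - 1)) (dP u v s e) (dQ u v s e)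
        (fun x q => he _ _ _) (fun x q => he _ _ _) {K with u := una u, v := l, n8 := l'})
  simp only [dS_zero, dS_last] at h2
  have h3 := Runs.clear Gr.n3
    ({K with h := una X, z := una w, u := una u, v := una v, n1 := [], n2 := [],
             n3 := una (2 ^ (u + v - 1)), n4 := [], n5 := [], n6 := [], n7 := [],
             n8 := [], x := A3 X (2 ^ v) (2 ^ u) fun x j i => e x i j, y := []} : GT E).st
  simp only [GT.st, length_una] at h3
  have g3 := h3.of_eq (upd_n3 _ _)
  refine (h1.seq (h2.seq g3)).mono ?_
  rw [Finset.sum_const, Finset.card_range, smul_eq_mul]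
  have s2 : 2 ^ (u + v) = 2 * 2 ^ (u + v - 1) := by
    rw [← pow_succ']
    congr 1
    omega
  set H := 2 ^ (u + v - 1) with hH
  have hH1 : 1 ≤ H := Nat.one_le_two_pow
  rw [s2]
  have t1 : X ≤ X * H := Nat.le_mul_of_pos_right _ hH1
  have t2 : X * H ≤ X * (H * w) := Nat.mul_le_mul_left _ (Nat.le_mul_of_pos_right _ hw)
  have t3 : H ≤ X * H := Nat.le_mul_of_pos_left _ hX
  set D := X * (H * w) with hD
  have t4 : 34 * D + 10 * (X * H) + 12 * X + 2 + 4 ≤ 62 * D := by omega
  have t5 := Nat.mul_le_mul_left v t4
  have t6 : 100 * (X * (2 * H) * w) * (v + 1) = 200 * (v * D) + 200 * D := by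
    rw [hD]
    ring
  have t7 : v * (62 * D) = 62 * (v * D) := by ring
  have t8 : v ≤ v * D := Nat.le_mul_of_pos_right _ (by omega)
  rw [t6]
  rw [t7] at t5
  omega

end Vale.Agent.P338.GS.Top
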