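import Vale.Agent.P338.H921.GBitsA

/-!
# P338, matrices of every shape: bookkeeping of the recursion
-/

namespace Vale.Agent.P338.GS.Top

open Vale.Agent.P338

variable {E : Type}

/-! ### Saving numbers -/

/-- The separator on the stack of saved numbers. -/
abbrev spr : SSym E := sb true

/-- Save the number on `r`. -/
def saveP (r : Gr) : PT E := (Prog.push .sv spr).seq (Prog.copyOnto r .sv .n1)

theorem runs_saveP (r : Gr) (h1 : r ≠ .sv) (h2 : r ≠ .n1) (K : GT E) (hn : K.n1 = []) (k : ℕ)
    (hr : K.st r = una k) :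
    Runs (saveP r) K.st ({K with sv := una k ++ spr :: K.sv} : GT E).st (6 * k + 3) := by
  have g1 := Runs.push Gr.sv spr K.st
  rw [upd_sv] at g1
  have e1 : ({K with sv := spr :: K.st .sv} : GT E).st r = una k := by
    rw [← hr, ← upd_sv, Function.update_of_ne h1]
  have g2 := Runs.copyOnto (a := r) (b := .sv) (t := .n1) h1 h2 (by decide)
    ({K with sv := spr :: K.st .sv} : GT E).st hn
  rw [upd_sv, e1, length_una] at g2
  exact (g1.seq g2).mono (by omega)

/-- The top of the stack of saved numbers is a mark. -/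
def isM : (Gr → Option (SSym E)) → Bool := fun tp => match tp .sv with
  | some (Sum.inl Base.mark) => true
  | _ => false

theorem runs_pull (r : Gr) (hr : r ≠ .sv) (V : List (SSym E)) (k : ℕ) :
    ∀ s : Store Gr (SSym E), s .sv = una k ++ spr :: V →
    Runs (Prog.loop isM (Prog.mov .sv r)) s
      (Function.update (Function.update s .sv (spr :: V)) r (una k ++ s r)) (3 * k) := by
  induction k with
  | zero =>
    intro s hs
    refine (Runs.loopF ?_).of_eq ?_
    · simp only [isM, tops_apply, hs]
      rfl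
    · have h1 : s .sv = spr :: V := hs
      rw [← h1, Function.update_eq_self]
      exact (Function.update_eq_self r s).symm
  | succ k ih =>
    intro s hs
    have h1 := Runs.mov hr.symm s (a := mk) (l := una k ++ spr :: V) (by
      rw [hs]; rfl)
    have h2 := ih _ (show (Function.update (Function.update s .sv (una k ++ spr :: V)) r
      (mk :: s r)) .sv = una k ++ spr :: V by
        rw [Function.update_of_ne hr.symm, Function.update_self])
    refine (loop_step (t := 3 * (k + 1)) ?_ h1 h2 (by omega)).of_eq ?_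
    · simp only [isM, tops_apply, hs]
      rfl
    · rw [Function.update_self, una_succ_append]
      funext q
      simp only [Function.update_apply]
      split_ifs <;> simp_all

/-- Restore the number on `r`. -/
def restP (r : Gr) : PT E :=
  (Prog.clear r).seq ((Prog.loop isM (Prog.mov .sv r)).seq (Prog.pop .sv))

theorem runs_restP (r : Gr) (hr : r ≠ .sv) (V : List (SSym E)) (k : ℕ)
    (s : Store Gr (SSym E)) (hs : s .sv = una k ++ spr :: V) :
    Runs (restP r) s (Function.update (Function.update s .sv V) r (una k))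
      (3 * (s r).length + 3 * k + 3) := by
  have h1 := Runs.clear r s
  have h2 := runs_pull r hr V k (Function.update s r []) (by
    rw [Function.update_of_ne hr.symm]; exact hs)
  have h3 := Runs.pop Gr.sv (Function.update (Function.update (Function.update s r [])
    .sv (spr :: V)) r (una k ++ Function.update s r [] r))
  refine ((h1.seq (h2.seq h3)).mono (by omega)).of_eq ?_
  rw [Function.update_of_ne hr.symm, Function.update_self, Function.update_self,
    List.append_nil, List.tail_cons]
  funext q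
  simp only [Function.update_apply]
  split_ifs <;> simp_all

/-! ### The state of the recursion -/

/-- The stacks during the recursion. -/
def KM (K : GT E) (X u v w m pe pl : ℕ) (t l D V n1 : List (SSym E)) : GT E :=
  {K with h := una X, u := una u, v := una v, z := una w, m := una m, pe := una pe,
          pl := una pl, t := t, l := l, x := D, sv := V, y := [], n1 := n1, n2 := [],
          n3 := [], n4 := [], n5 := [], n6 := [], n7 := [], n8 := []}

/-! ### The length of the words -/

/-- `pe := size (u + v)`, `pl := 2 ^ pe`. -/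
def piP : PT E :=
  (Prog.copyOnto .u .n1 .n2).seq ((Prog.copyOnto .v .n1 .n2).seq ((Prog.push .n3 mk).seq
    (grow.seq ((Prog.rev .n3 .pl).seq (Prog.rev .n4 .pe)))))

theorem runs_piP (X u v w m : ℕ) (D V : List (SSym E)) (K : GT E) :
    Runs piP (KM K X u v w m 0 0 [] [] D V []).st
      (KM K X u v w m (Nat.size (u + v)) (2 ^ Nat.size (u + v)) [] [] D V []).st
      (6 * (u + v) + 19 * 2 ^ Nat.size (u + v) + 10) := by
  have h1 := Runs.copyOnto (a := Gr.u) (b := .n1) (t := .n2) (by decide) (by decide)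
    (by decide) (KM K X u v w m 0 0 [] [] D V []).st rfl
  have h2 := Runs.copyOnto (a := Gr.v) (b := .n1) (t := .n2) (by decide) (by decide)
    (by decide) (KM K X u v w m 0 0 [] [] D V (una u)).st rfl
  have h3 := Runs.push Gr.n3 mk (KM K X u v w m 0 0 [] [] D V (una (v + u))).st
  have h4 := runs_grow (E := E) (u + v) (Nat.size (u + v)) 0 (KM K X u v w m 0 0 [] [] D V [])
    (by omega)
  have h5 := Runs.rev (i := Gr.n3) (j := .pl) (by decide)
    ({KM K X u v w m 0 0 [] [] D V [] with n3 := una (2 ^ Nat.size (u + v)),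
                                           n4 := una (Nat.size (u + v))} : GT E).st
  have h6 := Runs.rev (i := Gr.n4) (j := .pe) (by decide)
    ({KM K X u v w m 0 (2 ^ Nat.size (u + v)) [] [] D V [] with
      n4 := una (Nat.size (u + v))} : GT E).st
  rw [Nat.zero_add, pow_zero, Nat.add_sub_cancel] at h4
  simp only [KM, GT.st, length_una, List.append_nil, reverse_una] at h1 h2 h3 h4 h5 h6
  have e1 : (una v : List (SSym E)) ++ una u = una (u + v) := by
    have := una_append_una (E := E) v u []
    rw [List.append_nil, List.append_nil] at this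
    rw [this, Nat.add_comm]
  have e2 : (una 0 : List (SSym E)) = [] := rfl
  rw [e1] at h2
  rw [Nat.add_comm v u] at h3
  simp only [e2, List.append_nil] at h5 h6
  have g1 := h1.of_eq (upd_n1 _ _)
  have g2 := h2.of_eq (upd_n1 _ _)
  have g3 := h3.of_eq (upd_n3 _ _)
  have g5 := h5.of_eq (by rw [upd_n3, upd_pl])
  have g6 := h6.of_eq (by rw [upd_n4, upd_pe])
  have hsz : Nat.size (u + v) ≤ 2 ^ Nat.size (u + v) := Nat.lt_two_pow_self.le
  refine (g1.seq (g2.seq (g3.seq (h4.seq (g5.seq g6))))).mono ?_
  omega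

/-! ### Comparisons -/

/-- `n1 := v - pe`. -/
def diffV : PT E :=
  (Prog.copyOnto .v .n1 .n3).seq ((Prog.copyOnto .pe .n2 .n3).seq
    ((Prog.subtr .n1 .n2).seq (Prog.clear .n2)))

theorem runs_diffV (X u v w m pe pl : ℕ) (D V : List (SSym E)) (K : GT E) :
    Runs diffV (KM K X u v w m pe pl [] [] D V []).st
      (KM K X u v w m pe pl [] [] D V (una (v - pe))).st (9 * v + 9 * pe + 10) := by
  have h1 := Runs.copyOnto (a := Gr.v) (b := .n1) (t := .n3) (by decide) (by decide)
    (by decide) (KM K X u v w m pe pl [] [] D V []).st rfl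
  have h2 := Runs.copyOnto (a := Gr.pe) (b := .n2) (t := .n3) (by decide) (by decide)
    (by decide) (KM K X u v w m pe pl [] [] D V (una v)).st rfl
  have h3 := Runs.subtr (u := Gr.n1) (v := .n2) (by decide)
    ({KM K X u v w m pe pl [] [] D V (una v) with n2 := una pe} : GT E).st
  have h4 := Runs.clear Gr.n2
    ({KM K X u v w m pe pl [] [] D V (una (v - pe)) with n2 := una (pe - v)} : GT E).st
  simp only [KM, GT.st, length_una, List.append_nil, drop_una] at h1 h2 h3 h4
  have g1 := h1.of_eq (upd_n1 _ _)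
  have g2 := h2.of_eq (upd_n2 _ _)
  have g3 := h3.of_eq (by rw [upd_n1, upd_n2])
  have g4 := h4.of_eq (upd_n2 _ _)
  refine (g1.seq (g2.seq (g3.seq g4))).mono ?_
  omega

/-- `n1 := u - pe`. -/
def diffU : PT E :=
  (Prog.copyOnto .u .n1 .n3).seq ((Prog.copyOnto .pe .n2 .n3).seq
    ((Prog.subtr .n1 .n2).seq (Prog.clear .n2)))

theorem runs_diffU (X u v w m pe pl : ℕ) (D V : List (SSym E)) (K : GT E) :
    Runs diffU (KM K X u v w m pe pl [] [] D V []).st
      (KM K X u v w m pe pl [] [] D V (una (u - pe))).st (9 * u + 9 * pe + 10) := by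
  have h1 := Runs.copyOnto (a := Gr.u) (b := .n1) (t := .n3) (by decide) (by decide)
    (by decide) (KM K X u v w m pe pl [] [] D V []).st rfl
  have h2 := Runs.copyOnto (a := Gr.pe) (b := .n2) (t := .n3) (by decide) (by decide)
    (by decide) (KM K X u v w m pe pl [] [] D V (una u)).st rfl
  have h3 := Runs.subtr (u := Gr.n1) (v := .n2) (by decide)
    ({KM K X u v w m pe pl [] [] D V (una u) with n2 := una pe} : GT E).st
  have h4 := Runs.clear Gr.n2
    ({KM K X u v w m pe pl [] [] D V (una (u - pe)) with n2 := una (pe - u)} : GT E).st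
  simp only [KM, GT.st, length_una, List.append_nil, drop_una] at h1 h2 h3 h4
  have g1 := h1.of_eq (upd_n1 _ _)
  have g2 := h2.of_eq (upd_n2 _ _)
  have g3 := h3.of_eq (by rw [upd_n1, upd_n2])
  have g4 := h4.of_eq (upd_n2 _ _)
  refine (g1.seq (g2.seq (g3.seq g4))).mono ?_
  omega

/-! ### Setting the parameters -/

/-- Set `v := n1`, and `t` and `l` to `pl`. -/
def setV : PT E :=
  (Prog.clear .v).seq ((Prog.rev .n1 .v).seq ((Prog.copyOnto .pl .t .n1).seq
    (Prog.copyOnto .pl .l .n1)))

theorem runs_setV (X u v v' w m pe pl : ℕ) (D V : List (SSym E)) (K : GT E) :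
    Runs setV (KM K X u v w m pe pl [] [] D V (una v')).st
      (KM K X u v' w m pe pl (una pl) (una pl) D V []).st (3 * v + 3 * v' + 12 * pl + 5) := by
  have h1 := Runs.clear Gr.v (KM K X u v w m pe pl [] [] D V (una v')).st
  have h2 := Runs.rev (i := Gr.n1) (j := .v) (by decide)
    (KM K X u 0 w m pe pl [] [] D V (una v')).st
  have h3 := Runs.copyOnto (a := Gr.pl) (b := .t) (t := .n1) (by decide) (by decide)
    (by decide) (KM K X u v' w m pe pl [] [] D V []).st rfl
  have h4 := Runs.copyOnto (a := Gr.pl) (b := .l) (t := .n1) (by decide) (by decide)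
    (by decide) (KM K X u v' w m pe pl (una pl) [] D V []).st rfl
  have e2 : (una 0 : List (SSym E)) = [] := rfl
  simp only [KM, GT.st, length_una, List.append_nil, reverse_una, e2] at h1 h2 h3 h4
  have g1 := h1.of_eq (upd_v _ _)
  have g2 := h2.of_eq (by rw [upd_n1, upd_v])
  have g3 := h3.of_eq (upd_t _ _)
  have g4 := h4.of_eq (upd_l _ _)
  refine (g1.seq (g2.seq (g3.seq g4))).mono ?_
  omega

/-- Set `u := n1`, and `t` and `l` to `pl`. -/
def setU : PT E :=
  (Prog.clear .u).seq ((Prog.rev .n1 .u).seq ((Prog.copyOnto .pl .t .n1).seq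
    (Prog.copyOnto .pl .l .n1)))

theorem runs_setU (X u u' v w m pe pl : ℕ) (D V : List (SSym E)) (K : GT E) :
    Runs setU (KM K X u v w m pe pl [] [] D V (una u')).st
      (KM K X u' v w m pe pl (una pl) (una pl) D V []).st (3 * u + 3 * u' + 12 * pl + 5) := by
  have h1 := Runs.clear Gr.u (KM K X u v w m pe pl [] [] D V (una u')).st
  have h2 := Runs.rev (i := Gr.n1) (j := .u) (by decide)
    (KM K X 0 v w m pe pl [] [] D V (una u')).st
  have h3 := Runs.copyOnto (a := Gr.pl) (b := .t) (t := .n1) (by decide) (by decide)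
    (by decide) (KM K X u' v w m pe pl [] [] D V []).st rfl
  have h4 := Runs.copyOnto (a := Gr.pl) (b := .l) (t := .n1) (by decide) (by decide)
    (by decide) (KM K X u' v w m pe pl (una pl) [] D V []).st rfl
  have e2 : (una 0 : List (SSym E)) = [] := rfl
  simp only [KM, GT.st, length_una, List.append_nil, reverse_una, e2] at h1 h2 h3 h4
  have g1 := h1.of_eq (upd_u _ _)
  have g2 := h2.of_eq (by rw [upd_n1, upd_u])
  have g3 := h3.of_eq (upd_t _ _)
  have g4 := h4.of_eq (upd_l _ _)
  refine (g1.seq (g2.seq (g3.seq g4))).mono ?_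
  omega

/-- Clear `t` and `l`. -/
def clrTL : PT E := (Prog.clear .t).seq (Prog.clear .l)

theorem runs_clrTL (X u v w m pe pl : ℕ) (D V : List (SSym E)) (K : GT E) :
    Runs clrTL (KM K X u v w m pe pl (una pl) (una pl) D V []).st
      (KM K X u v w m pe pl [] [] D V []).st (6 * pl + 1) := by
  have h1 := Runs.clear Gr.t (KM K X u v w m pe pl (una pl) (una pl) D V []).st
  have h2 := Runs.clear Gr.l (KM K X u v w m pe pl [] (una pl) D V []).st
  simp only [KM, GT.st, length_una] at h1 h2
  have g1 := h1.of_eq (upd_t _ _)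
  have g2 := h2.of_eq (upd_l _ _)
  refine (g1.seq g2).mono ?_
  omega

/-- `h := h * 2 ^ v`, `v := pe`. -/
def upV : PT E :=
  (Prog.forr .v .n7 dblH).seq ((Prog.clear .v).seq (Prog.copyOnto .pe .v .n1))

theorem dbl_sum (X n : ℕ) :
    ∑ k ∈ Finset.range n, (13 * (X * 2 ^ k) + 2 + 4) = 13 * X * (2 ^ n - 1) + 6 * n := by
  rw [← sum_two_pow, Finset.mul_sum, Finset.sum_congr rfl fun k _ =>
    show 13 * (X * 2 ^ k) + 2 + 4 = 13 * X * 2 ^ k + 6 by ring, Finset.sum_add_distrib]
  simp [mul_comm]

theorem runs_upV (X u v w m pe pl : ℕ) (D V : List (SSym E)) (K : GT E) :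
    Runs upV (KM K X u v w m pe pl [] [] D V []).st
      (KM K (X * 2 ^ v) u pe w m pe pl [] [] D V []).st
      (13 * (X * 2 ^ v) + 12 * v + 6 * pe + 4) := by
  have h1 := Runs.forr' (u := Gr.v) (t := .n7) (by decide) (body := (dblH : PT E)) v mk
    (fun k => (KM K (X * 2 ^ k) u v w m pe pl [] [] D V []).st)
    (fun k => 13 * (X * 2 ^ k) + 2) (fun _ _ => rfl) (fun _ _ => rfl)
    (by
      intro k hk l l'
      simp only [upd_v, upd_n7]
      have := runs_dblH (X * 2 ^ k)
        {KM K (X * 2 ^ k) u v w m pe pl [] [] D V [] with v := l, n7 := l'}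
      rw [show 2 * (X * 2 ^ k) = X * 2 ^ (k + 1) by ring] at this
      exact this)
  rw [pow_zero, Nat.mul_one, dbl_sum] at h1
  have h2 := Runs.clear Gr.v (KM K (X * 2 ^ v) u v w m pe pl [] [] D V []).st
  have h3 := Runs.copyOnto (a := Gr.pe) (b := .v) (t := .n1) (by decide) (by decide)
    (by decide) (KM K (X * 2 ^ v) u 0 w m pe pl [] [] D V []).st rfl
  have e2 : (una 0 : List (SSym E)) = [] := rfl
  simp only [KM, GT.st, length_una, List.append_nil, e2] at h1 h2 h3
  have g2 := h2.of_eq (upd_v _ _)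
  have g3 := h3.of_eq (upd_v _ _)
  refine (h1.seq (g2.seq g3)).mono ?_
  have : 13 * X * (2 ^ v - 1) ≤ 13 * (X * 2 ^ v) := by
    rw [Nat.mul_assoc]
    exact Nat.mul_le_mul_left _ (Nat.mul_le_mul_left _ (Nat.sub_le _ _))
  omega

/-- `u := n1`, `h := h * 2 ^ u`, `u := pe`. -/
def upU : PT E :=
  (Prog.clear .u).seq ((Prog.rev .n1 .u).seq ((Prog.forr .u .n7 dblH).seq
    ((Prog.clear .u).seq (Prog.copyOnto .pe .u .n1))))

theorem runs_upU (X u u' v w m pe pl : ℕ) (D V : List (SSym E)) (K : GT E) :
    Runs upU (KM K X u v w m pe pl [] [] D V (una u')).st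
      (KM K (X * 2 ^ u') pe v w m pe pl [] [] D V []).st
      (13 * (X * 2 ^ u') + 3 * u + 15 * u' + 6 * pe + 8) := by
  have k1 := Runs.clear Gr.u (KM K X u v w m pe pl [] [] D V (una u')).st
  have k2 := Runs.rev (i := Gr.n1) (j := .u) (by decide)
    (KM K X 0 v w m pe pl [] [] D V (una u')).st
  have h1 := Runs.forr' (u := Gr.u) (t := .n7) (by decide) (body := (dblH : PT E)) u' mk
    (fun k => (KM K (X * 2 ^ k) u' v w m pe pl [] [] D V []).st)
    (fun k => 13 * (X * 2 ^ k) + 2) (fun _ _ => rfl) (fun _ _ => rfl)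
    (by
      intro k hk l l'
      simp only [upd_u, upd_n7]
      have := runs_dblH (X * 2 ^ k)
        {KM K (X * 2 ^ k) u v w m pe pl [] [] D V [] with u := l, n7 := l'}
      rw [show 2 * (X * 2 ^ k) = X * 2 ^ (k + 1) by ring] at this
      exact this)
  rw [pow_zero, Nat.mul_one, dbl_sum] at h1
  have h2 := Runs.clear Gr.u (KM K (X * 2 ^ u') u' v w m pe pl [] [] D V []).st
  have h3 := Runs.copyOnto (a := Gr.pe) (b := .u) (t := .n1) (by decide) (by decide)
    (by decide) (KM K (X * 2 ^ u') 0 v w m pe pl [] [] D V []).st rfl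
  have e2 : (una 0 : List (SSym E)) = [] := rfl
  simp only [KM, GT.st, length_una, List.append_nil, reverse_una, e2] at k1 k2 h1 h2 h3
  have j1 := k1.of_eq (upd_u _ _)
  have j2 := k2.of_eq (by rw [upd_n1, upd_u])
  have g2 := h2.of_eq (upd_u _ _)
  have g3 := h3.of_eq (upd_u _ _)
  refine (j1.seq (j2.seq (h1.seq (g2.seq g3)))).mono ?_
  have : 13 * X * (2 ^ u' - 1) ≤ 13 * (X * 2 ^ u') := by
    rw [Nat.mul_assoc]
    exact Nat.mul_le_mul_left _ (Nat.mul_le_mul_left _ (Nat.sub_le _ _))
  omega

/-! ### Saving and restoring the parameters -/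

/-- Save `h`, `u`, `v`. -/
def save3 : PT E := (saveP .h).seq ((saveP .u).seq (saveP .v))

theorem runs_save3 (X u v w m : ℕ) (D V : List (SSym E)) (K : GT E) :
    Runs save3 (KM K X u v w m 0 0 [] [] D V []).st
      (KM K X u v w m 0 0 [] [] D
        (una v ++ spr :: (una u ++ spr :: (una X ++ spr :: V))) []).st
      (6 * X + 6 * u + 6 * v + 11) := by
  have h1 := runs_saveP Gr.h (by decide) (by decide) (KM K X u v w m 0 0 [] [] D V []) rfl X rfl
  have h2 := runs_saveP Gr.u (by decide) (by decide)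
    (KM K X u v w m 0 0 [] [] D (una X ++ spr :: V) []) rfl u rfl
  have h3 := runs_saveP Gr.v (by decide) (by decide)
    (KM K X u v w m 0 0 [] [] D (una u ++ spr :: (una X ++ spr :: V)) []) rfl v rfl
  exact (h1.seq (h2.seq h3)).mono (by omega)

/-- Clear `pe` and `pl`. -/
def clrP : PT E := (Prog.clear .pe).seq (Prog.clear .pl)

theorem runs_clrP (X u v w m pe pl : ℕ) (D V : List (SSym E)) (K : GT E) :
    Runs clrP (KM K X u v w m pe pl [] [] D V []).st
      (KM K X u v w m 0 0 [] [] D V []).st (3 * pe + 3 * pl + 1) := by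
  have h1 := Runs.clear Gr.pe (KM K X u v w m pe pl [] [] D V []).st
  have h2 := Runs.clear Gr.pl (KM K X u v w m 0 pl [] [] D V []).st
  simp only [KM, GT.st, length_una] at h1 h2
  have g1 := h1.of_eq (upd_pe _ _)
  have g2 := h2.of_eq (upd_pl _ _)
  refine (g1.seq g2).mono ?_
  omega

/-- Restore `v`, `u`, `h`. -/
def rest3 : PT E := (restP .v).seq ((restP .u).seq (restP .h))

theorem runs_rest3 (X u v X' u' v' w m : ℕ) (D V : List (SSym E)) (K : GT E) :
    Runs rest3 (KM K X' u' v' w m 0 0 [] [] D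
        (una v ++ spr :: (una u ++ spr :: (una X ++ spr :: V))) []).st
      (KM K X u v w m 0 0 [] [] D V []).st
      (3 * X' + 3 * u' + 3 * v' + 3 * X + 3 * u + 3 * v + 11) := by
  have h1 := runs_restP Gr.v (by decide) (una u ++ spr :: (una X ++ spr :: V)) v
    (KM K X' u' v' w m 0 0 [] [] D
        (una v ++ spr :: (una u ++ spr :: (una X ++ spr :: V))) []).st rfl
  have h2 := runs_restP Gr.u (by decide) (una X ++ spr :: V) u
    (KM K X' u' v w m 0 0 [] [] D (una u ++ spr :: (una X ++ spr :: V)) []).st rfl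
  have h3 := runs_restP Gr.h (by decide) V X
    (KM K X' u v w m 0 0 [] [] D (una X ++ spr :: V) []).st rfl
  simp only [KM, GT.st, length_una] at h1 h2 h3
  have g1 := h1.of_eq (by rw [upd_sv, upd_v])
  have g2 := h2.of_eq (by rw [upd_sv, upd_u])
  have g3 := h3.of_eq (by rw [upd_sv, upd_h])
  exact (g1.seq (g2.seq g3)).mono (by omega)

/-- Save `h`, `u`, `pe`, `pl`. -/
def save4 : PT E := (saveP .h).seq ((saveP .u).seq ((saveP .pe).seq (saveP .pl)))

theorem runs_save4 (X u v w m pe pl : ℕ) (D V : List (SSym E)) (K : GT E) :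
    Runs save4 (KM K X u v w m pe pl [] [] D V []).st
      (KM K X u v w m pe pl [] [] D
        (una pl ++ spr :: (una pe ++ spr :: (una u ++ spr :: (una X ++ spr :: V)))) []).st
      (6 * X + 6 * u + 6 * pe + 6 * pl + 15) := by
  have h1 := runs_saveP Gr.h (by decide) (by decide) (KM K X u v w m pe pl [] [] D V []) rfl X
    rfl
  have h2 := runs_saveP Gr.u (by decide) (by decide)
    (KM K X u v w m pe pl [] [] D (una X ++ spr :: V) []) rfl u rfl
  have h3 := runs_saveP Gr.pe (by decide) (by decide)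
    (KM K X u v w m pe pl [] [] D (una u ++ spr :: (una X ++ spr :: V)) []) rfl pe rfl
  have h4 := runs_saveP Gr.pl (by decide) (by decide)
    (KM K X u v w m pe pl [] [] D
      (una pe ++ spr :: (una u ++ spr :: (una X ++ spr :: V))) []) rfl pl rfl
  exact (h1.seq (h2.seq (h3.seq h4))).mono (by omega)

/-- Restore `pl`, `pe`, `u`, `h`. -/
def rest4 : PT E := (restP .pl).seq ((restP .pe).seq ((restP .u).seq (restP .h)))

theorem runs_rest4 (X u X' u' v w m pe pl : ℕ) (D V : List (SSym E)) (K : GT E) :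
    Runs rest4 (KM K X' u' v w m 0 0 [] [] D
        (una pl ++ spr :: (una pe ++ spr :: (una u ++ spr :: (una X ++ spr :: V)))) []).st
      (KM K X u v w m pe pl [] [] D V []).st
      (3 * X' + 3 * u' + 3 * X + 3 * u + 3 * pe + 3 * pl + 15) := by
  have h1 := runs_restP Gr.pl (by decide)
    (una pe ++ spr :: (una u ++ spr :: (una X ++ spr :: V))) pl
    (KM K X' u' v w m 0 0 [] [] D
        (una pl ++ spr :: (una pe ++ spr :: (una u ++ spr :: (una X ++ spr :: V)))) []).st rfl
  have h2 := runs_restP Gr.pe (by decide) (una u ++ spr :: (una X ++ spr :: V)) pe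
    (KM K X' u' v w m 0 pl [] [] D
        (una pe ++ spr :: (una u ++ spr :: (una X ++ spr :: V))) []).st rfl
  have h3 := runs_restP Gr.u (by decide) (una X ++ spr :: V) u
    (KM K X' u' v w m pe pl [] [] D (una u ++ spr :: (una X ++ spr :: V)) []).st rfl
  have h4 := runs_restP Gr.h (by decide) V X
    (KM K X' u v w m pe pl [] [] D (una X ++ spr :: V) []).st rfl
  simp only [KM, GT.st, length_una] at h1 h2 h3 h4
  have g1 := h1.of_eq (by rw [upd_sv, upd_pl])
  have g2 := h2.of_eq (by rw [upd_sv, upd_pe])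
  have g3 := h3.of_eq (by rw [upd_sv, upd_u])
  have g4 := h4.of_eq (by rw [upd_sv, upd_h])
  exact (g1.seq (g2.seq (g3.seq g4))).mono (by omega)

end Vale.Agent.P338.GS.Top
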