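import Vale.Agent.P338.H921.GTopE

/-!
# P338, matrices of every shape: the time
-/

namespace Vale.Agent.P338.GS.Top

open Vale.Agent.P338

variable {J E : Type}

/-! ### Numbers -/

theorem sq_le_two_pow (u : ℕ) : u ^ 2 ≤ 2 * 2 ^ u := by
  induction u with
  | zero => norm_num
  | succ u ih =>
    have h1 : u < 2 ^ u := Nat.lt_two_pow_self
    have h2 : (u + 1) ^ 2 = u ^ 2 + (2 * u + 1) := by ring
    have h3 : 2 * 2 ^ (u + 1) = 2 * 2 ^ u + 2 * 2 ^ u := by ring
    omega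

theorem two_pow_size_le {a : ℕ} (ha : 1 ≤ a) : 2 ^ Nat.size a ≤ 2 * a := by
  have h1 : 0 < Nat.size a := Nat.size_pos.2 ha
  obtain ⟨u, hu⟩ : ∃ u, Nat.size a = u + 1 := ⟨Nat.size a - 1, by omega⟩
  have h2 : 2 ^ u ≤ a := by
    rw [← Nat.lt_size]
    omega
  rw [hu, pow_succ]
  omega

theorem exists_words (w ℓ : ℕ) (hℓ : 1 ≤ ℓ) : ∃ Z, w ≤ Z * ℓ ∧ Z * ℓ < w + ℓ := by
  refine ⟨(w + ℓ - 1) / ℓ, ?_, ?_⟩
  · have h1 := Nat.lt_div_mul_add (a := w + ℓ - 1) hℓ
    omega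
  · have h1 := Nat.div_mul_le_self (w + ℓ - 1) ℓ
    omega

/-- The time of the preparation. -/
theorem pre_le {a c w u v Z M N : ℕ} (ha : 1 ≤ a) (hc : 1 ≤ c) (hM : max w (u + v) = M)
    (hN : a * c * M = N) (hu : 2 ^ u ≤ 2 * a) (hv : 2 ^ v ≤ 2 * c) (hu1 : 1 ≤ u)
    (hZ : Z * (u + v) ≤ 2 * M) :
    (3 * (c * (a * w)) + 6 * a + 6 * w + 11 * 2 ^ u + 8 * u + 20) +
        (a * (w * 10 + 8) + c * (8 * (a * w) + 5) + 3 * (c * (a * w)) + 3 * (a * w) +
        11 * 2 ^ v + 8 * v + 3 * c + 10) +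
        (12 * (u + v) + 6 * w +
          Z * (6 * (u + v) + 6) + 10) +
        (6 * w + 6 * (u + v) + 6 * max w (u + v) +
          a * (max w (u + v) * 10 + 8) +
          c * (a * max w (u + v) * 9224 + 8) +
          3 * (a * max w (u + v)) + 10) +
        (2 ^ u * (2 ^ v * (8 * (Z * (u + v)) + 10) + 10) +
          3 * (2 ^ u * (2 ^ v * (Z * (u + v)))) + 10) ≤ 10000 * N := by
  rw [hM]
  have hw : w ≤ M := hM ▸ le_max_left _ _
  have hℓ : u + v ≤ M := hM ▸ le_max_right _ _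
  have hM1 : 1 ≤ M := by omega
  have e0 : a * M ≤ N := by
    rw [← hN, Nat.mul_right_comm]
    exact Nat.le_mul_of_pos_right _ hc
  have e1 : a ≤ a * M := Nat.le_mul_of_pos_right _ hM1
  have e2 : M ≤ a * M := Nat.le_mul_of_pos_left _ ha
  have e3 : c ≤ N := by
    rw [← hN, Nat.mul_comm a c, Nat.mul_assoc]
    exact Nat.le_mul_of_pos_right _ (Nat.mul_pos ha hM1)
  have e4 : a * w ≤ a * M := Nat.mul_le_mul_left _ hw
  have e5 : c * (a * w) ≤ N := by
    rw [← hN, Nat.mul_comm a c, Nat.mul_assoc]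
    exact Nat.mul_le_mul_left _ e4
  have e6 : c * (a * M) = N := by rw [← hN]; ring
  have e7 : u ≤ 2 ^ u := Nat.lt_two_pow_self.le
  have e8 : v ≤ 2 ^ v := Nat.lt_two_pow_self.le
  have e9 : a * c ≤ N := by
    rw [← hN]
    exact Nat.le_mul_of_pos_right _ hM1
  have f1 : a * (w * 10 + 8) = 10 * (a * w) + 8 * a := by ring
  have f2 : c * (8 * (a * w) + 5) = 8 * (c * (a * w)) + 5 * c := by ring
  have f3 : Z * (6 * (u + v) + 6) ≤ 24 * M := by
    have : Z ≤ Z * (u + v) := Nat.le_mul_of_pos_right _ (by omega)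
    have h : Z * (6 * (u + v) + 6) = 6 * (Z * (u + v)) + 6 * Z := by ring
    omega
  have f4 : a * (M * 10 + 8) = 10 * (a * M) + 8 * a := by ring
  have f5 : c * (a * M * 9224 + 8) = 9224 * (c * (a * M)) + 8 * c := by ring
  have f6 : 2 ^ u * 2 ^ v ≤ 4 * (a * c) := by
    calc 2 ^ u * 2 ^ v ≤ (2 * a) * (2 * c) := Nat.mul_le_mul hu hv
      _ = 4 * (a * c) := by ring
  have f7 : 2 ^ u * 2 ^ v * (Z * (u + v)) ≤ 8 * N := by
    calc 2 ^ u * 2 ^ v * (Z * (u + v)) ≤ 4 * (a * c) * (2 * M) := Nat.mul_le_mul f6 hZ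
      _ = 8 * N := by rw [← hN]; ring
  have f8 : 2 ^ u * (2 ^ v * (8 * (Z * (u + v)) + 10) + 10) =
      8 * (2 ^ u * 2 ^ v * (Z * (u + v))) + 10 * (2 ^ u * 2 ^ v) + 10 * 2 ^ u := by ring
  have f9 : 2 ^ u * (2 ^ v * (Z * (u + v))) = 2 ^ u * 2 ^ v * (Z * (u + v)) := by ring
  rw [f1, f2, f4, f5, f8, f9, e6]
  omega

/-- The time at the end. -/
theorem unp_le {a c w u v Z M N : ℕ} (ha : 1 ≤ a) (hc : 1 ≤ c) (hM : max w (u + v) = M)
    (hN : a * c * M = N) (hu : 2 ^ u ≤ 2 * a) (hv : 2 ^ v ≤ 2 * c) (hu1 : 1 ≤ u)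
    (hZ : Z * (u + v) ≤ 2 * M) :
    c * (2 ^ u * (8 * (Z * (u + v)) + 10) + 10) +
      3 * ((2 ^ v - c) * (2 ^ u * (Z * (u + v)))) + 3 * (c * (a * w)) + 3 ≤ 100 * N := by
  have hw : w ≤ M := hM ▸ le_max_left _ _
  have hℓ : u + v ≤ M := hM ▸ le_max_right _ _
  have hM1 : 1 ≤ M := by omega
  have e3 : c ≤ N := by
    rw [← hN, Nat.mul_comm a c, Nat.mul_assoc]
    exact Nat.le_mul_of_pos_right _ (Nat.mul_pos ha hM1)
  have e5 : c * (a * w) ≤ N := by
    rw [← hN, Nat.mul_comm a c, Nat.mul_assoc]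
    exact Nat.mul_le_mul_left _ (Nat.mul_le_mul_left _ hw)
  have e6 : c * 2 ^ u ≤ 2 * (a * c) := by
    calc c * 2 ^ u ≤ c * (2 * a) := Nat.mul_le_mul_left _ hu
      _ = 2 * (a * c) := by ring
  have e7 : a * c ≤ N := by
    rw [← hN]
    exact Nat.le_mul_of_pos_right _ hM1
  have e8 : c * 2 ^ u * (Z * (u + v)) ≤ 4 * N := by
    calc c * 2 ^ u * (Z * (u + v)) ≤ 2 * (a * c) * (2 * M) := Nat.mul_le_mul e6 hZ
      _ = 4 * N := by rw [← hN]; ring
  have e9 : (2 ^ v - c) * (2 ^ u * (Z * (u + v))) ≤ c * 2 ^ u * (Z * (u + v)) := by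
    rw [Nat.mul_assoc c]
    exact Nat.mul_le_mul_right _ (by omega)
  have f1 : c * (2 ^ u * (8 * (Z * (u + v)) + 10) + 10) =
      8 * (c * 2 ^ u * (Z * (u + v))) + 10 * (c * 2 ^ u) + 10 * c := by ring
  rw [f1]
  have hN1 : 1 ≤ N := by omega
  omega

/-- The number of tiny operations. -/
theorem cnt_le {a c w u v Z M N : ℕ} (ha : 1 ≤ a) (hc : 1 ≤ c) (hM : max w (u + v) = M)
    (hN : a * c * M = N) (hu : 2 ^ u ≤ 2 * a) (hv : 2 ^ v ≤ 2 * c)
    (hZ : Z * (u + v) ≤ 2 * M) :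
    (1 * 2 ^ u * 2 ^ v * Z + (u + v) ^ 2) * (64 * (u + v)) ≤ 1536 * N := by
  have hℓ : u + v ≤ M := hM ▸ le_max_right _ _
  have f6 : 2 ^ u * 2 ^ v ≤ 4 * (a * c) := by
    calc 2 ^ u * 2 ^ v ≤ (2 * a) * (2 * c) := Nat.mul_le_mul hu hv
      _ = 4 * (a * c) := by ring
  have f7 : 2 ^ u * 2 ^ v * (Z * (u + v)) ≤ 8 * N := by
    calc 2 ^ u * 2 ^ v * (Z * (u + v)) ≤ 4 * (a * c) * (2 * M) := Nat.mul_le_mul f6 hZ
      _ = 8 * N := by rw [← hN]; ring
  have g1 : u ^ 2 ≤ 4 * a := (sq_le_two_pow u).trans (by omega)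
  have g2 : v ^ 2 ≤ 4 * c := (sq_le_two_pow v).trans (by omega)
  have g3 : a + c ≤ 2 * (a * c) := by nlinarith
  have g4 : (u + v) ^ 2 ≤ 16 * (a * c) := by nlinarith [sq_nonneg ((u : ℤ) - v)]
  have g5 : (u + v) ^ 2 * (u + v) ≤ 16 * N := by
    calc (u + v) ^ 2 * (u + v) ≤ 16 * (a * c) * M := Nat.mul_le_mul g4 hℓ
      _ = 16 * N := by rw [← hN]; ring
  have g6 : (1 * 2 ^ u * 2 ^ v * Z + (u + v) ^ 2) * (64 * (u + v)) =
      64 * (2 ^ u * 2 ^ v * (Z * (u + v))) + 64 * ((u + v) ^ 2 * (u + v)) := by ring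
  rw [g6]
  omega

theorem mul_le_of_mul_le {x S T K : ℕ} (hS : 1 ≤ S) (h : x * S ≤ K) :
    x * T ≤ K * (T / S) + K := by
  have h1 : T ≤ S * (T / S + 1) := by
    have := Nat.lt_mul_div_succ T hS
    exact this.le
  calc x * T ≤ x * (S * (T / S + 1)) := Nat.mul_le_mul_left _ h1
    _ = x * S * (T / S + 1) := by ring
    _ ≤ K * (T / S + 1) := Nat.mul_le_mul_right _ h
    _ = K * (T / S) + K := by ring

/-- The running time of the machine. -/
def entB (Tb Tt : ℕ → ℕ) (a c w : ℕ) : ℕ :=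
  a * c * max w (Nat.size a + Nat.size c) +
    Tb (4608 * (a * c * max w (Nat.size a + Nat.size c))) +
    a * c * max w (Nat.size a + Nat.size c) *
      (Tt (64 * (Nat.size a + Nat.size c)) / (64 * (Nat.size a + Nat.size c)))

theorem topP_runs [DecidableEq J] {p : PW J E} {Tb Tt : ℕ → ℕ} {C : ℕ}
    (hp : PermSpec p Tb Tt C) {a c w : ℕ} (ha : 1 ≤ a) (hc : 1 ≤ c) (hw : 1 ≤ w)
    (g : ℕ → ℕ → List Bool) (hg : ∀ i j, (g i j).length = w) :
    ∃ s' : SW J E, Runs (topP p)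
      (Function.update (fun _ => []) (Sum.inr W.IN) ((List.replicate a (sb true) ++
        mk :: (List.replicate w (sb true) ++
          mk :: bits (cat a fun i => cat c fun j => g i j))).reverse)) s'
      ((10200 + 8000 * C) * entB Tb Tt a c w) ∧
      s' (Sum.inr W.XR) = bits (cat c fun j => cat a fun i => g i j) := by
  obtain ⟨Z, hZ1, hZ2⟩ := exists_words w (Nat.size a + Nat.size c)
    (by have := Nat.size_pos.2 ha; omega)
  have k1 := Runs.big' (J := J) (runs_preP (E := E) a c w Z g hg ha hw hZ1 hZ2)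
  rw [big_input] at k1
  have hu := two_pow_size_le ha
  have hv := two_pow_size_le hc
  have hu1 : 1 ≤ Nat.size a := Nat.size_pos.2 ha
  have hv1 : 1 ≤ Nat.size c := Nat.size_pos.2 hc
  have hua : a < 2 ^ Nat.size a := Nat.lt_size_self a
  have hvc : c < 2 ^ Nat.size c := Nat.lt_size_self c
  unfold entB
  generalize Nat.size a = u at *
  generalize Nat.size c = v at *
  obtain ⟨M, hM⟩ : ∃ M, max w (u + v) = M := ⟨_, rfl⟩
  obtain ⟨N, hN⟩ : ∃ N, a * c * M = N := ⟨_, rfl⟩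
  have hZM : Z * (u + v) ≤ 2 * M := by
    have : w ≤ M := hM ▸ le_max_left _ _
    have : u + v ≤ M := hM ▸ le_max_right _ _
    omega
  have hZ0 : 1 ≤ Z := by
    rcases Nat.eq_zero_or_pos Z with h | h
    · subst h
      omega
    · exact h
  have hq : w + (Z * (u + v) - w) = Z * (u + v) := by omega
  have hPl : ∀ i j, (pword a c w (Z * (u + v) - w) g i j).length = Z * (u + v) := by
    intro i j
    rw [length_pword hg, hq]
  set P := pword a c w (Z * (u + v) - w) g with hP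
  have hpad : padBits a (2 ^ u - a) c (2 ^ v - c) w (Z * (u + v) - w) g =
      arr4 1 (2 ^ u) (2 ^ v) Z (u + v) (wE (u + v) P) := by
    rw [padBits_eq, arr4_wE _ _ _ _ _ hPl, show a + (2 ^ u - a) = 2 ^ u by omega,
      show c + (2 ^ v - c) = 2 ^ v by omega]
  rw [hpad] at k1
  have hm : c * (a * max w (u + v) * 4608) = 4608 * N := by rw [← hN, hM]; ring
  have f7 : 2 ^ u * 2 ^ v * (Z * (u + v)) ≤ 8 * N := by
    calc 2 ^ u * 2 ^ v * (Z * (u + v)) ≤ (2 * a) * (2 * c) * (2 * M) :=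
          Nat.mul_le_mul (Nat.mul_le_mul hu hv) hZM
      _ = 8 * N := by rw [← hN]; ring
  have k2 := hp 1 u v Z (u + v) (u + v) (4608 * N) (wE (u + v) P)
    (big (GP a c w u v Z (bits (arr4 1 (2 ^ u) (2 ^ v) Z (u + v) (wE (u + v) P))))) le_rfl
    hu1 hv1 hZ0 (by omega) le_rfl le_rfl
    (by
      have : 576 * (1 * 2 ^ u * 2 ^ v * Z * (u + v)) =
        576 * (2 ^ u * 2 ^ v * (Z * (u + v))) := by ring
      omega)
    (big_GP_cln _ _ _ _ _ _ _) (big_GP_wsc _ _ _ _ _ _ _) rfl rfl rfl rfl rfl rfl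
    (by rw [← hm]; rfl) (fun x i j z => wE_lt _ _ _ _ _ _) rfl
  rw [big_set_x, arr4_wE' _ _ _ _ _ hPl] at k2
  have hsplit : (cat (2 ^ v) fun j => cat (2 ^ u) fun i => P i j) =
      cat (c + (2 ^ v - c)) fun j => cat (a + (2 ^ u - a)) fun i =>
        (P i j).take w ++ (P i j).drop w := by
    rw [show a + (2 ^ u - a) = 2 ^ u by omega, show c + (2 ^ v - c) = 2 ^ v by omega]
    refine cat_congr fun j _ => cat_congr fun i _ => ?_
    rw [List.take_append_drop]
  rw [hsplit] at k2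
  have k3 := Runs.big' (J := J) (runs_unpP (E := E) a (2 ^ u - a) c (2 ^ v - c) w
    (Z * (u + v) - w) (fun j i => (P i j).take w) (fun j i => (P i j).drop w)
    (fun j i => by rw [List.length_take, hPl]; omega)
    (fun j i => by rw [List.length_drop, hPl])
    (GP a c w u v Z []))
  rw [show a + (2 ^ u - a) = 2 ^ u by omega, hq,
    show 8 * w + 8 * (Z * (u + v) - w) = 8 * (Z * (u + v)) by omega] at k3
  rw [show a + (2 ^ u - a) = 2 ^ u by omega] at k2
  refine ⟨_, (k1.seq (k2.seq k3)).mono ?_, ?_⟩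
  · have t1 := pre_le ha hc hM hN hu hv hu1 hZM
    have t2 := unp_le ha hc hM hN hu hv hu1 hZM
    have t3 := cnt_le ha hc hM hN hu hv hZM
    have t4 := mul_le_of_mul_le (T := Tt (64 * (u + v))) (by omega) t3
    have hN1 : 1 ≤ N := by
      rw [← hN]
      have : 1 ≤ M := by
        have : u + v ≤ M := hM ▸ le_max_right _ _
        omega
      exact Nat.mul_pos (Nat.mul_pos ha hc) this
    refine (Nat.add_le_add (Nat.add_le_add_right t1 1)
      (Nat.add_le_add_left t2 _)).trans ?_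
    rw [hM, hN]
    generalize Tt (64 * (u + v)) = T at *
    generalize T / (64 * (u + v)) = R at *
    generalize Tb (4608 * N) = B at *
    generalize 1 * 2 ^ u * 2 ^ v * Z + (u + v) ^ 2 = x at *
    have t5 : 4608 * N + B + x * (64 * (u + v) + T) ≤ 8000 * (N + B + N * R) := by
      have e1 : x * (64 * (u + v) + T) = x * (64 * (u + v)) + x * T := by ring
      have e2 : 1536 * N * R = 1536 * (N * R) := by ring
      rw [e1]
      rw [e2] at t4
      omega
    have t6 := Nat.mul_le_mul_left C t5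
    have t7 : C * (8000 * (N + B + N * R)) = 8000 * C * (N + B + N * R) := by ring
    have t8 : (10200 + 8000 * C) * (N + B + N * R) =
      10200 * (N + B + N * R) + 8000 * C * (N + B + N * R) := by ring
    rw [t8]
    rw [t7] at t6
    omega
  · show bits (cat c fun j => cat a fun i => (P i j).take w) = _
    congr 1
    refine cat_congr fun j hj => cat_congr fun i hi => ?_
    rw [hP, pword, if_pos ⟨hi, hj⟩]
    have := hg i j
    rw [List.take_append_of_le_length (by omega), List.take_of_length_le (by omega)]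

/-! ### The machine -/

/-- From a program to a machine. -/
theorem exists_transposesEnt {κ E : Type} [DecidableEq κ] [Finite κ] [Finite E]
    (p : Prog κ (SSym E)) (inp outp : κ) (TT : ℕ → ℕ → ℕ → ℕ)
    (hTT : ∀ a c w : ℕ, 1 ≤ a → 1 ≤ c → 1 ≤ w → a * c * w ≤ TT a c w)
    (h : ∀ a c w : ℕ, 1 ≤ a → 1 ≤ c → 1 ≤ w → ∀ x : Fin a → Fin c → Fin w → Bool,
      ∃ s' : Store κ (SSym E),
        Runs p (Function.update (fun _ => []) inp ((entInput x).map embS).reverse) s'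
          (TT a c w) ∧ s' outp = bits (entries fun j i => x i j)) :
    ∃ (B : TM) (C : ℕ), TransposesEnt B ∧
      ∀ a c w : ℕ, 1 ≤ a → 1 ≤ c → 1 ≤ w → entTime B a c w ≤ C * TT a c w := by
  obtain ⟨B, C, hB⟩ := compile_correct (embS : Sym → SSym E) embS_injective p inp outp
  have key : ∀ a c w : ℕ, 1 ≤ a → 1 ≤ c → 1 ≤ w → ∀ x : Fin a → Fin c → Fin w → Bool,
      B.WritesExactly (entInput x) (bitWord (entries fun j i => x i j)) ∧
        B.time (entInput x) ≤ 8 * C * TT a c w := by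
    intro a c w ha hc hw x
    obtain ⟨s', ⟨t, ht, hE⟩, hs'⟩ := h a c w ha hc hw x
    obtain ⟨h1, h2⟩ := hB _ (bitWord (entries fun j i => x i j)) s' t
      (blank_notMem_entInput _) (blank_notMem_bitWord _) hE (by rw [embS_bitWord]; exact hs')
    refine ⟨h1, h2.trans ?_⟩
    have h0 := hTT a c w ha hc hw
    have h3 : 1 ≤ a * c * w := Nat.mul_pos (Nat.mul_pos ha hc) hw
    have h4 : a ≤ a * c * w := by
      rw [Nat.mul_assoc]
      exact Nat.le_mul_of_pos_right a (Nat.mul_pos hc hw)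
    have h6 : w ≤ a * c * w := Nat.le_mul_of_pos_left w (Nat.mul_pos ha hc)
    have h5 : c * a * w = a * c * w := by ring
    rw [length_entInput, length_bitWord, length_entries, mul_assoc 8, mul_left_comm 8 C, h5]
    apply Nat.mul_le_mul_left
    omega
  refine ⟨B, 8 * C, fun a c w ha hc hw x => (key a c w ha hc hw x).1,
    fun a c w ha hc hw => ?_⟩
  unfold entTime
  exact Finset.sup_le fun x _ => (key a c w ha hc hw x).2

/-- The machine, from the transposition of words. -/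
theorem exists_machine [DecidableEq J] [Finite J] [Finite E] {p : PW J E} {Tb Tt : ℕ → ℕ}
    {C : ℕ} (hp : PermSpec p Tb Tt C) :
    ∃ (B : TM) (C' : ℕ), TransposesEnt B ∧
      ∀ a c w : ℕ, 1 ≤ a → 1 ≤ c → 1 ≤ w → entTime B a c w ≤ C' * entB Tb Tt a c w := by
  obtain ⟨B, C', hB, hC'⟩ := exists_transposesEnt (topP p) (Sum.inr W.IN) (Sum.inr W.XR)
    (fun a c w => (10200 + 8000 * C) * entB Tb Tt a c w)
    (by
      intro a c w ha hc hw
      have h1 : a * c * w ≤ entB Tb Tt a c w := by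
        unfold entB
        have h2 : a * c * w ≤ a * c * max w (Nat.size a + Nat.size c) :=
          Nat.mul_le_mul_left _ (le_max_left _ _)
        omega
      exact h1.trans (Nat.le_mul_of_pos_left _ (by omega)))
    (by
      intro a c w ha hc hw x
      obtain ⟨s', h1, h2⟩ := topP_runs hp ha hc hw (gE x) (length_gE x)
      refine ⟨s', ?_, ?_⟩
      · rw [embS_entInput]
        exact h1
      · rw [h2, entries_transpose_eq])
  refine ⟨B, C' * (10200 + 8000 * C), hB, fun a c w ha hc hw => ?_⟩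
  rw [Nat.mul_assoc]
  exact hC' a c w ha hc hw

end Vale.Agent.P338.GS.Top
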