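import Vale.Agent.P338.H921.GBitsB
import Vale.Agent.P338.H921.GTopF

/-!
# P338, matrices of every shape: the recursion
-/

namespace Vale.Agent.P338.GS.Top

open Vale.Agent.P338

variable {J E : Type}

/-! ### The transposition of words -/

/-- The words of `t` bits. -/
def wX (t : ℕ) (P : ℕ → ℕ → ℕ → List Bool) (x i j z : ℕ) : ℕ :=
  natOf (((P x i j).drop (z * t)).take t)

theorem wX_lt (t : ℕ) (P : ℕ → ℕ → ℕ → List Bool) (x i j z : ℕ) : wX t P x i j z < 2 ^ t := by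
  refine (natOf_lt _).trans_le (Nat.pow_le_pow_right (by norm_num) ?_)
  rw [List.length_take]
  exact min_le_left _ _

theorem arr4_wX (X M N Z t : ℕ) (P : ℕ → ℕ → ℕ → List Bool)
    (hP : ∀ x i j, (P x i j).length = Z * t) :
    arr4 X M N Z t (wX t P) = A3 X M N P := by
  rw [arr4, A3]
  refine cat_congr fun x _ => cat_congr fun i _ => cat_congr fun j _ => ?_
  exact cat_words t Z (P x i j) (hP x i j)

theorem arr4_wX' (X M N Z t : ℕ) (P : ℕ → ℕ → ℕ → List Bool)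
    (hP : ∀ x i j, (P x i j).length = Z * t) :
    (arr4 X M N Z t fun x j i z => wX t P x i j z) = A3 X M N fun x j i => P x i j := by
  rw [arr4, A3]
  refine cat_congr fun x _ => cat_congr fun i _ => cat_congr fun j _ => ?_
  exact cat_words t Z (P x j i) (hP x j i)

theorem bits_A3 (X M N : ℕ) (e : ℕ → ℕ → ℕ → List Bool) :
    (bits (A3 X M N e) : List (SSym E)) = A3 X M N fun x i j => bits (e x i j) := by
  unfold A3
  rw [bits_cat]
  refine cat_congr fun x _ => ?_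
  rw [bits_cat]
  refine cat_congr fun i _ => ?_
  rw [bits_cat]

theorem big_KM_wsc (K : GT E) (X u v w m pe pl : ℕ) (t l D V : List (SSym E)) :
    ∀ r ∈ wsc, SW.at (big (KM K X u v w m pe pl t l D V []) : SW J E) r = [] := by
  intro r hr
  cases r <;> first | rfl | (exact absurd hr (by decide))

theorem big_KM_cln (K : GT E) (X u v w m pe pl : ℕ) (t l D V : List (SSym E)) :
    Cln0 (big (KM K X u v w m pe pl t l D V []) : SW J E) where
  idle := fun _ => rfl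
  emp := by
    intro r hr
    cases r <;> first | rfl | (exact absurd hr (by decide))

/-- The transposition of words of `w * pl` bits. -/
theorem perm_big [DecidableEq J] {p : PW J E} {Tb Tt : ℕ → ℕ} {C : ℕ}
    (hp : PermSpec p Tb Tt C) (X u v w m pe pl : ℕ) (P : ℕ → ℕ → ℕ → List Bool)
    (hP : ∀ x i j, (P x i j).length = w * pl) (hX : 1 ≤ X) (hu : 1 ≤ u) (hv : 1 ≤ v)
    (hw : 1 ≤ w) (hpl : 1 ≤ pl) (huv : u + v ≤ pl)
    (hm : 576 * (X * 2 ^ u * 2 ^ v * w * pl) ≤ m) (V : List (SSym E)) (K : GT E) :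
    Runs p (big (KM K X u v w m pe pl (una pl) (una pl)
        (bits (A3 X (2 ^ u) (2 ^ v) P)) V []))
      (big (KM K X u v w m pe pl (una pl) (una pl)
        (bits (A3 X (2 ^ v) (2 ^ u) fun x j i => P x i j)) V []))
      (C * (m + Tb m + (X * 2 ^ u * 2 ^ v * w + pl ^ 2) * (64 * pl + Tt (64 * pl)))) := by
  have h := hp X u v w pl pl m (wX pl P)
    (big (KM K X u v w m pe pl (una pl) (una pl) (bits (A3 X (2 ^ u) (2 ^ v) P)) V []))
    hX hu hv hw hpl huv le_rfl hm (big_KM_cln _ _ _ _ _ _ _ _ _ _ _ _)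
    (big_KM_wsc _ _ _ _ _ _ _ _ _ _ _ _) rfl rfl rfl rfl rfl rfl rfl
    (fun x i j z => wX_lt _ _ _ _ _ _) (by rw [arr4_wX _ _ _ _ _ _ hP]; rfl)
  rw [big_set_x, arr4_wX' _ _ _ _ _ _ hP] at h
  exact h

/-! ### Regrouping the data -/

/-- Blocks of `2 ^ v₁` columns. -/
def eA {α : Type} (v' v₁ : ℕ) (e : ℕ → ℕ → ℕ → List α) (y i j : ℕ) : List α :=
  e (y / 2 ^ v') i (y % 2 ^ v' * 2 ^ v₁ + j)

/-- Blocks of `2 ^ u₁` rows. -/
def eB {α : Type} (u' u₁ : ℕ) (e : ℕ → ℕ → ℕ → List α) (y i j : ℕ) : List α :=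
  e (y / 2 ^ u') (y % 2 ^ u' * 2 ^ u₁ + i) j

theorem A3_in {α : Type} (X u v' v₁ : ℕ) (e : ℕ → ℕ → ℕ → List α) :
    A3 X (2 ^ u) (2 ^ (v' + v₁)) e = A3 X (2 ^ u) (2 ^ v') fun x i j₁ =>
      cat (2 ^ v₁) fun j₀ => e x i (j₁ * 2 ^ v₁ + j₀) := by
  unfold A3
  refine cat_congr fun x _ => cat_congr fun i _ => ?_
  rw [pow_add, cat_mul]

theorem A3_mid {α : Type} (X u v' v₁ : ℕ) (e : ℕ → ℕ → ℕ → List α) :
    (A3 X (2 ^ v') (2 ^ u) fun x j₁ i => cat (2 ^ v₁) fun j₀ => e x i (j₁ * 2 ^ v₁ + j₀)) =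
      A3 (X * 2 ^ v') (2 ^ u) (2 ^ v₁) (eA v' v₁ e) := by
  unfold A3
  rw [cat_fold]
  rfl

theorem A3_rows {α : Type} (X u' u₁ v : ℕ) (e : ℕ → ℕ → ℕ → List α) :
    A3 X (2 ^ (u' + u₁)) (2 ^ v) e = A3 (X * 2 ^ u') (2 ^ u₁) (2 ^ v) (eB u' u₁ e) := by
  unfold A3
  have h1 : ∀ x, (cat (2 ^ (u' + u₁)) fun i => cat (2 ^ v) fun j => e x i j) =
      cat (2 ^ u') fun i₁ => cat (2 ^ u₁) fun i₀ => cat (2 ^ v) fun j =>
        e x (i₁ * 2 ^ u₁ + i₀) j := by
    intro x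
    rw [pow_add, cat_mul]
  simp only [h1]
  rw [cat_fold]
  rfl

theorem A3_out {α : Type} (X u' u₁ v : ℕ) (e : ℕ → ℕ → ℕ → List α) :
    (A3 (X * 2 ^ u') (2 ^ v) (2 ^ u₁) fun y j i => eB u' u₁ e y i j) =
      A3 X (2 ^ u') (2 ^ v) fun x i₁ j => cat (2 ^ u₁) fun i₀ => e x (i₁ * 2 ^ u₁ + i₀) j :=
  (cat_fold X (2 ^ u') fun x i₁ => cat (2 ^ v) fun j => cat (2 ^ u₁) fun i₀ =>
    e x (i₁ * 2 ^ u₁ + i₀) j).symm

theorem A3_out' {α : Type} (X u' u₁ v : ℕ) (e : ℕ → ℕ → ℕ → List α) :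
    (A3 X (2 ^ v) (2 ^ u') fun x j i₁ => cat (2 ^ u₁) fun i₀ => e x (i₁ * 2 ^ u₁ + i₀) j) =
      A3 X (2 ^ v) (2 ^ (u' + u₁)) fun x j i => e x i j := by
  unfold A3
  refine cat_congr fun x _ => cat_congr fun j _ => ?_
  rw [pow_add, cat_mul]

theorem A3_end {α : Type} (X u v' v₁ : ℕ) (e : ℕ → ℕ → ℕ → List α) :
    (A3 (X * 2 ^ v') (2 ^ v₁) (2 ^ u) fun y j i => eA v' v₁ e y i j) =
      A3 X (2 ^ (v' + v₁)) (2 ^ u) fun x j i => e x i j := by
  unfold A3
  have h1 : ∀ x, (cat (2 ^ (v' + v₁)) fun j => cat (2 ^ u) fun i => e x i j) =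
      cat (2 ^ v') fun j₁ => cat (2 ^ v₁) fun j₀ => cat (2 ^ u) fun i =>
        e x i (j₁ * 2 ^ v₁ + j₀) := by
    intro x
    rw [pow_add, cat_mul]
  simp only [h1]
  exact (cat_fold X (2 ^ v') fun x j₁ => cat (2 ^ v₁) fun j₀ => cat (2 ^ u) fun i =>
    e x i (j₁ * 2 ^ v₁ + j₀)).symm

/-! ### The first step: long rows -/

theorem nonempty_big (K : GT E) :
    nonempty (Gr.loc .n1) (tops (big K : SW J E)) = !K.n1.isEmpty := by
  rw [nonempty_tops]
  rfl

/-- The time of a permutation, with `pl` and `S = 64 * pl`. -/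
def permT (Tb Tt : ℕ → ℕ) (C m n pl : ℕ) : ℕ :=
  C * (m + Tb m + (n + pl ^ 2) * (64 * pl + Tt (64 * pl)))

/-- Group the columns. -/
noncomputable def stepA (p : PW J E) : PW J E :=
  ((diffV : PT E).map Gr.loc).seq (Prog.ite (nonempty (Gr.loc .n1))
    (((setV : PT E).map Gr.loc).seq (p.seq (((clrTL : PT E).map Gr.loc).seq
      ((upV : PT E).map Gr.loc)))) Prog.skip)

theorem runs_stepA [DecidableEq J] {p : PW J E} {Tb Tt : ℕ → ℕ} {C : ℕ}
    (hp : PermSpec p Tb Tt C) (X u v w m pe : ℕ) (e : ℕ → ℕ → ℕ → List Bool)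
    (he : ∀ x i j, (e x i j).length = w) (hX : 1 ≤ X) (hu : 1 ≤ u) (hw : 1 ≤ w)
    (huv : u + v ≤ 2 ^ pe) (hm : 576 * (X * 2 ^ (u + v) * w) ≤ m) (V : List (SSym E))
    (K : GT E) :
    Runs (stepA p)
      (big (KM K X u v w m pe (2 ^ pe) [] [] (bits (A3 X (2 ^ u) (2 ^ v) e)) V []))
      (big (KM K (X * 2 ^ (v - min v pe)) u (min v pe) w m pe (2 ^ pe) [] []
        (bits (A3 (X * 2 ^ (v - min v pe)) (2 ^ u) (2 ^ min v pe)
          (eA (v - min v pe) (min v pe) e))) V []))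
      ((if v ≤ pe then 0 else permT Tb Tt C m (X * 2 ^ (u + (v - pe)) * w) (2 ^ pe)) +
        13 * (X * 2 ^ (v - min v pe)) + 50 * v + 20 * pe + 20 * 2 ^ pe + 50) := by
  have h1 := Runs.big' (J := J) (runs_diffV X u v w m pe (2 ^ pe)
    (bits (A3 X (2 ^ u) (2 ^ v) e)) V K)
  rcases le_or_gt v pe with h | h
  · have e1 : min v pe = v := min_eq_left h
    rw [e1, Nat.sub_self, pow_zero, Nat.mul_one, if_pos h]
    have e2 : A3 X (2 ^ u) (2 ^ v) (eA 0 v e) = A3 X (2 ^ u) (2 ^ v) e := by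
      unfold A3 eA
      refine cat_congr fun x _ => cat_congr fun i _ => cat_congr fun j _ => ?_
      rw [pow_zero, Nat.div_one, Nat.mod_one, Nat.zero_mul, Nat.zero_add]
    rw [e2]
    have e3 : v - pe = 0 := by omega
    rw [e3] at h1
    have h2 : Runs (Prog.ite (nonempty (Gr.loc .n1))
        (((setV : PT E).map Gr.loc).seq (p.seq (((clrTL : PT E).map Gr.loc).seq
          ((upV : PT E).map Gr.loc)))) Prog.skip)
        (big (KM K X u v w m pe (2 ^ pe) [] [] (bits (A3 X (2 ^ u) (2 ^ v) e)) V (una 0)) :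
          SW J E) _ _ := Runs.iteF (by rw [nonempty_big]; rfl) (Runs.skip _)
    refine (h1.seq h2).mono ?_
    omega
  · have e1 : min v pe = pe := min_eq_right h.le
    rw [e1, if_neg (by omega)]
    obtain ⟨v', hv'⟩ : ∃ v', v - pe = v' := ⟨_, rfl⟩
    have hv1 : 1 ≤ v' := by omega
    have hv : v = v' + pe := by omega
    rw [hv'] at h1 ⊢
    have hW : ∀ x i j, (cat (2 ^ pe) fun j₀ => e x i (j * 2 ^ pe + j₀)).length =
        w * 2 ^ pe := by
      intro x i j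
      rw [length_cat_of (L := w) fun _ _ => he _ _ _]
      ring
    have h2 := Runs.big' (J := J) (runs_setV X u v v' w m pe (2 ^ pe)
      (bits (A3 X (2 ^ u) (2 ^ v) e)) V K)
    have h3 := perm_big hp X u v' w m pe (2 ^ pe)
      (fun x i j₁ => cat (2 ^ pe) fun j₀ => e x i (j₁ * 2 ^ pe + j₀)) hW hX hu hv1 hw
      Nat.one_le_two_pow (by omega) (by
        have : X * 2 ^ u * 2 ^ v' * w * 2 ^ pe = X * 2 ^ (u + v) * w := by
          rw [hv, ← Nat.add_assoc, pow_add, pow_add]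
          ring
        rw [this]
        exact hm) V K
    rw [← A3_in, ← hv, A3_mid] at h3
    have h4 := Runs.big' (J := J) (runs_clrTL X u v' w m pe (2 ^ pe)
      (bits (A3 (X * 2 ^ v') (2 ^ u) (2 ^ pe) (eA v' pe e))) V K)
    have h5 := Runs.big' (J := J) (runs_upV X u v' w m pe (2 ^ pe)
      (bits (A3 (X * 2 ^ v') (2 ^ u) (2 ^ pe) (eA v' pe e))) V K)
    have h6 : Runs (Prog.ite (nonempty (Gr.loc .n1))
        (((setV : PT E).map Gr.loc).seq (p.seq (((clrTL : PT E).map Gr.loc).seq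
          ((upV : PT E).map Gr.loc)))) Prog.skip)
        (big (KM K X u v w m pe (2 ^ pe) [] [] (bits (A3 X (2 ^ u) (2 ^ v) e)) V (una v')) :
          SW J E) _ _ := Runs.iteT (by
            rw [nonempty_big]
            obtain ⟨k, rfl⟩ : ∃ k, v' = k + 1 := ⟨v' - 1, by omega⟩
            rfl) (h2.seq (h3.seq (h4.seq h5)))
    refine (h1.seq h6).mono ?_
    have e5 : X * 2 ^ (u + v') * w = X * 2 ^ u * 2 ^ v' * w := by rw [pow_add]; ring
    unfold permT
    rw [e5]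
    omega

/-! ### The last step: long columns -/

/-- Ungroup the rows. -/
noncomputable def stepC (p : PW J E) : PW J E :=
  ((diffU : PT E).map Gr.loc).seq (Prog.ite (nonempty (Gr.loc .n1))
    (((setU : PT E).map Gr.loc).seq (p.seq ((clrTL : PT E).map Gr.loc))) Prog.skip)

theorem runs_stepC [DecidableEq J] {p : PW J E} {Tb Tt : ℕ → ℕ} {C : ℕ}
    (hp : PermSpec p Tb Tt C) (X u v w m pe : ℕ) (e : ℕ → ℕ → ℕ → List Bool)
    (he : ∀ x i j, (e x i j).length = w) (hX : 1 ≤ X) (hv : 1 ≤ v) (hw : 1 ≤ w)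
    (huv : u + v ≤ 2 ^ pe) (hm : 576 * (X * 2 ^ (u + v) * w) ≤ m) (V : List (SSym E))
    (K : GT E) :
    ∃ u'' ≤ u, Runs (stepC p)
      (big (KM K X u v w m pe (2 ^ pe) [] []
        (bits (A3 (X * 2 ^ (u - min u pe)) (2 ^ v) (2 ^ min u pe)
          fun y j i => eB (u - min u pe) (min u pe) e y i j)) V []))
      (big (KM K X u'' v w m pe (2 ^ pe) [] []
        (bits (A3 X (2 ^ v) (2 ^ u) fun x j i => e x i j)) V []))
      ((if u ≤ pe then 0 else permT Tb Tt C m (X * 2 ^ ((u - pe) + v) * w) (2 ^ pe)) +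
        50 * u + 20 * pe + 20 * 2 ^ pe + 50) := by
  rcases le_or_gt u pe with h | h
  · refine ⟨u, le_rfl, ?_⟩
    have e1 : min u pe = u := min_eq_left h
    rw [e1, Nat.sub_self, pow_zero, Nat.mul_one, if_pos h]
    have e2 : (A3 X (2 ^ v) (2 ^ u) fun y j i => eB 0 u e y i j) =
        A3 X (2 ^ v) (2 ^ u) fun x j i => e x i j := by
      unfold A3 eB
      refine cat_congr fun x _ => cat_congr fun i _ => cat_congr fun j _ => ?_
      simp only [pow_zero, Nat.div_one, Nat.mod_one, Nat.zero_mul, Nat.zero_add]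
    rw [e2]
    have h1 := Runs.big' (J := J) (runs_diffU X u v w m pe (2 ^ pe)
      (bits (A3 X (2 ^ v) (2 ^ u) fun x j i => e x i j)) V K)
    have e3 : u - pe = 0 := by omega
    rw [e3] at h1
    have h2 : Runs (Prog.ite (nonempty (Gr.loc .n1))
        (((setU : PT E).map Gr.loc).seq (p.seq ((clrTL : PT E).map Gr.loc))) Prog.skip)
        (big (KM K X u v w m pe (2 ^ pe) [] []
          (bits (A3 X (2 ^ v) (2 ^ u) fun x j i => e x i j)) V (una 0)) :
          SW J E) _ _ := Runs.iteF (by rw [nonempty_big]; rfl) (Runs.skip _)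
    refine (h1.seq h2).mono ?_
    omega
  · refine ⟨u - pe, Nat.sub_le _ _, ?_⟩
    have e1 : min u pe = pe := min_eq_right h.le
    rw [e1, if_neg (by omega)]
    have h1 := Runs.big' (J := J) (runs_diffU X u v w m pe (2 ^ pe)
      (bits (A3 (X * 2 ^ (u - pe)) (2 ^ v) (2 ^ pe)
          fun y j i => eB (u - pe) pe e y i j)) V K)
    obtain ⟨u', hu'⟩ : ∃ u', u - pe = u' := ⟨_, rfl⟩
    have hu1 : 1 ≤ u' := by omega
    have hu : u = u' + pe := by omega
    rw [hu'] at h1 ⊢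
    rw [A3_out] at h1 ⊢
    have hW : ∀ x i j, (cat (2 ^ pe) fun i₀ => e x (i * 2 ^ pe + i₀) j).length =
        w * 2 ^ pe := by
      intro x i j
      rw [length_cat_of (L := w) fun _ _ => he _ _ _]
      ring
    have h2 := Runs.big' (J := J) (runs_setU X u u' v w m pe (2 ^ pe)
      (bits (A3 X (2 ^ u') (2 ^ v) fun x i₁ j => cat (2 ^ pe) fun i₀ =>
        e x (i₁ * 2 ^ pe + i₀) j)) V K)
    have h3 := perm_big hp X u' v w m pe (2 ^ pe)
      (fun x i₁ j => cat (2 ^ pe) fun i₀ => e x (i₁ * 2 ^ pe + i₀) j) hW hX hu1 hv hw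
      Nat.one_le_two_pow (by omega) (by
        have : X * 2 ^ u' * 2 ^ v * w * 2 ^ pe = X * 2 ^ (u + v) * w := by
          rw [hu, pow_add, pow_add]
          ring
        rw [this]
        exact hm) V K
    rw [A3_out', ← hu] at h3
    have h4 := Runs.big' (J := J) (runs_clrTL X u' v w m pe (2 ^ pe)
      (bits (A3 X (2 ^ v) (2 ^ u) fun x j i => e x i j)) V K)
    have h6 : Runs (Prog.ite (nonempty (Gr.loc .n1))
        (((setU : PT E).map Gr.loc).seq (p.seq ((clrTL : PT E).map Gr.loc))) Prog.skip)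
        (big (KM K X u v w m pe (2 ^ pe) [] []
          (bits (A3 X (2 ^ u') (2 ^ v) fun x i₁ j => cat (2 ^ pe) fun i₀ =>
            e x (i₁ * 2 ^ pe + i₀) j)) V (una u')) :
          SW J E) _ _ := Runs.iteT (by
            rw [nonempty_big]
            obtain ⟨k, rfl⟩ : ∃ k, u' = k + 1 := ⟨u' - 1, by omega⟩
            rfl) (h2.seq (h3.seq h4))
    refine (h1.seq h6).mono ?_
    have e5 : X * 2 ^ (u' + v) * w = X * 2 ^ u' * 2 ^ v * w := by rw [pow_add]; ring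
    unfold permT
    rw [e5]
    omega

end Vale.Agent.P338.GS.Top
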