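import Vale.Agent.P338.H921.GBitsC

/-!
# P338, matrices of every shape: the levels
-/

namespace Vale.Agent.P338.GS.Top

open Vale.Agent.P338

variable {J E : Type}

/-! ### The specification of a level -/

/-- Transposition of `X` matrices of `2 ^ u` rows and `2 ^ v` columns, with entries of `w`
bits. -/
def LSpec (q : PW J E) (Tb : ℕ → ℕ) (g : ℕ → ℕ → ℕ) (C : ℕ) : Prop :=
  ∀ (X u v w m : ℕ) (e : ℕ → ℕ → ℕ → List Bool) (V : List (SSym E)) (K : GT E),
    1 ≤ X → 1 ≤ u → 1 ≤ v → 1 ≤ w → 576 * (X * 2 ^ (u + v) * w) ≤ m →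
    (∀ x i j, (e x i j).length = w) →
    Runs q (big (KM K X u v w m 0 0 [] [] (bits (A3 X (2 ^ u) (2 ^ v) e)) V []))
      (big (KM K X u v w m 0 0 [] []
        (bits (A3 X (2 ^ v) (2 ^ u) fun x j i => e x i j)) V []))
      (C * (m + Tb m + X * 2 ^ (u + v) * w * g u v))

theorem base_spec (Tb : ℕ → ℕ) :
    LSpec ((dealsP : PT E).map Gr.loc : PW J E) Tb (fun _ v => v + 1) 100 := by
  intro X u v w m e V K hX hu hv hw _ he
  have h := Runs.big' (J := J) (runs_dealsP X u v w hX hu hw (fun x i j => bits (e x i j))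
    (fun x i j => by rw [length_bits, he]) (KM K X u v w m 0 0 [] [] [] V []))
  rw [← bits_A3, ← bits_A3 _ _ _ fun x j i => e x i j] at h
  refine h.mono ?_
  have : 100 * (X * 2 ^ (u + v) * w) * (v + 1) = 100 * (X * 2 ^ (u + v) * w * (v + 1)) := by
    ring
  rw [this]
  exact Nat.mul_le_mul_left _ (Nat.le_add_left _ _)

/-! ### The blocks -/

/-- Save the parameters and group the rows. -/
def stepB : PT E :=
  save4.seq (diffU.seq ((Prog.ite (nonempty .n1) upU Prog.skip).seq clrP))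

theorem runs_stepB (X u v w m pe : ℕ) (D V : List (SSym E)) (K : GT E) :
    Runs stepB (KM K X u v w m pe (2 ^ pe) [] [] D V []).st
      (KM K (X * 2 ^ (u - min u pe)) (min u pe) v w m 0 0 [] [] D
        (una (2 ^ pe) ++ spr :: (una pe ++ spr :: (una u ++ spr :: (una X ++ spr :: V)))) []).st
      (6 * X + 13 * (X * 2 ^ (u - min u pe)) + 40 * u + 30 * pe + 20 * 2 ^ pe + 50) := by
  have h1 := runs_save4 X u v w m pe (2 ^ pe) D V K
  have h2 := runs_diffU X u v w m pe (2 ^ pe) D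
    (una (2 ^ pe) ++ spr :: (una pe ++ spr :: (una u ++ spr :: (una X ++ spr :: V)))) K
  rcases le_or_gt u pe with h | h
  · have e1 : min u pe = u := min_eq_left h
    rw [e1, Nat.sub_self, pow_zero, Nat.mul_one]
    have e3 : u - pe = 0 := by omega
    rw [e3] at h2
    have h3 : Runs (Prog.ite (nonempty .n1) upU Prog.skip)
      (KM K X u v w m pe (2 ^ pe) [] [] D (una (2 ^ pe) ++ spr :: (una pe ++ spr ::
        (una u ++ spr :: (una X ++ spr :: V)))) (una 0)).st _ _ :=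
      Runs.iteF rfl (Runs.skip _)
    have h4 := runs_clrP X u v w m pe (2 ^ pe) D
      (una (2 ^ pe) ++ spr :: (una pe ++ spr :: (una u ++ spr :: (una X ++ spr :: V)))) K
    exact (h1.seq (h2.seq (h3.seq h4))).mono (by omega)
  · have e1 : min u pe = pe := min_eq_right h.le
    rw [e1]
    obtain ⟨u', hu'⟩ : ∃ u', u - pe = u' := ⟨_, rfl⟩
    rw [hu'] at h2 ⊢
    have h3 : Runs (Prog.ite (nonempty .n1) upU Prog.skip)
      (KM K X u v w m pe (2 ^ pe) [] [] D (una (2 ^ pe) ++ spr :: (una pe ++ spr ::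
        (una u ++ spr :: (una X ++ spr :: V)))) (una u')).st _ _ :=
      Runs.iteT (by
        obtain ⟨k, rfl⟩ : ∃ k, u' = k + 1 := ⟨u' - 1, by omega⟩
        rfl) (runs_upU X u u' v w m pe (2 ^ pe) D _ K)
    have h4 := runs_clrP (X * 2 ^ u') pe v w m pe (2 ^ pe) D
      (una (2 ^ pe) ++ spr :: (una pe ++ spr :: (una u ++ spr :: (una X ++ spr :: V)))) K
    exact (h1.seq (h2.seq (h3.seq h4))).mono (by omega)

/-! ### Numbers -/

theorem cube_le_two_pow (x : ℕ) : x ^ 3 ≤ 4 * 2 ^ x := by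
  rcases lt_or_ge x 4 with h | h
  · interval_cases x <;> norm_num
  · induction x, h using Nat.le_induction with
    | base => norm_num
    | succ n hn ih =>
      have h1 : 3 * n ^ 2 + 3 * n + 1 ≤ n ^ 3 := by nlinarith
      have h2 : (n + 1) ^ 3 = n ^ 3 + (3 * n ^ 2 + 3 * n + 1) := by ring
      have h3 : 4 * 2 ^ (n + 1) = 2 * (4 * 2 ^ n) := by ring
      omega

theorem pl_le {u v : ℕ} (hu : 1 ≤ u) : 2 ^ Nat.size (u + v) ≤ 2 * (u + v) :=
  two_pow_size_le (by omega)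

theorem pl_cube_le {u v : ℕ} (hu : 1 ≤ u) :
    (2 ^ Nat.size (u + v)) ^ 3 ≤ 32 * 2 ^ (u + v) := by
  calc (2 ^ Nat.size (u + v)) ^ 3 ≤ (2 * (u + v)) ^ 3 := Nat.pow_le_pow_left (pl_le hu) 3
    _ = 8 * (u + v) ^ 3 := by ring
    _ ≤ 8 * (4 * 2 ^ (u + v)) := Nat.mul_le_mul_left _ (cube_le_two_pow _)
    _ = 32 * 2 ^ (u + v) := by ring

/-- The time of a permutation. -/
theorem permT_le {Tb Tt : ℕ → ℕ} {C m n u v D : ℕ} (hu : 1 ≤ u)
    (hn : n * 2 ^ Nat.size (u + v) ≤ D) (hD : 2 ^ (u + v) ≤ D) :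
    permT Tb Tt C m n (2 ^ Nat.size (u + v)) ≤ C * (m + Tb m) + 4224 * C *
      (D * (Tt (64 * 2 ^ Nat.size (u + v)) / (64 * 2 ^ Nat.size (u + v)) + 1)) := by
  have h1 := pl_cube_le (u := u) (v := v) hu
  have hp1 : 1 ≤ 2 ^ Nat.size (u + v) := Nat.one_le_two_pow
  unfold permT
  generalize 2 ^ Nat.size (u + v) = p at *
  have h2 : (n + p ^ 2) * (64 * p) ≤ 2112 * D := by
    have : (n + p ^ 2) * (64 * p) = 64 * (n * p) + 64 * p ^ 3 := by ring
    omega
  have h3 := mul_le_of_mul_le (T := Tt (64 * p)) (by omega) h2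
  have h4 : (n + p ^ 2) * (64 * p + Tt (64 * p)) =
      (n + p ^ 2) * (64 * p) + (n + p ^ 2) * Tt (64 * p) := by ring
  rw [h4]
  generalize Tt (64 * p) = T at *
  generalize T / (64 * p) = R at *
  have h5 : (n + p ^ 2) * (64 * p) + (n + p ^ 2) * T ≤ 4224 * (D * (R + 1)) := by
    have e1 : 2112 * D * R = 2112 * (D * R) := by ring
    have e2 : D * (R + 1) = D * R + D := by ring
    rw [e1] at h3
    rw [e2]
    omega
  calc C * (m + Tb m + ((n + p ^ 2) * (64 * p) + (n + p ^ 2) * T)) =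
      C * (m + Tb m) + C * ((n + p ^ 2) * (64 * p) + (n + p ^ 2) * T) := by ring
    _ ≤ C * (m + Tb m) + C * (4224 * (D * (R + 1))) :=
      Nat.add_le_add_left (Nat.mul_le_mul_left _ h5) _
    _ = C * (m + Tb m) + 4224 * C * (D * (R + 1)) := by ring

/-! ### One level -/

/-- The cost of the levels, per bit. -/
def lvG (Tt : ℕ → ℕ) : ℕ → ℕ → ℕ → ℕ
  | 0, _, v => v + 1
  | k + 1, u, v => Tt (64 * 2 ^ Nat.size (u + v)) / (64 * 2 ^ Nat.size (u + v)) + 1 +
      lvG Tt k (min u (Nat.size (u + v))) (min v (Nat.size (u + v)))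

/-- One level. -/
noncomputable def levP (p q : PW J E) : PW J E :=
  ((save3 : PT E).map Gr.loc).seq (((piP : PT E).map Gr.loc).seq ((stepA p).seq
    (((stepB : PT E).map Gr.loc).seq (q.seq (((rest4 : PT E).map Gr.loc).seq
      ((stepC p).seq (((clrP : PT E).map Gr.loc).seq ((rest3 : PT E).map Gr.loc))))))))

theorem level_spec [DecidableEq J] {p q : PW J E} {Tb Tt : ℕ → ℕ} {C C' : ℕ}
    {g : ℕ → ℕ → ℕ} (hp : PermSpec p Tb Tt C) (hq : LSpec q Tb g C') :
    LSpec (levP p q) Tb (fun u v => Tt (64 * 2 ^ Nat.size (u + v)) /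
        (64 * 2 ^ Nat.size (u + v)) + 1 +
        g (min u (Nat.size (u + v))) (min v (Nat.size (u + v)))) (8448 * C + 1000 + C') := by
  intro X u v w m e V K hX hu hv hw hm he
  beta_reduce
  have hlt : u + v < 2 ^ Nat.size (u + v) := Nat.lt_size_self _
  have hplle := pl_le (v := v) hu
  have hpi : 1 ≤ Nat.size (u + v) := Nat.size_pos.2 (by omega)
  have kT : ∀ n D, n * 2 ^ Nat.size (u + v) ≤ D → 2 ^ (u + v) ≤ D →
      permT Tb Tt C m n (2 ^ Nat.size (u + v)) ≤ C * (m + Tb m) + 4224 * C *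
        (D * (Tt (64 * 2 ^ Nat.size (u + v)) / (64 * 2 ^ Nat.size (u + v)) + 1)) :=
    fun n D h1 h2 => permT_le hu h1 h2
  have k1 := Runs.big' (J := J) (runs_save3 X u v w m (bits (A3 X (2 ^ u) (2 ^ v) e)) V K)
  have k2 := Runs.big' (J := J) (runs_piP X u v w m (bits (A3 X (2 ^ u) (2 ^ v) e))
    (una v ++ spr :: (una u ++ spr :: (una X ++ spr :: V))) K)
  have k3 := runs_stepA hp X u v w m (Nat.size (u + v)) e he hX hu hw hlt.le hm
    (una v ++ spr :: (una u ++ spr :: (una X ++ spr :: V))) K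
  generalize Nat.size (u + v) = π at *
  obtain ⟨v₁, hv₁⟩ : ∃ v₁, min v π = v₁ := ⟨_, rfl⟩
  obtain ⟨v', hv'⟩ : ∃ v', v - v₁ = v' := ⟨_, rfl⟩
  obtain ⟨u₁, hu₁⟩ : ∃ u₁, min u π = u₁ := ⟨_, rfl⟩
  obtain ⟨u', hu'⟩ : ∃ u', u - u₁ = u' := ⟨_, rfl⟩
  have hv1 : 1 ≤ v₁ := by omega
  have hu1 : 1 ≤ u₁ := by omega
  have hvv : v = v' + v₁ := by omega
  have huu : u = u' + u₁ := by omega
  rw [hv₁, hv'] at k3
  have k4 := Runs.big' (J := J) (runs_stepB (X * 2 ^ v') u v₁ w m π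
    (bits (A3 (X * 2 ^ v') (2 ^ u) (2 ^ v₁) (eA v' v₁ e)))
    (una v ++ spr :: (una u ++ spr :: (una X ++ spr :: V))) K)
  rw [hu₁, hu'] at k4
  have hD0 : X * 2 ^ v' * 2 ^ u' * 2 ^ (u₁ + v₁) * w = X * 2 ^ (u + v) * w := by
    rw [huu, hvv, show u' + u₁ + (v' + v₁) = v' + u' + (u₁ + v₁) by omega, pow_add, pow_add]
    ring
  have hX1 : 1 ≤ X * 2 ^ v' := Nat.mul_pos hX (by positivity)
  have hX2 : 1 ≤ X * 2 ^ v' * 2 ^ u' := Nat.mul_pos hX1 (by positivity)
  have k5 := hq (X * 2 ^ v' * 2 ^ u') u₁ v₁ w m (eB u' u₁ (eA v' v₁ e))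
    (una (2 ^ π) ++ spr :: (una π ++ spr :: (una u ++ spr :: (una (X * 2 ^ v') ++ spr ::
      (una v ++ spr :: (una u ++ spr :: (una X ++ spr :: V))))))) K hX2 hu1 hv1 hw
    (by rw [hD0]; exact hm) (fun x i j => he _ _ _)
  rw [hD0, ← A3_rows, ← huu] at k5
  have k6 := Runs.big' (J := J) (runs_rest4 (X * 2 ^ v') u (X * 2 ^ v' * 2 ^ u') u₁ v₁ w m π
    (2 ^ π) (bits (A3 (X * 2 ^ v' * 2 ^ u') (2 ^ v₁) (2 ^ u₁)
      fun y j i => eB u' u₁ (eA v' v₁ e) y i j))
    (una v ++ spr :: (una u ++ spr :: (una X ++ spr :: V))) K)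
  obtain ⟨u'', hu'', k7⟩ := runs_stepC hp (X * 2 ^ v') u v₁ w m π (eA v' v₁ e)
    (fun x i j => he _ _ _) hX1 hv1 hw (by omega) (by
      have h1 : X * 2 ^ v' * 2 ^ (u + v₁) * w = X * 2 ^ (u + v) * w := by
        rw [hvv, show u + (v' + v₁) = v' + (u + v₁) by omega, pow_add _ v']
        ring
      rw [h1]
      exact hm) (una v ++ spr :: (una u ++ spr :: (una X ++ spr :: V))) K
  rw [hu₁, hu', A3_end, ← hvv] at k7
  have k8 := Runs.big' (J := J) (runs_clrP (X * 2 ^ v') u'' v₁ w m π (2 ^ π)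
    (bits (A3 X (2 ^ v) (2 ^ u) fun x j i => e x i j))
    (una v ++ spr :: (una u ++ spr :: (una X ++ spr :: V))) K)
  have k9 := Runs.big' (J := J) (runs_rest3 X u v (X * 2 ^ v') u'' v₁ w m
    (bits (A3 X (2 ^ v) (2 ^ u) fun x j i => e x i j)) V K)
  refine (k1.seq (k2.seq (k3.seq (k4.seq (k5.seq (k6.seq (k7.seq (k8.seq k9)))))))).mono ?_
  -- the time
  obtain ⟨D, hD⟩ : ∃ D, X * 2 ^ (u + v) * w = D := ⟨_, rfl⟩
  have d1 : 2 ^ (u + v) ≤ D := by
    rw [← hD, Nat.mul_assoc]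
    calc 2 ^ (u + v) ≤ 2 ^ (u + v) * w := Nat.le_mul_of_pos_right _ hw
      _ ≤ X * (2 ^ (u + v) * w) := Nat.le_mul_of_pos_left _ hX
  have d2 : X * 2 ^ v' * 2 ^ u' ≤ D := by
    rw [← hD, ← hD0]
    calc X * 2 ^ v' * 2 ^ u' ≤ X * 2 ^ v' * 2 ^ u' * 2 ^ (u₁ + v₁) :=
          Nat.le_mul_of_pos_right _ (by positivity)
      _ ≤ X * 2 ^ v' * 2 ^ u' * 2 ^ (u₁ + v₁) * w := Nat.le_mul_of_pos_right _ hw
  have d3 : X * 2 ^ v' ≤ D := le_trans (Nat.le_mul_of_pos_right _ (by positivity)) d2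
  have d4 : X ≤ D := le_trans (Nat.le_mul_of_pos_right _ (by positivity)) d3
  have d5 : u + v ≤ D := le_trans Nat.lt_two_pow_self.le d1
  have d6 : 2 ^ π ≤ 2 * D := by omega
  have d7 : π ≤ 2 ^ π := Nat.lt_two_pow_self.le
  have tA : (if v ≤ π then 0 else permT Tb Tt C m (X * 2 ^ (u + (v - π)) * w) (2 ^ π)) ≤
      C * (m + Tb m) + 4224 * C * (D * (Tt (64 * 2 ^ π) / (64 * 2 ^ π) + 1)) := by
    split_ifs with h
    · exact Nat.zero_le _
    · refine kT _ D (le_of_eq ?_) d1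
      rw [← hD]
      have : u + v = u + (v - π) + π := by omega
      rw [this, pow_add _ (u + (v - π))]
      ring
  have tC : (if u ≤ π then 0 else
      permT Tb Tt C m (X * 2 ^ v' * 2 ^ ((u - π) + v₁) * w) (2 ^ π)) ≤
      C * (m + Tb m) + 4224 * C * (D * (Tt (64 * 2 ^ π) / (64 * 2 ^ π) + 1)) := by
    split_ifs with h
    · exact Nat.zero_le _
    · refine kT _ D (le_of_eq ?_) d1
      rw [← hD]
      have : u + v = v' + ((u - π) + v₁) + π := by omega
      rw [this, pow_add _ (v' + ((u - π) + v₁)), pow_add _ v']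
      ring
  rw [hD, hu₁, hv₁]
  generalize (if v ≤ π then 0 else permT Tb Tt C m (X * 2 ^ (u + (v - π)) * w) (2 ^ π)) = tA'
    at *
  generalize (if u ≤ π then 0 else
      permT Tb Tt C m (X * 2 ^ v' * 2 ^ ((u - π) + v₁) * w) (2 ^ π)) = tC' at *
  generalize Tt (64 * 2 ^ π) / (64 * 2 ^ π) = R at *
  generalize g u₁ v₁ = G at *
  generalize m + Tb m = M at *
  have f1 : (8448 * C + 1000 + C') * (M + D * (R + 1 + G)) =
      2 * (C * M) + (8446 * (C * M)) + 2 * (4224 * C * (D * (R + 1))) +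
        8448 * C * (D * G) + 1000 * (M + D * (R + 1 + G)) + C' * (M + D * G) +
          C' * (D * (R + 1)) := by ring
  have f2 : D ≤ M + D * (R + 1 + G) := by
    have : D * (R + 1 + G) = D + D * (R + G) := by ring
    omega
  rw [f1]
  have g1 := Nat.zero_le (8446 * (C * M))
  have g2 := Nat.zero_le (8448 * C * (D * G))
  have g3 := Nat.zero_le (C' * (D * (R + 1)))
  have e2 : π ≤ 2 * D := le_trans d7 d6
  omega

/-- The recursion with `k` levels. -/
noncomputable def levelsP (p : PW J E) : ℕ → PW J E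
  | 0 => (dealsP : PT E).map Gr.loc
  | k + 1 => levP p (levelsP p k)

theorem levels_spec [DecidableEq J] {p : PW J E} {Tb Tt : ℕ → ℕ} {C : ℕ}
    (hp : PermSpec p Tb Tt C) (k : ℕ) :
    LSpec (levelsP p k) Tb (lvG Tt k) ((8448 * C + 1000) * k + 100) := by
  induction k with
  | zero => exact base_spec Tb
  | succ k ih =>
    have h := level_spec hp ih
    have e : 8448 * C + 1000 + ((8448 * C + 1000) * k + 100) =
        (8448 * C + 1000) * (k + 1) + 100 := by ring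
    rw [e] at h
    exact h

end Vale.Agent.P338.GS.Top
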