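import Vale.Agent.P338.H921.GBitsD

/-!
# P338, matrices of every shape: the main program
-/

namespace Vale.Agent.P338.GS.Top

open Vale.Agent.P338

variable {J E : Type}

/-- The parameters of the top level. -/
def KT (a c w e d q : ℕ) : GT E :=
  {G0 with a := una a, c := una c, w := una w, pa := una e, pc := una d, pw := una q}

/-! ### The parameters -/

/-- The size of the long multiplications. -/
def mP2 : PT E :=
  (Prog.mulOnto .a .n1 .w .n2 1 .n3 mk).seq ((Prog.mulOnto .c .n1 .n3 .n2 4608 .m mk).seq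
    (Prog.clear .n3))

theorem runs_mP2 (a c w e d u v : ℕ) (D : List (SSym E)) :
    Runs mP2 (KM (KT a c w e d 0) 0 u v 0 0 0 0 [] [] D [] []).st
      (KM (KT a c w e d 0) 0 u v 0 (c * (a * w * 4608)) 0 0 [] [] D [] []).st
      (a * (w * 10 + 8) + c * (a * w * 9224 + 8) + 3 * (a * w) + 4) := by
  have h1 := Runs.mulOnto (u := Gr.a) (t := .n1) (v := .w) (t' := .n2) (i := .n3) (by decide)
    (by decide) (by decide) (by decide) (by decide) (by decide) (by decide) (by decide)
    (by decide) (by decide) 1 mk mk mk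
    (KM (KT a c w e d 0) 0 u v 0 0 0 0 [] [] D [] [] : GT E).st a w rfl rfl rfl rfl
  have h2 := Runs.mulOnto (u := Gr.c) (t := .n1) (v := .n3) (t' := .n2) (i := .m) (by decide)
    (by decide) (by decide) (by decide) (by decide) (by decide) (by decide) (by decide)
    (by decide) (by decide) 4608 mk mk mk
    ({KM (KT a c w e d 0) 0 u v 0 0 0 0 [] [] D [] [] with n3 := una (a * w)} : GT E).st
    c (a * w) rfl rfl rfl rfl
  have h3 := Runs.clear Gr.n3
    ({KM (KT a c w e d 0) 0 u v 0 (c * (a * w * 4608)) 0 0 [] [] D [] [] with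
      n3 := una (a * w)} : GT E).st
  rw [upd_n3] at h1 h3
  rw [upd_m] at h2
  simp only [GT.st, KM, List.append_nil, length_una] at h1 h2 h3
  have e1 : a * (w * 1) = a * w := by rw [Nat.mul_one]
  rw [show List.replicate (a * (w * 1)) (mk : SSym E) = una (a * w) by rw [e1]; rfl] at h1
  have e0 : (una 0 : List (SSym E)) = [] := rfl
  rw [e0, List.append_nil] at h2
  refine (h1.seq (h2.seq h3)).mono ?_
  have e3 : c * (a * w * (2 * 4608 + 8) + 8) = c * (a * w * 9224 + 8) := by norm_num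
  have e4 : a * (w * (2 * 1 + 8) + 8) = a * (w * 10 + 8) := by norm_num
  rw [e3, e4]
  omega

/-- `n1 := pl - w`. -/
def diffW : PT E :=
  (Prog.copyOnto .pl .n1 .n3).seq ((Prog.copyOnto .w .n2 .n3).seq
    ((Prog.subtr .n1 .n2).seq (Prog.clear .n2)))

theorem runs_diffW (a c w e d q X u v z m pe pl : ℕ) (D V : List (SSym E)) :
    Runs diffW (KM (KT a c w e d q) X u v z m pe pl [] [] D V []).st
      (KM (KT a c w e d q) X u v z m pe pl [] [] D V (una (pl - w))).st
      (9 * pl + 9 * w + 10) := by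
  have h1 := Runs.copyOnto (a := Gr.pl) (b := .n1) (t := .n3) (by decide) (by decide)
    (by decide) (KM (KT a c w e d q) X u v z m pe pl [] [] D V [] : GT E).st rfl
  have h2 := Runs.copyOnto (a := Gr.w) (b := .n2) (t := .n3) (by decide) (by decide)
    (by decide) (KM (KT a c w e d q) X u v z m pe pl [] [] D V (una pl) : GT E).st rfl
  have h3 := Runs.subtr (u := Gr.n1) (v := .n2) (by decide)
    ({KM (KT a c w e d q) X u v z m pe pl [] [] D V (una pl) with n2 := una w} : GT E).st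
  have h4 := Runs.clear Gr.n2
    ({KM (KT a c w e d q) X u v z m pe pl [] [] D V (una (pl - w)) with
      n2 := una (w - pl)} : GT E).st
  simp only [KM, KT, GT.st, length_una, List.append_nil, drop_una] at h1 h2 h3 h4
  have g1 := h1.of_eq (upd_n1 _ _)
  have g2 := h2.of_eq (upd_n2 _ _)
  have g3 := h3.of_eq (by rw [upd_n1, upd_n2])
  have g4 := h4.of_eq (upd_n2 _ _)
  refine (g1.seq (g2.seq (g3.seq g4))).mono ?_
  omega

/-- All parameters. -/
def midP : PT E := mP2.seq ((Prog.push .h mk).seq (piP.seq diffW))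

theorem runs_midP (a c w e d u v : ℕ) (D : List (SSym E)) :
    Runs midP (KM (KT a c w e d 0) 0 u v 0 0 0 0 [] [] D [] []).st
      (KM (KT a c w e d 0) 1 u v 0 (c * (a * w * 4608)) (Nat.size (u + v))
        (2 ^ Nat.size (u + v)) [] [] D [] (una (2 ^ Nat.size (u + v) - w))).st
      (a * (w * 10 + 8) + c * (a * w * 9224 + 8) + 3 * (a * w) +
        6 * (u + v) + 28 * 2 ^ Nat.size (u + v) + 9 * w + 40) := by
  have h1 := runs_mP2 (E := E) a c w e d u v D
  have h2 := Runs.push Gr.h mk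
    (KM (KT a c w e d 0) 0 u v 0 (c * (a * w * 4608)) 0 0 [] [] D [] [] : GT E).st
  rw [upd_h] at h2
  have h3 := runs_piP 1 u v 0 (c * (a * w * 4608)) D [] (KT a c w e d 0 : GT E)
  have h4 := runs_diffW (E := E) a c w e d 0 1 u v 0 (c * (a * w * 4608)) (Nat.size (u + v))
    (2 ^ Nat.size (u + v)) D []
  exact (h1.seq (h2.seq (h3.seq h4))).mono (by omega)

/-! ### Short entries -/

/-- Short entries: padding. -/
def shortP : PT E := (Prog.clear .n1).seq (clrP.seq ((Prog.copyOnto .w .z .n1).seq padP))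

theorem runs_shortP (a c w e d u v m pe pl r : ℕ) (g : ℕ → ℕ → List Bool)
    (hg : ∀ i j, (g i j).length = w) :
    Runs shortP (KM (KT a c w e d 0) 1 u v 0 m pe pl [] []
        (bits (cat a fun i => cat c fun j => g i j)) [] (una r)).st
      (KM (KT a c w e d 0) 1 u v w m 0 0 [] [] (bits (padBits a e c d w 0 g)) [] [] : GT E).st
      (3 * r + 3 * pe + 3 * pl + 6 * w + (a + e) * ((c + d) * (8 * w + 10) + 10) +
        3 * ((a + e) * ((c + d) * w)) + 10) := by
  have h1 := Runs.clear Gr.n1 (KM (KT a c w e d 0) 1 u v 0 m pe pl [] []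
        (bits (cat a fun i => cat c fun j => g i j)) [] (una r) : GT E).st
  rw [upd_n1] at h1
  have h2 := runs_clrP 1 u v 0 m pe pl (bits (cat a fun i => cat c fun j => g i j)) []
    (KT a c w e d 0 : GT E)
  have h3 := Runs.copyOnto (a := Gr.w) (b := .z) (t := .n1) (by decide) (by decide)
    (by decide) (KM (KT a c w e d 0) 1 u v 0 m 0 0 [] []
        (bits (cat a fun i => cat c fun j => g i j)) [] [] : GT E).st rfl
  rw [upd_z] at h3
  have h4 := runs_padP a e c d w 0 g hg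
    (KM (KT a c w e d 0) 1 u v w m 0 0 [] [] [] [] [] : GT E)
  simp only [GT.st, KM, KT, length_una, Nat.mul_zero, Nat.add_zero] at h1 h2 h3 h4
  have e0 : (una 0 : List (SSym E)) = [] := rfl
  rw [e0, List.append_nil] at h3
  refine (h1.seq (h2.seq (h3.seq h4))).mono ?_
  omega

/-! ### Long entries -/

/-- Long entries: padding. -/
def longP : PT E :=
  (Prog.copyOnto .pl .t .n1).seq ((Prog.copyOnto .pl .l .n1).seq
    ((Prog.copyOnto .w .n1 .n2).seq (zOut.seq padP)))

theorem runs_longP (a c w e d u v m pe pl Z : ℕ) (g : ℕ → ℕ → List Bool)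
    (hg : ∀ i j, (g i j).length = w) (hZ1 : w ≤ Z * pl) (hZ2 : Z * pl < w + pl) :
    Runs longP (KM (KT a c w e d 0) 1 u v 0 m pe pl [] []
        (bits (cat a fun i => cat c fun j => g i j)) [] []).st
      (KM (KT a c w e d (Z * pl - w)) 1 u v Z m pe pl (una pl) (una pl)
        (bits (padBits a e c d w (Z * pl - w) g)) [] [] : GT E).st
      (12 * pl + 6 * w + Z * (6 * pl + 6) +
        (a + e) * ((c + d) * (8 * (Z * pl) + 10) + 10) +
        3 * ((a + e) * ((c + d) * (Z * pl))) + 20) := by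
  have h1 := Runs.copyOnto (a := Gr.pl) (b := .t) (t := .n1) (by decide) (by decide)
    (by decide) (KM (KT a c w e d 0) 1 u v 0 m pe pl [] []
        (bits (cat a fun i => cat c fun j => g i j)) [] [] : GT E).st rfl
  rw [upd_t] at h1
  have h2 := Runs.copyOnto (a := Gr.pl) (b := .l) (t := .n1) (by decide) (by decide)
    (by decide) (KM (KT a c w e d 0) 1 u v 0 m pe pl (una pl) []
        (bits (cat a fun i => cat c fun j => g i j)) [] [] : GT E).st rfl
  rw [upd_l] at h2
  have h3 := Runs.copyOnto (a := Gr.w) (b := .n1) (t := .n2) (by decide) (by decide)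
    (by decide) (KM (KT a c w e d 0) 1 u v 0 m pe pl (una pl) (una pl)
        (bits (cat a fun i => cat c fun j => g i j)) [] [] : GT E).st rfl
  rw [upd_n1] at h3
  have h4 := runs_zOut pl Z w (KM (KT a c w e d 0) 1 u v 0 m pe pl (una pl) (una pl)
        (bits (cat a fun i => cat c fun j => g i j)) [] [] : GT E) hZ1 hZ2
  have h5 := runs_padP a e c d w (Z * pl - w) g hg
    (KM (KT a c w e d (Z * pl - w)) 1 u v Z m pe pl (una pl) (una pl) [] [] [] : GT E)
  have e0 : (una 0 : List (SSym E)) = [] := rfl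
  simp only [GT.st, KM, KT, List.append_nil, length_una, e0] at h1 h2 h3 h4 h5
  refine (h1.seq (h2.seq (h3.seq (h4.seq h5)))).mono ?_
  rw [show w + (Z * pl - w) = Z * pl by omega,
    show 8 * w + 8 * (Z * pl - w) = 8 * (Z * pl) by omega]
  omega

/-! ### The main program -/

/-- The main program, with `k` levels for short entries. -/
noncomputable def mainP (p : PW J E) (k : ℕ) : PW J E :=
  ((midP : PT E).map Gr.loc).seq (Prog.ite (nonempty (Gr.loc .n1))
    (((shortP : PT E).map Gr.loc).seq ((levelsP p k).seq ((unpP : PT E).map Gr.loc)))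
    (((longP : PT E).map Gr.loc).seq (p.seq ((unpP : PT E).map Gr.loc))))

/-- The cost per bit. -/
def costG (Tt : ℕ → ℕ) (k u v w : ℕ) : ℕ :=
  if w < 2 ^ Nat.size (u + v) then lvG Tt k u v
  else Tt (64 * 2 ^ Nat.size (u + v)) / (64 * 2 ^ Nat.size (u + v))

theorem padBits_A3 (a c w q u v : ℕ) (g : ℕ → ℕ → List Bool) (ha : a ≤ 2 ^ u)
    (hc : c ≤ 2 ^ v) :
    padBits a (2 ^ u - a) c (2 ^ v - c) w q g =
      A3 1 (2 ^ u) (2 ^ v) fun _ i j => pword a c w q g i j := by
  rw [padBits_eq, A3, cat_one, show a + (2 ^ u - a) = 2 ^ u by omega,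
    show c + (2 ^ v - c) = 2 ^ v by omega]

/-- The end. -/
theorem runs_end [DecidableEq J] (a c w q u v z m pe pl : ℕ) (t l : List (SSym E))
    (g : ℕ → ℕ → List Bool)
    (hg : ∀ i j, (g i j).length = w) (ha : a ≤ 2 ^ u) (hc : c ≤ 2 ^ v) :
    ∃ s' : SW J E, Runs ((unpP : PT E).map Gr.loc)
      (big (KM (KT a c w (2 ^ u - a) (2 ^ v - c) q) 1 u v z m pe pl t l
        (bits (A3 1 (2 ^ v) (2 ^ u) fun _ j i => pword a c w q g i j)) [] [])) s'
      (c * (2 ^ u * (8 * (w + q) + 10) + 10) +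
        3 * ((2 ^ v - c) * (2 ^ u * (w + q))) + 3 * (c * (a * w)) + 3) ∧
      s' (Sum.inr W.XR) = bits (cat c fun j => cat a fun i => g i j) := by
  have k3 := Runs.big' (J := J) (runs_unpP (E := E) a (2 ^ u - a) c (2 ^ v - c) w
    q (fun j i => (pword a c w q g i j).take w) (fun j i => (pword a c w q g i j).drop w)
    (fun j i => by rw [List.length_take, length_pword hg]; omega)
    (fun j i => by rw [List.length_drop, length_pword hg]; omega)
    (KM (KT a c w (2 ^ u - a) (2 ^ v - c) q) 1 u v z m pe pl t l [] [] []))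
  have hsplit : (A3 1 (2 ^ v) (2 ^ u) fun _ j i => pword a c w q g i j) =
      cat (c + (2 ^ v - c)) fun j => cat (a + (2 ^ u - a)) fun i =>
        (pword a c w q g i j).take w ++ (pword a c w q g i j).drop w := by
    rw [A3, cat_one, show a + (2 ^ u - a) = 2 ^ u by omega,
      show c + (2 ^ v - c) = 2 ^ v by omega]
    refine cat_congr fun j _ => cat_congr fun i _ => ?_
    rw [List.take_append_drop]
  rw [← hsplit] at k3
  rw [show a + (2 ^ u - a) = 2 ^ u by omega,
    show 8 * w + 8 * q = 8 * (w + q) by ring] at k3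
  refine ⟨_, k3, ?_⟩
  show bits (cat c fun j => cat a fun i => (pword a c w q g i j).take w) = _
  congr 1
  refine cat_congr fun j hj => cat_congr fun i hi => ?_
  rw [pword, if_pos ⟨hi, hj⟩]
  have := hg i j
  rw [List.take_append_of_le_length (by omega), List.take_of_length_le (by omega)]

theorem nonempty_una_big (K : GT E) (n : ℕ) (h : K.n1 = una n) :
    nonempty (Gr.loc .n1) (tops (big K : SW J E)) = decide (n ≠ 0) := by
  rw [nonempty_big, h]
  cases n <;> rfl

theorem main_runs [DecidableEq J] {p : PW J E} {Tb Tt : ℕ → ℕ} {C : ℕ}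
    (hp : PermSpec p Tb Tt C) (k : ℕ) {a c w u v : ℕ} (ha : 1 ≤ a) (hc : 1 ≤ c) (hw : 1 ≤ w)
    (hu1 : 1 ≤ u) (hv1 : 1 ≤ v) (hua : a ≤ 2 ^ u) (hvc : c ≤ 2 ^ v) (hu : 2 ^ u ≤ 2 * a)
    (hv : 2 ^ v ≤ 2 * c)
    (g : ℕ → ℕ → List Bool) (hg : ∀ i j, (g i j).length = w) :
    ∃ s' : SW J E, Runs (mainP p k)
      (big (KM (KT a c w (2 ^ u - a) (2 ^ v - c) 0) 0 u v 0 0 0 0 [] []
        (bits (cat a fun i => cat c fun j => g i j)) [] [])) s'
      ((40000 * C + 4608 * ((8448 * C + 1000) * k + 100) + 20000) *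
        (a * c * w + Tb (4608 * (a * c * w)) + a * c * w * costG Tt k u v w)) ∧
      s' (Sum.inr W.XR) = bits (cat c fun j => cat a fun i => g i j) := by
  obtain ⟨N, hN⟩ : ∃ N, a * c * w = N := ⟨_, rfl⟩
  have hm : c * (a * w * 4608) = 4608 * N := by rw [← hN]; ring
  have hpl := pl_le (v := v) hu1
  -- simple bounds
  have b1 : a * c ≤ N := by rw [← hN]; exact Nat.le_mul_of_pos_right _ hw
  have b2 : a ≤ a * c := Nat.le_mul_of_pos_right _ hc
  have b3 : c ≤ a * c := Nat.le_mul_of_pos_left _ ha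
  have b4 : w ≤ N := by rw [← hN]; exact Nat.le_mul_of_pos_left _ (Nat.mul_pos ha hc)
  have b5 : a * w ≤ N := by
    rw [← hN, Nat.mul_right_comm]
    exact Nat.le_mul_of_pos_right _ hc
  have b6 : u ≤ 2 ^ u := Nat.lt_two_pow_self.le
  have b7 : v ≤ 2 ^ v := Nat.lt_two_pow_self.le
  have b8 : 2 ^ u * 2 ^ v ≤ 4 * (a * c) := by
    calc 2 ^ u * 2 ^ v ≤ (2 * a) * (2 * c) := Nat.mul_le_mul hu hv
      _ = 4 * (a * c) := by ring
  have b9 : 2 ^ (u + v) ≤ 4 * N := by
    rw [pow_add]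
    omega
  have b10 : 2 ^ u * 2 ^ v * w ≤ 4 * N := by
    calc 2 ^ u * 2 ^ v * w ≤ 4 * (a * c) * w := Nat.mul_le_mul_right _ b8
      _ = 4 * N := by rw [← hN]; ring
  have b11 : c * (a * w) = N := by rw [← hN]; ring
  have b12 : c * 2 ^ u * w ≤ 2 * N := by
    calc c * 2 ^ u * w ≤ c * (2 * a) * w :=
          Nat.mul_le_mul_right _ (Nat.mul_le_mul_left _ hu)
      _ = 2 * N := by rw [← hN]; ring
  have b13 : c * 2 ^ u ≤ 2 * N := by
    calc c * 2 ^ u ≤ c * (2 * a) := Nat.mul_le_mul_left _ hu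
      _ = 2 * (a * c) := by ring
      _ ≤ 2 * N := by omega
  have k1 := Runs.big' (J := J) (runs_midP (E := E) a c w (2 ^ u - a) (2 ^ v - c) u v
    (bits (cat a fun i => cat c fun j => g i j)))
  rw [hm] at k1
  have f4 : a * (w * 10 + 8) = 10 * (a * w) + 8 * a := by ring
  have f5 : c * (a * w * 9224 + 8) = 9224 * (c * (a * w)) + 8 * c := by ring
  rw [f4, f5, b11] at k1
  have hsz1 : Nat.size (u + v) ≤ 2 ^ Nat.size (u + v) := Nat.lt_two_pow_self.le
  have hlt : u + v < 2 ^ Nat.size (u + v) := Nat.lt_size_self _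
  have kP : ∀ n D, n * 2 ^ Nat.size (u + v) ≤ D → 2 ^ (u + v) ≤ D →
      permT Tb Tt C (4608 * N) n (2 ^ Nat.size (u + v)) ≤ C * (4608 * N + Tb (4608 * N)) +
        4224 * C * (D * (Tt (64 * 2 ^ Nat.size (u + v)) /
          (64 * 2 ^ Nat.size (u + v)) + 1)) :=
    fun n D h1 h2 => permT_le hu1 h1 h2
  rw [hN]
  unfold costG
  obtain ⟨G, hG⟩ : ∃ G, lvG Tt k u v = G := ⟨_, rfl⟩
  rw [hG]
  generalize Nat.size (u + v) = π at *
  rcases lt_or_ge w (2 ^ π) with h | h
  · -- short entries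
    rw [if_pos h]
    have k2 := Runs.big' (J := J) (runs_shortP (E := E) a c w (2 ^ u - a) (2 ^ v - c) u v (4608 * N) π
      (2 ^ π) (2 ^ π - w) g hg)
    rw [padBits_A3 a c w 0 u v g hua hvc] at k2
    have hPl : ∀ i j, (pword a c w 0 g i j).length = w := by
      intro i j
      rw [length_pword hg, Nat.add_zero]
    have k3 := levels_spec hp k 1 u v w (4608 * N) (fun _ i j => pword a c w 0 g i j) []
      (KT a c w (2 ^ u - a) (2 ^ v - c) 0) le_rfl hu1 hv1 hw
      (by
        rw [Nat.one_mul, pow_add]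
        omega) (fun _ i j => hPl i j)
    rw [hG, Nat.one_mul, pow_add] at k3
    obtain ⟨s', k4, hs'⟩ := runs_end (J := J) a c w 0 u v w (4608 * N) 0 0 ([] : List (SSym E))
      [] g hg hua hvc
    simp only [Nat.add_zero] at k4
    have k5 : Runs (Prog.ite (nonempty (Gr.loc .n1))
      (((shortP : PT E).map Gr.loc).seq ((levelsP p k).seq ((unpP : PT E).map Gr.loc)))
      (((longP : PT E).map Gr.loc).seq (p.seq ((unpP : PT E).map Gr.loc)))) _ s' _ :=
      Runs.iteT (by
        rw [nonempty_una_big _ (2 ^ π - w) rfl, decide_eq_true_eq]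
        omega) (k2.seq (k3.seq k4))
    refine ⟨s', (k1.seq k5).mono ?_, hs'⟩
    have e1 : a + (2 ^ u - a) = 2 ^ u := by omega
    have e2 : c + (2 ^ v - c) = 2 ^ v := by omega
    rw [e1, e2]
    have t1 : 2 ^ u * (2 ^ v * (8 * w + 10) + 10) =
        8 * (2 ^ u * 2 ^ v * w) + 10 * (2 ^ u * 2 ^ v) + 10 * 2 ^ u := by ring
    have t2 : 2 ^ u * (2 ^ v * w) = 2 ^ u * 2 ^ v * w := by ring
    have t3 : c * (2 ^ u * (8 * w + 10) + 10) =
        8 * (c * 2 ^ u * w) + 10 * (c * 2 ^ u) + 10 * c := by ring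
    have t4 : (2 ^ v - c) * (2 ^ u * w) ≤ c * 2 ^ u * w := by
      rw [Nat.mul_assoc c]
      exact Nat.mul_le_mul_right _ (by omega)
    have t5 : 2 ^ u * 2 ^ v * w * G ≤ 4 * (N * G) := by
      calc 2 ^ u * 2 ^ v * w * G ≤ 4 * N * G := Nat.mul_le_mul_right _ b10
        _ = 4 * (N * G) := by ring
    have t6 : ((8448 * C + 1000) * k + 100) *
        (4608 * N + Tb (4608 * N) + 2 ^ u * 2 ^ v * w * G) ≤
        4608 * ((8448 * C + 1000) * k + 100) * (N + Tb (4608 * N) + N * G) := by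
      generalize (8448 * C + 1000) * k + 100 = Ck
      calc Ck * (4608 * N + Tb (4608 * N) + 2 ^ u * 2 ^ v * w * G) ≤
          Ck * (4608 * (N + Tb (4608 * N) + N * G)) := Nat.mul_le_mul_left _ (by omega)
        _ = 4608 * Ck * (N + Tb (4608 * N) + N * G) := by ring
    rw [t1, t2, t3, b11]
    generalize (8448 * C + 1000) * k + 100 = Ck at *
    generalize Tb (4608 * N) = B at *
    have t7 : (40000 * C + 4608 * Ck + 20000) * (N + B + N * G) =
        40000 * C * (N + B + N * G) + 4608 * Ck * (N + B + N * G) +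
          20000 * (N + B + N * G) := by ring
    rw [t7]
    have t8 := Nat.zero_le (40000 * C * (N + B + N * G))
    omega
  · -- long entries
    rw [if_neg (by omega)]
    obtain ⟨Z, hZ1, hZ2⟩ := exists_words w (2 ^ π) Nat.one_le_two_pow
    have hZ0 : 1 ≤ Z := by
      rcases Nat.eq_zero_or_pos Z with h0 | h0
      · subst h0
        omega
      · exact h0
    have e0 : 2 ^ π - w = 0 := by omega
    rw [e0] at k1
    have k2 := Runs.big' (J := J) (runs_longP (E := E) a c w (2 ^ u - a) (2 ^ v - c) u v (4608 * N) π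
      (2 ^ π) Z g hg hZ1 hZ2)
    rw [padBits_A3 a c w (Z * 2 ^ π - w) u v g hua hvc] at k2
    have hq : w + (Z * 2 ^ π - w) = Z * 2 ^ π := by omega
    have hPl : ∀ i j, (pword a c w (Z * 2 ^ π - w) g i j).length = Z * 2 ^ π := by
      intro i j
      rw [length_pword hg, hq]
    have b14 : 2 ^ u * 2 ^ v * (Z * 2 ^ π) ≤ 8 * N := by
      calc 2 ^ u * 2 ^ v * (Z * 2 ^ π) ≤ 4 * (a * c) * (2 * w) :=
            Nat.mul_le_mul b8 (by omega)
        _ = 8 * N := by rw [← hN]; ring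
    have k3 := perm_big hp 1 u v Z (4608 * N) π (2 ^ π)
      (fun _ i j => pword a c w (Z * 2 ^ π - w) g i j) (fun _ i j => hPl i j) le_rfl hu1 hv1
      hZ0 Nat.one_le_two_pow hlt.le (by
        have : 1 * 2 ^ u * 2 ^ v * Z * 2 ^ π = 2 ^ u * 2 ^ v * (Z * 2 ^ π) := by ring
        rw [this]
        omega) [] (KT a c w (2 ^ u - a) (2 ^ v - c) (Z * 2 ^ π - w))
    obtain ⟨s', k4, hs'⟩ := runs_end (J := J) a c w (Z * 2 ^ π - w) u v Z (4608 * N) π (2 ^ π)
      (una (2 ^ π)) (una (2 ^ π)) g hg hua hvc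
    have k5 : Runs (Prog.ite (nonempty (Gr.loc .n1))
      (((shortP : PT E).map Gr.loc).seq ((levelsP p k).seq ((unpP : PT E).map Gr.loc)))
      (((longP : PT E).map Gr.loc).seq (p.seq ((unpP : PT E).map Gr.loc)))) _ s' _ :=
      Runs.iteF (by
        rw [nonempty_una_big _ 0 rfl]
        rfl) (k2.seq (k3.seq k4))
    refine ⟨s', (k1.seq k5).mono ?_, hs'⟩
    have e1 : a + (2 ^ u - a) = 2 ^ u := by omega
    have e2 : c + (2 ^ v - c) = 2 ^ v := by omega
    rw [e1, e2, hq]
    have t1 : 2 ^ u * (2 ^ v * (8 * (Z * 2 ^ π) + 10) + 10) =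
        8 * (2 ^ u * 2 ^ v * (Z * 2 ^ π)) + 10 * (2 ^ u * 2 ^ v) + 10 * 2 ^ u := by ring
    have t2 : 2 ^ u * (2 ^ v * (Z * 2 ^ π)) = 2 ^ u * 2 ^ v * (Z * 2 ^ π) := by ring
    have t3 : c * (2 ^ u * (8 * (Z * 2 ^ π) + 10) + 10) =
        8 * (c * 2 ^ u * (Z * 2 ^ π)) + 10 * (c * 2 ^ u) + 10 * c := by ring
    have t4 : (2 ^ v - c) * (2 ^ u * (Z * 2 ^ π)) ≤ c * 2 ^ u * (Z * 2 ^ π) := by
      rw [Nat.mul_assoc c]
      exact Nat.mul_le_mul_right _ (by omega)
    have t5 : c * 2 ^ u * (Z * 2 ^ π) ≤ 4 * N := by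
      calc c * 2 ^ u * (Z * 2 ^ π) ≤ c * 2 ^ u * (2 * w) :=
            Nat.mul_le_mul_left _ (by omega)
        _ = 2 * (c * 2 ^ u * w) := by ring
        _ ≤ 4 * N := by omega
    have t6 : Z * (6 * 2 ^ π + 6) ≤ 24 * w := by
      have : Z ≤ Z * 2 ^ π := Nat.le_mul_of_pos_right _ (by positivity)
      have : Z * (6 * 2 ^ π + 6) = 6 * (Z * 2 ^ π) + 6 * Z := by ring
      omega
    have t7 := kP (1 * 2 ^ u * 2 ^ v * Z) (8 * N) (by
      have : 1 * 2 ^ u * 2 ^ v * Z * 2 ^ π = 2 ^ u * 2 ^ v * (Z * 2 ^ π) := by ring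
      omega) (by omega)
    unfold permT at t7
    rw [t1, t2, t3, b11]
    generalize C * (4608 * N + Tb (4608 * N) + (1 * 2 ^ u * 2 ^ v * Z + (2 ^ π) ^ 2) *
      (64 * 2 ^ π + Tt (64 * 2 ^ π))) = T1 at *
    generalize (8448 * C + 1000) * k + 100 = Ck at *
    generalize Tb (4608 * N) = B at *
    generalize Tt (64 * 2 ^ π) / (64 * 2 ^ π) = R at *
    have t8 : (40000 * C + 4608 * Ck + 20000) * (N + B + N * R) =
        40000 * C * (N + B + N * R) + 4608 * Ck * (N + B + N * R) +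
          20000 * (N + B + N * R) := by ring
    have t9 : C * (4608 * N + B) + 4224 * C * (8 * N * (R + 1)) ≤
        40000 * C * (N + B + N * R) := by
      have e3 : C * (4608 * N + B) + 4224 * C * (8 * N * (R + 1)) =
          C * (4608 * N + B + 33792 * (N * R) + 33792 * N) := by ring
      have e4 : 40000 * C * (N + B + N * R) = C * (40000 * (N + B + N * R)) := by ring
      rw [e3, e4]
      apply Nat.mul_le_mul_left
      omega
    rw [t8]
    have t10 := Nat.zero_le (4608 * Ck * (N + B + N * R))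
    omega

end Vale.Agent.P338.GS.Top
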