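import Vale.Agent.P338.H921.GBitsE

/-!
# P338, matrices of every shape: the machines
-/

namespace Vale.Agent.P338.GS.Top

open Vale.Agent.P338

variable {J E : Type}

/-! ### Matrices with entries of several bits -/

/-- The program for matrices with entries of several bits. -/
noncomputable def entP (p : PW J E) (k : ℕ) : PW J E :=
  ((preA : PT E).map Gr.loc).seq (((preB : PT E).map Gr.loc).seq (mainP p k))

/-- The constant in the time. -/
def cK (C k : ℕ) : ℕ := 40000 * C + 4608 * ((8448 * C + 1000) * k + 100) + 21000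

/-- The time. -/
def cT (Tb Tt : ℕ → ℕ) (k a c w : ℕ) : ℕ :=
  a * c * w + Tb (4608 * (a * c * w)) +
    a * c * w * costG Tt k (Nat.size a) (Nat.size c) w

theorem preAB_le {a c w : ℕ} (ha : 1 ≤ a) (hc : 1 ≤ c) (hw : 1 ≤ w) :
    3 * (c * (a * w)) + 6 * a + 6 * w + 11 * 2 ^ Nat.size a + 8 * Nat.size a + 20 + 1 +
      (a * (w * 10 + 8) + c * (8 * (a * w) + 5) + 3 * (c * (a * w)) + 3 * (a * w) +
        11 * 2 ^ Nat.size c + 8 * Nat.size c + 3 * c + 10 + 1) ≤ 1000 * (a * c * w) := by
  have hu := two_pow_size_le ha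
  have hv := two_pow_size_le hc
  generalize Nat.size a = u at *
  generalize Nat.size c = v at *
  obtain ⟨N, hN⟩ : ∃ N, a * c * w = N := ⟨_, rfl⟩
  have b1 : a * c ≤ N := by rw [← hN]; exact Nat.le_mul_of_pos_right _ hw
  have b2 : a ≤ a * c := Nat.le_mul_of_pos_right _ hc
  have b3 : c ≤ a * c := Nat.le_mul_of_pos_left _ ha
  have b4 : w ≤ N := by rw [← hN]; exact Nat.le_mul_of_pos_left _ (Nat.mul_pos ha hc)
  have b5 : a * w ≤ N := by
    rw [← hN, Nat.mul_right_comm]
    exact Nat.le_mul_of_pos_right _ hc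
  have b6 : u ≤ 2 ^ u := Nat.lt_two_pow_self.le
  have b7 : v ≤ 2 ^ v := Nat.lt_two_pow_self.le
  have b11 : c * (a * w) = N := by rw [← hN]; ring
  have f1 : a * (w * 10 + 8) = 10 * (a * w) + 8 * a := by ring
  have f2 : c * (8 * (a * w) + 5) = 8 * (c * (a * w)) + 5 * c := by ring
  rw [f1, f2, b11, hN]
  omega

theorem entP_runs [DecidableEq J] {p : PW J E} {Tb Tt : ℕ → ℕ} {C : ℕ}
    (hp : PermSpec p Tb Tt C) (k : ℕ) {a c w : ℕ} (ha : 1 ≤ a) (hc : 1 ≤ c) (hw : 1 ≤ w)
    (g : ℕ → ℕ → List Bool) (hg : ∀ i j, (g i j).length = w) :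
    ∃ s' : SW J E, Runs (entP p k)
      (Function.update (fun _ => []) (Sum.inr W.IN) ((List.replicate a (sb true) ++
        mk :: (List.replicate w (sb true) ++
          mk :: bits (cat a fun i => cat c fun j => g i j))).reverse)) s'
      (cK C k * cT Tb Tt k a c w) ∧
      s' (Sum.inr W.XR) = bits (cat c fun j => cat a fun i => g i j) := by
  have hD : (bits (cat a fun i => cat c fun j => g i j) : List (SSym E)).length =
      c * (a * w) := by
    rw [length_bits, length_cat_of (L := c * w)]
    · ring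
    · intro i _
      rw [length_cat_of (L := w)]
      intro j _
      exact hg i j
  have k1 := Runs.big' (J := J) (runs_preA a w
    (bits (cat a fun i => cat c fun j => g i j) : List (SSym E)))
  have k2 := Runs.big' (J := J) (runs_preB a c w ha hw (una (Nat.size a))
    (una (2 ^ Nat.size a - a)) (bits (cat a fun i => cat c fun j => g i j)) hD)
  rw [big_input, hD] at k1
  obtain ⟨s', k3, hs'⟩ := main_runs hp k ha hc hw (Nat.size_pos.2 ha) (Nat.size_pos.2 hc)
    (Nat.lt_size_self a).le (Nat.lt_size_self c).le (two_pow_size_le ha) (two_pow_size_le hc)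
    g hg
  have k4 := k1.seq (k2.seq k3)
  refine ⟨s', k4.mono ?_, hs'⟩
  have t1 := preAB_le ha hc hw
  unfold cK
  have t2 : a * c * w ≤ cT Tb Tt k a c w := by
    unfold cT
    omega
  have t3 : a * c * w + Tb (4608 * (a * c * w)) +
    a * c * w * costG Tt k (Nat.size a) (Nat.size c) w = cT Tb Tt k a c w := rfl
  rw [t3]
  generalize cT Tb Tt k a c w = T at *
  generalize 4608 * ((8448 * C + 1000) * k + 100) = c1 at *
  have t4 : (40000 * C + c1 + 21000) * T = (40000 * C + c1 + 20000) * T + 1000 * T := by ring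
  rw [t4]
  omega

/-- The machine for matrices with entries of several bits. -/
theorem ent_machine [DecidableEq J] [Finite J] [Finite E] {p : PW J E} {Tb Tt : ℕ → ℕ}
    {C : ℕ} (hp : PermSpec p Tb Tt C) (k : ℕ) :
    ∃ (B : TM) (C' : ℕ), TransposesEnt B ∧
      ∀ a c w : ℕ, 1 ≤ a → 1 ≤ c → 1 ≤ w → entTime B a c w ≤ C' * cT Tb Tt k a c w := by
  obtain ⟨B, C', hB, hC'⟩ := exists_transposesEnt (entP p k) (Sum.inr W.IN) (Sum.inr W.XR)
    (fun a c w => cK C k * cT Tb Tt k a c w)
    (by
      intro a c w ha hc hw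
      have h1 : a * c * w ≤ cT Tb Tt k a c w := by
        unfold cT
        omega
      exact h1.trans (Nat.le_mul_of_pos_left _ (by unfold cK; omega)))
    (by
      intro a c w ha hc hw x
      obtain ⟨s', h1, h2⟩ := entP_runs hp k ha hc hw (gE x) (length_gE x)
      refine ⟨s', ?_, ?_⟩
      · rw [embS_entInput]
        exact h1
      · rw [h2, entries_transpose_eq])
  refine ⟨B, C' * cK C k, hB, fun a c w ha hc hw => ?_⟩
  rw [Nat.mul_assoc]
  exact hC' a c w ha hc hw

/-! ### Bit matrices -/

/-- Read the number of rows. -/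
def preR : PT E :=
  (Prog.rev .inp .x).seq (rdA.seq ((Prog.pop .x).seq (sizeP.seq ((Prog.rev .n3 .pa).seq
    ((Prog.rev .n4 .u).seq (Prog.push .w mk))))))

theorem runs_preR (a : ℕ) (D : List (SSym E)) :
    Runs preR ({G0 with inp := (List.replicate a (sb true) ++ mk :: D).reverse} : GT E).st
      ({G0 with x := D, a := una a, w := una 1, u := una (Nat.size a),
                pa := una (2 ^ Nat.size a - a)} : GT E).st
      (3 * D.length + 6 * a + 6 * 1 + 11 * 2 ^ Nat.size a + 8 * Nat.size a + 20) := by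
  have h1 := rev_inp_x ({G0 with inp := (List.replicate a (sb true) ++
        mk :: D).reverse} : GT E)
  have h2 := runs_rdA D a (G0 : GT E)
  have h3 := Runs.pop Gr.x ({G0 with x := mk :: D,
                                     a := una a, n1 := una a, n5 := una a} : GT E).st
  have h4 := runs_sizeP a ({G0 with x := D, a := una a} : GT E)
  have h5 := rev_n3_pa ({G0 with x := D, a := una a,
                                 n3 := una (2 ^ Nat.size a - a),
                                 n4 := una (Nat.size a)} : GT E)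
  have h6 := rev_n4_u ({G0 with x := D, a := una a,
                                pa := una (2 ^ Nat.size a - a),
                                n4 := una (Nat.size a)} : GT E)
  have h7 := Runs.push Gr.w mk ({G0 with x := D, a := una a, u := una (Nat.size a),
                                         pa := una (2 ^ Nat.size a - a)} : GT E).st
  rw [upd_x] at h3
  rw [upd_w] at h7
  simp only [G0, List.reverse_reverse, List.append_nil, List.length_reverse,
    List.length_append, List.length_replicate, List.length_cons, length_una,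
    reverse_una] at h1 h2 h3 h4 h5 h6 h7
  have h9 : a < 2 ^ Nat.size a := Nat.lt_size_self a
  refine (h1.seq (h2.seq (h3.seq (h4.seq (h5.seq (h6.seq h7)))))).mono ?_
  omega

/-- The program for bit matrices. -/
noncomputable def bitP (p : PW J E) (k : ℕ) : PW J E :=
  ((preR : PT E).map Gr.loc).seq (((preB : PT E).map Gr.loc).seq (mainP p k))

theorem bitP_runs [DecidableEq J] {p : PW J E} {Tb Tt : ℕ → ℕ} {C : ℕ}
    (hp : PermSpec p Tb Tt C) (k : ℕ) {a b : ℕ} (ha : 1 ≤ a) (hb : 1 ≤ b)
    (x : ℕ → ℕ → Bool) :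
    ∃ s' : SW J E, Runs (bitP p k)
      (Function.update (fun _ => []) (Sum.inr W.IN) ((List.replicate a (sb true) ++
        mk :: bits (cat a fun i => cat b fun j => [x i j])).reverse)) s'
      (cK C k * cT Tb Tt k a b 1) ∧
      s' (Sum.inr W.XR) = bits (cat b fun j => cat a fun i => [x i j]) := by
  have hD : (bits (cat a fun i => cat b fun j => [x i j]) : List (SSym E)).length =
      b * (a * 1) := by
    rw [length_bits, length_cat_of (L := b)]
    · ring
    · intro i _
      rw [length_cat_of (L := 1) fun _ _ => rfl, Nat.mul_one]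
  have k1 := Runs.big' (J := J) (runs_preR a
    (bits (cat a fun i => cat b fun j => [x i j]) : List (SSym E)))
  have k2 := Runs.big' (J := J) (runs_preB a b 1 ha le_rfl (una (Nat.size a))
    (una (2 ^ Nat.size a - a)) (bits (cat a fun i => cat b fun j => [x i j])) hD)
  rw [big_input, hD] at k1
  obtain ⟨s', k3, hs'⟩ := main_runs hp k ha hb le_rfl (Nat.size_pos.2 ha) (Nat.size_pos.2 hb)
    (Nat.lt_size_self a).le (Nat.lt_size_self b).le (two_pow_size_le ha) (two_pow_size_le hb)
    (fun i j => [x i j]) (fun _ _ => rfl)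
  have k4 := k1.seq (k2.seq k3)
  refine ⟨s', k4.mono ?_, hs'⟩
  have t1 := preAB_le ha hb le_rfl
  unfold cK
  have t2 : a * b * 1 ≤ cT Tb Tt k a b 1 := by
    unfold cT
    omega
  have t3 : a * b * 1 + Tb (4608 * (a * b * 1)) +
    a * b * 1 * costG Tt k (Nat.size a) (Nat.size b) 1 = cT Tb Tt k a b 1 := rfl
  rw [t3]
  generalize cT Tb Tt k a b 1 = T at *
  generalize 4608 * ((8448 * C + 1000) * k + 100) = c1 at *
  have t4 : (40000 * C + c1 + 21000) * T = (40000 * C + c1 + 20000) * T + 1000 * T := by ring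
  rw [t4]
  omega

theorem embS_rectInput {m n : ℕ} (a : Fin m → Fin n → Bool) :
    (rectInput a).map (embS : Sym → SSym E) = List.replicate m (sb true) ++
      mk :: bits (cat m fun i => cat n fun j => [extMat a i j]) := by
  unfold rectInput
  rw [List.map_append, List.map_cons, embS_bitWord, List.map_replicate, rowMajor_extMat]
  rfl

/-- From a program to a machine for bit matrices. -/
theorem exists_transposesRect' {κ E : Type} [DecidableEq κ] [Finite κ] [Finite E]
    (p : Prog κ (SSym E)) (inp outp : κ) (TT : ℕ → ℕ → ℕ)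
    (hTT : ∀ m n : ℕ, 1 ≤ m → 1 ≤ n → m * n ≤ TT m n)
    (h : ∀ m n : ℕ, 1 ≤ m → 1 ≤ n → ∀ a : Fin m → Fin n → Bool,
      ∃ s' : Store κ (SSym E),
        Runs p (Function.update (fun _ => []) inp ((rectInput a).map embS).reverse) s'
          (TT m n) ∧ s' outp = bits (rowMajor fun i j => a j i)) :
    ∃ (B : TM) (C : ℕ), TransposesRect B ∧
      ∀ m n : ℕ, 1 ≤ m → 1 ≤ n → rectTime B m n ≤ C * TT m n := by
  obtain ⟨B, C, hB⟩ := compile_correct (embS : Sym → SSym E) embS_injective p inp outp
  have key : ∀ m n : ℕ, 1 ≤ m → 1 ≤ n → ∀ a : Fin m → Fin n → Bool,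
      B.WritesExactly (rectInput a) (bitWord (rowMajor fun i j => a j i)) ∧
        B.time (rectInput a) ≤ 6 * C * TT m n := by
    intro m n hm hn a
    obtain ⟨s', ⟨t, ht, hE⟩, hs'⟩ := h m n hm hn a
    obtain ⟨h1, h2⟩ := hB _ (bitWord (rowMajor fun i j => a j i)) s' t
      (blank_notMem_rectInput _) (blank_notMem_bitWord _) hE (by rw [embS_bitWord]; exact hs')
    refine ⟨h1, h2.trans ?_⟩
    have h0 := hTT m n hm hn
    rw [length_rectInput, length_bitWord, length_rowMajor, mul_assoc 6, mul_left_comm 6 C]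
    apply Nat.mul_le_mul_left
    have h3 : 1 ≤ m * n := Nat.mul_pos hm hn
    have h4 : m ≤ m * n := Nat.le_mul_of_pos_right m hn
    have h5 : n * m = m * n := Nat.mul_comm n m
    omega
  refine ⟨B, 6 * C, fun m n hm hn a => (key m n hm hn a).1, fun m n hm hn => ?_⟩
  unfold rectTime
  exact Finset.sup_le fun a _ => (key m n hm hn a).2

/-- The machine for bit matrices of every shape. -/
theorem bit_machine [DecidableEq J] [Finite J] [Finite E] {p : PW J E} {Tb Tt : ℕ → ℕ}
    {C : ℕ} (hp : PermSpec p Tb Tt C) (k : ℕ) :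
    ∃ (B : TM) (C' : ℕ), TransposesRect B ∧
      ∀ a b : ℕ, 1 ≤ a → 1 ≤ b → rectTime B a b ≤ C' * cT Tb Tt k a b 1 := by
  obtain ⟨B, C', hB, hC'⟩ := exists_transposesRect' (bitP p k) (Sum.inr W.IN)
    (Sum.inr W.XR) (fun a b => cK C k * cT Tb Tt k a b 1)
    (by
      intro a b ha hb
      have h1 : a * b ≤ cT Tb Tt k a b 1 := by
        unfold cT
        rw [Nat.mul_one]
        omega
      exact h1.trans (Nat.le_mul_of_pos_left _ (by unfold cK; omega)))
    (by
      intro a b ha hb x
      obtain ⟨s', h1, h2⟩ := bitP_runs hp k ha hb (extMat x)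
      refine ⟨s', ?_, ?_⟩
      · rw [embS_rectInput]
        exact h1
      · rw [h2, rowMajor_transpose])
  refine ⟨B, C' * cK C k, hB, fun a b ha hb => ?_⟩
  rw [Nat.mul_assoc]
  exact hC' a b ha hb

end Vale.Agent.P338.GS.Top
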