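import Vale.Agent.P338.GS.Iface
import Vale.Agent.P338.TopLib
import Vale.Agent.P338.Frame

/-!
# P338, matrices of every shape: the stacks of the main program
-/

namespace Vale.Agent.P338.GS.Top

open Vale.Agent.P338

/-! ### A loop over blocks -/

/-- A loop over `n` blocks `L k` on `x`, each of which gives a block `F k`, written in reversed
order on `y`. -/
theorem runs_forr_cat {ι Γ : Type} [DecidableEq ι] {u t x y : ι} (hut : u ≠ t) (hux : u ≠ x)
    (huy : u ≠ y) (htx : t ≠ x) (hty : t ≠ y) {body : Prog ι Γ} (c : Γ) (τ : ℕ)
    (s : Store ι Γ) (n : ℕ) (L F : ℕ → List Γ) (rest : List Γ)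
    (hu : s u = List.replicate n c) (ht : s t = []) (hx : s x = cat n L ++ rest)
    (hb : ∀ k < n, ∀ l₁ l₂ r Y : List Γ, Runs body
      (Function.update (Function.update (Function.update (Function.update s x (L k ++ r)) y Y)
        u l₁) t l₂)
      (Function.update (Function.update (Function.update (Function.update s x r) y
        ((F k).reverse ++ Y)) u l₁) t l₂) τ) :
    Runs (Prog.forr u t body) s
      (Function.update (Function.update s x rest) y ((cat n F).reverse ++ s y))
      (n * (τ + 7) + 1) := by
  have h := Runs.forr' hut (body := body) n c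
    (fun k => Function.update (Function.update s x ((cat (n - k) fun i => L (k + i)) ++ rest)) y
      ((cat k F).reverse ++ s y)) (fun _ => τ)
    (fun k _ => by rw [Function.update_of_ne huy, Function.update_of_ne hux, hu])
    (fun k _ => by rw [Function.update_of_ne hty, Function.update_of_ne htx, ht])
    (by
      intro k hk l₁ l₂
      have h1 := hb k hk l₁ l₂ ((cat (n - (k + 1)) fun i => L (k + 1 + i)) ++ rest)
        ((cat k F).reverse ++ s y)
      obtain ⟨m, hm⟩ : ∃ m, n - k = m + 1 := ⟨n - k - 1, by omega⟩
      have e1 : ((cat (n - k) fun i => L (k + i)) : List Γ) ++ rest =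
          L k ++ ((cat (n - (k + 1)) fun i => L (k + 1 + i)) ++ rest) := by
        rw [hm, cat_succ', show n - (k + 1) = m by omega, ← List.append_assoc, Nat.add_zero]
        congr 2
        refine cat_congr fun i _ => ?_
        rw [show k + (i + 1) = k + 1 + i by omega]
      have e2 : (cat (k + 1) F).reverse ++ s y = (F k).reverse ++ ((cat k F).reverse ++ s y) := by
        rw [cat_succ, List.reverse_append, List.append_assoc]
      simp only [e1, e2]
      exact h1)
  have e0 : Function.update (Function.update s x ((cat (n - 0) fun i => L (0 + i)) ++ rest)) y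
      ((cat 0 F).reverse ++ s y) = s := by
    simp only [Nat.sub_zero, Nat.zero_add, cat_zero, List.reverse_nil, List.nil_append]
    rw [← hx, Function.update_eq_self, Function.update_eq_self]
  have e1 : ((cat (n - n) fun i => L (n + i)) : List Γ) ++ rest = rest := by simp
  simp only [e0] at h
  rw [e1] at h
  refine h.mono ?_
  simp only [Finset.sum_const, Finset.card_range, smul_eq_mul]
  ring_nf
  omega

/-! ### The stacks -/

/-- The stacks. -/
inductive Gr : Type
  | inp | x | y | a | c | w | u | v | z | t | l | m | h | pa | pc | pw | n1 | n2 | n3 | n4 | n5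
  | n6 | n7 | n8 | pe | pl | sv
deriving DecidableEq

/-- The contents of the stacks. -/
@[ext] structure GT (E : Type) : Type where
  (inp x y a c w u v z t l m h pa pc pw n1 n2 n3 n4 n5 n6 n7 n8 pe pl sv : List (SSym E))

variable {E : Type}

/-- The store. -/
def GT.st (K : GT E) : Store Gr (SSym E)
  | .inp => K.inp
  | .x => K.x
  | .y => K.y
  | .a => K.a
  | .c => K.c
  | .w => K.w
  | .u => K.u
  | .v => K.v
  | .z => K.z
  | .t => K.t
  | .l => K.l
  | .m => K.m
  | .h => K.h
  | .pa => K.pa
  | .pc => K.pc
  | .pw => K.pw
  | .n1 => K.n1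
  | .n2 => K.n2
  | .n3 => K.n3
  | .n4 => K.n4
  | .n5 => K.n5
  | .n6 => K.n6
  | .n7 => K.n7
  | .n8 => K.n8
  | .pe => K.pe
  | .pl => K.pl
  | .sv => K.sv

theorem upd_inp (K : GT E) (l : List (SSym E)) :
    Function.update K.st .inp l = ({K with inp := l} : GT E).st := by funext r; cases r <;> rfl
theorem upd_x (K : GT E) (l : List (SSym E)) :
    Function.update K.st .x l = ({K with x := l} : GT E).st := by funext r; cases r <;> rfl
theorem upd_y (K : GT E) (l : List (SSym E)) :
    Function.update K.st .y l = ({K with y := l} : GT E).st := by funext r; cases r <;> rfl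
theorem upd_a (K : GT E) (l : List (SSym E)) :
    Function.update K.st .a l = ({K with a := l} : GT E).st := by funext r; cases r <;> rfl
theorem upd_c (K : GT E) (l : List (SSym E)) :
    Function.update K.st .c l = ({K with c := l} : GT E).st := by funext r; cases r <;> rfl
theorem upd_w (K : GT E) (l : List (SSym E)) :
    Function.update K.st .w l = ({K with w := l} : GT E).st := by funext r; cases r <;> rfl
theorem upd_u (K : GT E) (l : List (SSym E)) :
    Function.update K.st .u l = ({K with u := l} : GT E).st := by funext r; cases r <;> rfl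
theorem upd_v (K : GT E) (l : List (SSym E)) :
    Function.update K.st .v l = ({K with v := l} : GT E).st := by funext r; cases r <;> rfl
theorem upd_z (K : GT E) (l : List (SSym E)) :
    Function.update K.st .z l = ({K with z := l} : GT E).st := by funext r; cases r <;> rfl
theorem upd_t (K : GT E) (l : List (SSym E)) :
    Function.update K.st .t l = ({K with t := l} : GT E).st := by funext r; cases r <;> rfl
theorem upd_l (K : GT E) (l : List (SSym E)) :
    Function.update K.st .l l = ({K with l := l} : GT E).st := by funext r; cases r <;> rfl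
theorem upd_m (K : GT E) (l : List (SSym E)) :
    Function.update K.st .m l = ({K with m := l} : GT E).st := by funext r; cases r <;> rfl
theorem upd_h (K : GT E) (l : List (SSym E)) :
    Function.update K.st .h l = ({K with h := l} : GT E).st := by funext r; cases r <;> rfl
theorem upd_pa (K : GT E) (l : List (SSym E)) :
    Function.update K.st .pa l = ({K with pa := l} : GT E).st := by funext r; cases r <;> rfl
theorem upd_pc (K : GT E) (l : List (SSym E)) :
    Function.update K.st .pc l = ({K with pc := l} : GT E).st := by funext r; cases r <;> rfl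
theorem upd_pw (K : GT E) (l : List (SSym E)) :
    Function.update K.st .pw l = ({K with pw := l} : GT E).st := by funext r; cases r <;> rfl
theorem upd_n1 (K : GT E) (l : List (SSym E)) :
    Function.update K.st .n1 l = ({K with n1 := l} : GT E).st := by funext r; cases r <;> rfl
theorem upd_n2 (K : GT E) (l : List (SSym E)) :
    Function.update K.st .n2 l = ({K with n2 := l} : GT E).st := by funext r; cases r <;> rfl
theorem upd_n3 (K : GT E) (l : List (SSym E)) :
    Function.update K.st .n3 l = ({K with n3 := l} : GT E).st := by funext r; cases r <;> rfl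
theorem upd_n4 (K : GT E) (l : List (SSym E)) :
    Function.update K.st .n4 l = ({K with n4 := l} : GT E).st := by funext r; cases r <;> rfl
theorem upd_n5 (K : GT E) (l : List (SSym E)) :
    Function.update K.st .n5 l = ({K with n5 := l} : GT E).st := by funext r; cases r <;> rfl
theorem upd_n6 (K : GT E) (l : List (SSym E)) :
    Function.update K.st .n6 l = ({K with n6 := l} : GT E).st := by funext r; cases r <;> rfl
theorem upd_n7 (K : GT E) (l : List (SSym E)) :
    Function.update K.st .n7 l = ({K with n7 := l} : GT E).st := by funext r; cases r <;> rfl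
theorem upd_n8 (K : GT E) (l : List (SSym E)) :
    Function.update K.st .n8 l = ({K with n8 := l} : GT E).st := by funext r; cases r <;> rfl
theorem upd_pe (K : GT E) (l : List (SSym E)) :
    Function.update K.st .pe l = ({K with pe := l} : GT E).st := by funext r; cases r <;> rfl
theorem upd_pl (K : GT E) (l : List (SSym E)) :
    Function.update K.st .pl l = ({K with pl := l} : GT E).st := by funext r; cases r <;> rfl
theorem upd_sv (K : GT E) (l : List (SSym E)) :
    Function.update K.st .sv l = ({K with sv := l} : GT E).st := by funext r; cases r <;> rfl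

/-- Programs on these stacks. -/
abbrev PT (E : Type) : Type := Prog Gr (SSym E)

theorem una_succ_append (k : ℕ) (l : List (SSym E)) :
    (una (k + 1) : List (SSym E)) ++ l = una k ++ mk :: l := by
  unfold una
  rw [List.replicate_succ', List.append_assoc]
  rfl

theorem una_zero_append (l : List (SSym E)) : (una 0 : List (SSym E)) ++ l = l := rfl

theorem una_append_una (m n : ℕ) (l : List (SSym E)) :
    (una m : List (SSym E)) ++ (una n ++ l) = una (m + n) ++ l := by
  unfold una
  rw [← List.append_assoc, List.replicate_append_replicate]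

theorem reverse_una (n : ℕ) : (una n : List (SSym E)).reverse = una n := by
  simp [una]

theorem drop_una (m n : ℕ) : (una n : List (SSym E)).drop m = una (n - m) := by
  simp [una]

theorem bits_append (l l' : List Bool) :
    (bits (l ++ l') : List (SSym E)) = bits l ++ bits l' := by simp [bits]

theorem bits_reverse (l : List Bool) :
    (bits l.reverse : List (SSym E)) = (bits l).reverse := by simp [bits]

theorem bits_cat (n : ℕ) (f : ℕ → List Bool) :
    (bits (cat n f) : List (SSym E)) = cat n fun i => bits (f i) := map_cat _ _ _

theorem bits_replicate (n : ℕ) (b : Bool) :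
    (bits (List.replicate n b) : List (SSym E)) = List.replicate n (sb b) := by
  simp [bits]

/-- The loop rule: a first round and the rest. -/
theorem loop_step {ι Γ : Type} {c : (ι → Option Γ) → Bool} {p : Prog ι Γ} {s s₁ s₂ : Store ι Γ}
    {t₁ t₂ t : ℕ} (hc : c (tops s) = true) (h₁ : Runs p s s₁ t₁)
    (h₂ : Runs (Prog.loop c p) s₁ s₂ t₂) (ht : t₁ + 2 + t₂ ≤ t) :
    Runs (Prog.loop c p) s s₂ t := (Runs.loopT hc h₁ h₂).mono (by omega)

/-! ### Powers of two -/

/-- Double `n3`, taking the same number of marks from `n1`: the first half. -/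
def dbl1 : PT E :=
  Prog.loop (nonempty .n3) (Prog.act fun _ r => match r with
    | .n3 => Op.pop
    | .n2 => Op.push mk
    | .n1 => Op.pop
    | _ => Op.keep)

theorem runs_dbl1 (k : ℕ) : ∀ (w : ℕ) (K : GT E),
    Runs dbl1 ({K with n3 := una k, n1 := una w} : GT E).st
      ({K with n3 := [], n2 := una k ++ K.n2, n1 := una (w - k)} : GT E).st (3 * k) := by
  induction k with
  | zero =>
    intro w K
    exact Runs.loopF rfl
  | succ k ih =>
    intro w K
    have h1 := ih (w - 1) {K with n2 := mk :: K.n2}
    refine (loop_step (t := 3 * (k + 1)) rfl ((Runs.act _ _).of_eq ?_) h1 (by omega)).of_eq ?_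
    · funext r
      cases w <;> cases r <;> rfl
    · rw [una_succ_append, show w - 1 - k = w - (k + 1) by omega]

/-- Double `n3`: the second half. -/
def dbl2 : PT E :=
  Prog.loop (nonempty .n2) ((Prog.act fun _ r => match r with
    | .n3 => Op.push mk
    | _ => Op.keep).seq (Prog.act fun _ r => match r with
    | .n3 => Op.push mk
    | .n2 => Op.pop
    | _ => Op.keep))

theorem runs_dbl2 (k : ℕ) : ∀ (K : GT E),
    Runs dbl2 ({K with n2 := una k} : GT E).st
      ({K with n2 := [], n3 := una (2 * k) ++ K.n3} : GT E).st (5 * k) := by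
  induction k with
  | zero =>
    intro K
    exact Runs.loopF rfl
  | succ k ih =>
    intro K
    have h1 := ih {K with n3 := mk :: mk :: K.n3}
    have h2 : Runs ((Prog.act fun _ r => match r with
        | .n3 => Op.push mk
        | _ => Op.keep).seq (Prog.act fun _ r => match r with
        | .n3 => Op.push mk
        | .n2 => Op.pop
        | _ => Op.keep)) ({K with n2 := una (k + 1)} : GT E).st
        ({K with n2 := una k, n3 := mk :: mk :: K.n3} : GT E).st 3 := by
      refine (((Runs.act _ _).of_eq (s'' := ({K with n2 := una (k + 1), n3 := mk :: K.n3} :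
        GT E).st) ?_).seq ((Runs.act _ _).of_eq ?_)).mono (by omega)
      · funext r
        cases r <;> rfl
      · funext r
        cases r <;> rfl
    refine (loop_step (t := 5 * (k + 1)) rfl h2 h1 (by omega)).of_eq ?_
    rw [show 2 * (k + 1) = 2 * k + 1 + 1 by ring, una_succ_append, una_succ_append]

/-- Double until `n1` is empty; the number of doublings is counted on `n4`. -/
def grow : PT E :=
  Prog.loop (nonempty .n1) (dbl1.seq (dbl2.seq (Prog.push .n4 mk)))

theorem runs_grow (w : ℕ) (k : ℕ) : ∀ (j : ℕ) (K : GT E), j + k = Nat.size w →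
    Runs grow ({K with n2 := [], n3 := una (2 ^ j), n4 := una j,
                       n1 := una (w + 1 - 2 ^ j)} : GT E).st
      ({K with n2 := [], n3 := una (2 ^ (j + k)), n4 := una (j + k), n1 := []} : GT E).st
      (8 * 2 ^ (j + k) + 5 * k - 8 * 2 ^ j) := by
  induction k with
  | zero =>
    intro j K hj
    have h1 : w + 1 - 2 ^ j = 0 := by
      have := Nat.lt_size_self w
      rw [← hj] at this
      simp only [add_zero] at this
      omega
    rw [h1]
    exact (Runs.loopF rfl).mono (Nat.zero_le _)
  | succ k ih =>
    intro j K hj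
    have hw : 2 ^ j ≤ w := by
      rw [← Nat.lt_size]
      omega
    have h0 := ih (j + 1) K (by omega)
    have hp : 2 ^ (j + 1) = 2 * 2 ^ j := by rw [pow_succ]; ring
    have hp2 : 2 ^ (j + 1) ≤ 2 ^ (j + 1 + k) := Nat.pow_le_pow_right (by norm_num) (by omega)
    have h1 := runs_dbl1 (2 ^ j) (w + 1 - 2 ^ j) {K with n2 := [], n3 := [], n4 := una j}
    have h2 := runs_dbl2 (2 ^ j) {K with n2 := [], n3 := [], n4 := una j,
                                         n1 := una (w + 1 - 2 ^ j - 2 ^ j)}
    have h3 := Runs.push Gr.n4 mk ({K with n3 := una (2 * 2 ^ j), n2 := [], n4 := una j,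
                                           n1 := una (w + 1 - 2 ^ j - 2 ^ j)} : GT E).st
    rw [upd_n4] at h3
    rw [show w + 1 - 2 ^ j - 2 ^ j = w + 1 - 2 ^ (j + 1) by omega] at h1 h2 h3
    rw [List.append_nil] at h1
    rw [List.append_nil, ← hp] at h2
    rw [← hp] at h3
    have h4 := h1.seq (h2.seq h3)
    have h5 : Runs (dbl1.seq (dbl2.seq (Prog.push .n4 mk)))
        ({K with n2 := [], n3 := una (2 ^ j), n4 := una j, n1 := una (w + 1 - 2 ^ j)} : GT E).st
        ({K with n2 := [], n3 := una (2 ^ (j + 1)), n4 := una (j + 1),
                 n1 := una (w + 1 - 2 ^ (j + 1))} : GT E).st (8 * 2 ^ j + 3) :=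
      h4.mono (t' := 8 * 2 ^ j + 3) (by omega)
    refine (loop_step (t := 8 * 2 ^ (j + (k + 1)) + 5 * (k + 1) - 8 * 2 ^ j) ?_ h5 h0
      ?_).of_eq ?_
    · rw [show w + 1 - 2 ^ j = w - 2 ^ j + 1 by omega]
      rfl
    · rw [show j + (k + 1) = j + 1 + k by ring]
      omega
    · rw [show j + (k + 1) = j + 1 + k by ring]

/-- The size of the number on `n1` and the difference to the power of two. -/
def sizeP : PT E := (Prog.push .n3 mk).seq (grow.seq (Prog.subtr .n3 .n5))

theorem runs_sizeP (w : ℕ) (K : GT E) :
    Runs sizeP ({K with n1 := una w, n2 := [], n3 := [], n4 := [], n5 := una w} : GT E).st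
      ({K with n1 := [], n2 := [], n3 := una (2 ^ Nat.size w - w), n4 := una (Nat.size w),
               n5 := []} : GT E).st (8 * 2 ^ Nat.size w + 5 * Nat.size w + 3 * w) := by
  have h1 := Runs.push Gr.n3 mk
    ({K with n1 := una w, n2 := [], n3 := [], n4 := [], n5 := una w} : GT E).st
  rw [upd_n3] at h1
  have h2 := runs_grow w (Nat.size w) 0 ({K with n5 := una w} : GT E) (by omega)
  rw [Nat.zero_add, pow_zero, Nat.add_sub_cancel] at h2
  have h3 := Runs.subtr (u := Gr.n3) (v := .n5) (by decide)
    ({K with n1 := [], n2 := [], n3 := una (2 ^ Nat.size w), n4 := una (Nat.size w),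
             n5 := una w} : GT E).st
  have hw : w < 2 ^ Nat.size w := Nat.lt_size_self w
  have e1 : ({K with n1 := [], n2 := [], n3 := una (2 ^ Nat.size w), n4 := una (Nat.size w),
                     n5 := una w} : GT E).st .n3 = una (2 ^ Nat.size w) := rfl
  have e2 : ({K with n1 := [], n2 := [], n3 := una (2 ^ Nat.size w), n4 := una (Nat.size w),
                     n5 := una w} : GT E).st .n5 = una w := rfl
  rw [e1, e2, length_una, length_una, drop_una, drop_una, Nat.sub_eq_zero_of_le hw.le, upd_n3,
    upd_n5, Nat.min_eq_right hw.le] at h3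
  exact (h1.seq (h2.seq h3)).mono (by omega)

end Vale.Agent.P338.GS.Top
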