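import Vale.Agent.P338.H921.GTopA

/-!
# P338, matrices of every shape: the parameters
-/

namespace Vale.Agent.P338.GS.Top

open Vale.Agent.P338

variable {E : Type}

/-! ### Reading the numbers -/

/-- The top of `x` is a one. -/
def isU : (Gr → Option (SSym E)) → Bool := fun tp => match tp .x with
  | some (Sum.inl (Base.bit true)) => true
  | _ => false

/-- Read the first number. -/
def rdA : PT E :=
  Prog.loop isU (Prog.act fun _ r => match r with
    | .x => Op.pop
    | .a => Op.push mk
    | .n1 => Op.push mk
    | .n5 => Op.push mk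
    | _ => Op.keep)

theorem runs_rdA (rest : List (SSym E)) (k : ℕ) : ∀ K : GT E,
    Runs rdA ({K with x := List.replicate k (sb true) ++ mk :: rest} : GT E).st
      ({K with x := mk :: rest, a := una k ++ K.a, n1 := una k ++ K.n1,
               n5 := una k ++ K.n5} : GT E).st (3 * k) := by
  induction k with
  | zero =>
    intro K
    exact Runs.loopF rfl
  | succ k ih =>
    intro K
    have h1 := ih {K with a := mk :: K.a, n1 := mk :: K.n1, n5 := mk :: K.n5}
    refine (loop_step (t := 3 * (k + 1)) rfl ((Runs.act _ _).of_eq ?_) h1 (by omega)).of_eq ?_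
    · funext r
      cases r <;> rfl
    · simp only [una_succ_append]

/-- Read the second number. -/
def rdW : PT E :=
  Prog.loop isU (Prog.act fun _ r => match r with
    | .x => Op.pop
    | .w => Op.push mk
    | _ => Op.keep)

theorem runs_rdW (rest : List (SSym E)) (k : ℕ) : ∀ K : GT E,
    Runs rdW ({K with x := List.replicate k (sb true) ++ mk :: rest} : GT E).st
      ({K with x := mk :: rest, w := una k ++ K.w} : GT E).st (3 * k) := by
  induction k with
  | zero =>
    intro K
    exact Runs.loopF rfl
  | succ k ih =>
    intro K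
    have h1 := ih {K with w := mk :: K.w}
    refine (loop_step (t := 3 * (k + 1)) rfl ((Runs.act _ _).of_eq ?_) h1 (by omega)).of_eq ?_
    · funext r
      cases r <;> rfl
    · simp only [una_succ_append]

/-! ### Division -/

theorem exists_blocks {α : Type} (q : ℕ) (c : ℕ) : ∀ d : List α, d.length = c * q →
    ∃ L : List (List α), L.flatten = d ∧ L.length = c ∧ ∀ l ∈ L, l.length = q := by
  induction c with
  | zero =>
    intro d hd
    refine ⟨[], ?_, rfl, by simp⟩
    rw [Nat.zero_mul] at hd
    rw [List.length_eq_zero_iff.mp hd]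
    rfl
  | succ c ih =>
    intro d hd
    have h1 : (c + 1) * q = c * q + q := by ring
    obtain ⟨L, h2, h3, h4⟩ := ih (d.drop q) (by rw [List.length_drop]; omega)
    refine ⟨d.take q :: L, ?_, by simp [h3], ?_⟩
    · rw [List.flatten_cons, h2, List.take_append_drop]
    · intro l hl
      rcases List.mem_cons.mp hl with rfl | hl
      · rw [List.length_take]
        omega
      · exact h4 l hl

/-- Count the blocks. -/
def divP : PT E :=
  Prog.loop (nonempty .x) ((Prog.movs .n3 .n2 .x .y).seq (Prog.act fun _ r => match r with
    | .c => Op.push mk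
    | .n1 => Op.push mk
    | .n5 => Op.push mk
    | _ => Op.keep))

theorem runs_divP (q : ℕ) (hq : 1 ≤ q) (L : List (List (SSym E)))
    (hL : ∀ l ∈ L, l.length = q) : ∀ (Y : List (SSym E)) (K : GT E),
    Runs divP ({K with x := L.flatten, y := Y, n2 := [], n3 := una q} : GT E).st
      ({K with x := [], y := L.flatten.reverse ++ Y, n2 := [], n3 := una q,
               c := una L.length ++ K.c, n1 := una L.length ++ K.n1,
               n5 := una L.length ++ K.n5} : GT E).st (L.length * (8 * q + 5)) := by
  induction L with
  | nil =>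
    intro Y K
    refine (Runs.loopF rfl).mono (by simp)
  | cons l L ih =>
    intro Y K
    have hl : l.length = q := hL l (by simp)
    have h1 := ih (fun l' hl' => hL l' (by simp [hl'])) (l.reverse ++ Y)
      {K with c := mk :: K.c, n1 := mk :: K.n1, n5 := mk :: K.n5}
    have h2 := Runs.movs (u := Gr.n3) (t := .n2) (x := .x) (y := .y) (by decide) (by decide)
      (by decide) (by decide) (by decide) (by decide) mk
      ({K with x := (l :: L).flatten, y := Y, n2 := [], n3 := una q} : GT E).st l L.flatten
      (by rw [hl]; rfl) rfl rfl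
    rw [upd_x, upd_y] at h2
    have h3 : Runs (Prog.act fun _ r => match r with
        | .c => Op.push mk
        | .n1 => Op.push mk
        | .n5 => Op.push mk
        | _ => Op.keep)
        ({K with x := L.flatten, y := l.reverse ++ Y, n2 := [], n3 := una q} : GT E).st
        ({K with x := L.flatten, y := l.reverse ++ Y, n2 := [], n3 := una q,
                 c := mk :: K.c, n1 := mk :: K.n1, n5 := mk :: K.n5} : GT E).st 1 := by
      refine (Runs.act _ _).of_eq ?_
      funext r
      cases r <;> rfl
    refine (loop_step (t := (l :: L).length * (8 * q + 5)) ?_ (h2.seq h3) h1 ?_).of_eq ?_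
    · rw [nonempty_tops]
      obtain ⟨b, l', rfl⟩ := List.exists_cons_of_length_pos (show 0 < l.length by omega)
      rfl
    · simp only [List.length_cons, hl]
      ring_nf
      omega
    · simp only [List.length_cons, una_succ_append, List.flatten_cons, List.reverse_append,
        List.append_assoc]

/-! ### The number of words -/

/-- One word: take marks from `n1`, and count the missing ones on `pw`. -/
def zIn : PT E :=
  Prog.loop (nonempty .l) (Prog.act fun tp r => match r with
    | .l => Op.pop
    | .n2 => Op.push mk
    | .n1 => Op.pop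
    | .pw => if (tp .n1).isSome then Op.keep else Op.push mk
    | _ => Op.keep)

theorem runs_zIn (k : ℕ) : ∀ (p : ℕ) (K : GT E),
    Runs zIn ({K with l := una k, n1 := una p} : GT E).st
      ({K with l := [], n2 := una k ++ K.n2, n1 := una (p - k),
               pw := una (k - p) ++ K.pw} : GT E).st (3 * k) := by
  induction k with
  | zero =>
    intro p K
    refine (Runs.loopF rfl).of_eq ?_
    simp only [Nat.zero_sub, una_zero_append, Nat.sub_zero]
    rfl
  | succ k ih =>
    intro p K
    rcases p with _ | p
    · have h1 := ih 0 {K with n2 := mk :: K.n2, pw := mk :: K.pw}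
      refine (loop_step (t := 3 * (k + 1)) rfl ((Runs.act _ _).of_eq ?_) h1
        (by omega)).of_eq ?_
      · funext r
        cases r <;> rfl
      · simp only [Nat.sub_zero, una_succ_append, Nat.zero_sub]
    · have h1 := ih p {K with n2 := mk :: K.n2}
      refine (loop_step (t := 3 * (k + 1)) rfl ((Runs.act _ _).of_eq ?_) h1
        (by omega)).of_eq ?_
      · funext r
        cases r <;> rfl
      · simp only [una_succ_append, Nat.add_sub_add_right]

/-- The number of words and the number of missing bits. -/
def zOut : PT E :=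
  Prog.loop (nonempty .n1) (zIn.seq ((Prog.rev .n2 .l).seq (Prog.push .z mk)))

theorem runs_zOut (ℓ : ℕ) (Z : ℕ) : ∀ (p : ℕ) (K : GT E), p ≤ Z * ℓ → Z * ℓ < p + ℓ →
    Runs zOut ({K with l := una ℓ, n1 := una p, n2 := []} : GT E).st
      ({K with l := una ℓ, n1 := [], n2 := [], z := una Z ++ K.z,
               pw := una (Z * ℓ - p) ++ K.pw} : GT E).st (Z * (6 * ℓ + 6)) := by
  induction Z with
  | zero =>
    intro p K h1 h2
    obtain rfl : p = 0 := by omega
    refine (Runs.loopF rfl).mono (by omega) |>.of_eq ?_
    simp only [Nat.zero_mul, Nat.sub_zero, una_zero_append]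
    rfl
  | succ Z ih =>
    intro p K h1 h2
    have e1 : (Z + 1) * ℓ = Z * ℓ + ℓ := by ring
    have h3 := ih (p - ℓ) {K with z := mk :: K.z, pw := una (ℓ - p) ++ K.pw} (by omega)
      (by
        rcases Z with _ | Z
        · omega
        · have : (Z + 1) * ℓ = Z * ℓ + ℓ := by ring
          omega)
    have h4 := runs_zIn ℓ p {K with n2 := []}
    have h5 := Runs.rev (i := Gr.n2) (j := .l) (by decide)
      ({K with l := [], n2 := una ℓ ++ [], n1 := una (p - ℓ),
               pw := una (ℓ - p) ++ K.pw} : GT E).st
    have f1 : ({K with l := [], n2 := una ℓ ++ [], n1 := una (p - ℓ),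
                       pw := una (ℓ - p) ++ K.pw} : GT E).st .n2 = una ℓ ++ [] := rfl
    have f2 : ({K with l := [], n2 := una ℓ ++ [], n1 := una (p - ℓ),
                       pw := una (ℓ - p) ++ K.pw} : GT E).st .l = [] := rfl
    rw [f1, f2, upd_n2, upd_l, List.append_nil, List.append_nil, reverse_una, length_una] at h5
    have h6 := Runs.push Gr.z mk
      ({K with l := una ℓ, n2 := [], n1 := una (p - ℓ), pw := una (ℓ - p) ++ K.pw} : GT E).st
    rw [upd_z] at h6
    rw [List.append_nil] at h4
    refine (loop_step (t := (Z + 1) * (6 * ℓ + 6)) ?_ (h4.seq (h5.seq h6)) h3 ?_).of_eq ?_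
    · rw [nonempty_tops]
      have hp : 1 ≤ p := by omega
      obtain ⟨p', rfl⟩ : ∃ p', p = p' + 1 := ⟨p - 1, by omega⟩
      rfl
    · ring_nf
      omega
    · simp only [una_succ_append, una_append_una]
      rw [show Z * ℓ - (p - ℓ) + (ℓ - p) = (Z + 1) * ℓ - p by omega]

/-! ### The size of the long multiplications -/

/-- The size of the long multiplications. -/
def mP : PT E :=
  (Prog.copyOnto .w .n1 .n2).seq ((Prog.copyOnto .l .n3 .n2).seq
    ((Prog.maxOnto .n1 .n3 .n4 mk).seq ((Prog.mulOnto .a .n1 .n4 .n2 1 .n3 mk).seq
      ((Prog.clear .n4).seq ((Prog.mulOnto .c .n1 .n3 .n2 4608 .m mk).seq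
        (Prog.clear .n3))))))

theorem runs_mP (a c w ℓ : ℕ) (K : GT E) :
    Runs mP ({K with a := una a, c := una c, w := una w, l := una ℓ, m := [], n1 := [],
                     n2 := [], n3 := [], n4 := []} : GT E).st
      ({K with a := una a, c := una c, w := una w, l := una ℓ,
               m := una (c * (a * max w ℓ * 4608)), n1 := [], n2 := [], n3 := [],
               n4 := []} : GT E).st
      (6 * w + 6 * ℓ + 6 * max w ℓ + a * (max w ℓ * 10 + 8) +
        c * (a * max w ℓ * 9224 + 8) + 3 * (a * max w ℓ) + 10) := by
  have h1 := Runs.copyOnto (a := Gr.w) (b := .n1) (t := .n2) (by decide) (by decide) (by decide)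
    ({K with a := una a, c := una c, w := una w, l := una ℓ, m := [], n1 := [], n2 := [],
             n3 := [], n4 := []} : GT E).st rfl
  have h2 := Runs.copyOnto (a := Gr.l) (b := .n3) (t := .n2) (by decide) (by decide) (by decide)
    ({K with a := una a, c := una c, w := una w, l := una ℓ, m := [], n1 := una w, n2 := [],
             n3 := [], n4 := []} : GT E).st rfl
  have h3 := Runs.maxOnto (u := Gr.n1) (v := .n3) (w := .n4) (by decide) (by decide)
    (by decide) mk
    ({K with a := una a, c := una c, w := una w, l := una ℓ, m := [], n1 := una w, n2 := [],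
             n3 := una ℓ, n4 := []} : GT E).st
  have h4 := Runs.mulOnto (u := Gr.a) (t := .n1) (v := .n4) (t' := .n2) (i := .n3) (by decide)
    (by decide) (by decide) (by decide) (by decide) (by decide) (by decide) (by decide)
    (by decide) (by decide) 1 mk mk mk
    ({K with a := una a, c := una c, w := una w, l := una ℓ, m := [], n1 := [], n2 := [],
             n3 := [], n4 := una (max w ℓ)} : GT E).st a (max w ℓ) rfl rfl rfl rfl
  have h5 := Runs.clear Gr.n4
    ({K with a := una a, c := una c, w := una w, l := una ℓ, m := [], n1 := [], n2 := [],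
             n3 := una (a * (max w ℓ * 1)), n4 := una (max w ℓ)} : GT E).st
  have h6 := Runs.mulOnto (u := Gr.c) (t := .n1) (v := .n3) (t' := .n2) (i := .m) (by decide)
    (by decide) (by decide) (by decide) (by decide) (by decide) (by decide) (by decide)
    (by decide) (by decide) 4608 mk mk mk
    ({K with a := una a, c := una c, w := una w, l := una ℓ, m := [], n1 := [], n2 := [],
             n3 := una (a * (max w ℓ * 1)), n4 := []} : GT E).st c (a * (max w ℓ * 1))
    rfl rfl rfl rfl
  have h7 := Runs.clear Gr.n3
    ({K with a := una a, c := una c, w := una w, l := una ℓ,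
             m := una (c * (a * (max w ℓ * 1) * 4608)), n1 := [], n2 := [],
             n3 := una (a * (max w ℓ * 1)), n4 := []} : GT E).st
  have e1 : ∀ l' : List (SSym E), (una w : List (SSym E)) ++ [] = una w := fun _ =>
    List.append_nil _
  simp only [GT.st, List.append_nil, length_una] at h1 h2 h3 h4 h5 h6 h7
  have g1 := h1.of_eq (upd_n1 _ _)
  have g2 := h2.of_eq (upd_n3 _ _)
  have g3 : Runs _ _ ({K with a := una a, c := una c, w := una w, l := una ℓ, m := [], n1 := [],
                              n2 := [], n3 := [], n4 := una (max w ℓ)} : GT E).st _ :=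
    h3.of_eq (by rw [upd_n1, upd_n3, upd_n4]; rfl)
  have g4 := h4.of_eq (upd_n3 _ _)
  have g5 := h5.of_eq (upd_n4 _ _)
  have g6 := h6.of_eq (upd_m _ _)
  have g7 := h7.of_eq (upd_n3 _ _)
  have e2 : a * (max w ℓ * 1) = a * max w ℓ := by rw [Nat.mul_one]
  rw [e2] at g4 g5 g6 g7
  refine (g1.seq (g2.seq (g3.seq (g4.seq (g5.seq (g6.seq g7)))))).mono ?_
  have e3 : c * (a * max w ℓ * (2 * 4608 + 8) + 8) = c * (a * max w ℓ * 9224 + 8) := by norm_num
  have e4 : a * (max w ℓ * (2 * 1 + 8) + 8) = a * (max w ℓ * 10 + 8) := by norm_num
  rw [e3, e4]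
  omega

end Vale.Agent.P338.GS.Top
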