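import Vale.Agent.P338.H921.GTopA

/-!
# P338, matrices of every shape: padding with zeros, and removing the padding
-/

namespace Vale.Agent.P338.GS.Top

open Vale.Agent.P338

variable {E : Type}

/-! ### Padding -/

/-- Take a word of `w` bits and add `pw` zeros. -/
def wordP : PT E := (Prog.movs .w .n1 .x .y).seq (Prog.fill .pw (sb false) .y .n1)

theorem runs_wordP (b : List Bool) (w q : ℕ) (hb : b.length = w) (r Y : List (SSym E))
    (K : GT E) :
    Runs wordP ({K with w := una w, pw := una q, n1 := [], x := bits b ++ r, y := Y} : GT E).st
      ({K with w := una w, pw := una q, n1 := [], x := r,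
               y := (bits (b ++ List.replicate q false)).reverse ++ Y} : GT E).st
      (8 * w + 8 * q + 3) := by
  have h1 := Runs.movs (u := Gr.w) (t := .n1) (x := .x) (y := .y) (by decide) (by decide)
    (by decide) (by decide) (by decide) (by decide) mk
    ({K with w := una w, pw := una q, n1 := [], x := bits b ++ r, y := Y} : GT E).st
    (bits b) r (by rw [length_bits, hb]; rfl) rfl rfl
  rw [upd_x, upd_y, length_bits, hb] at h1
  have h2 := Runs.fill (u := Gr.pw) (b := .y) (t := .n1) (by decide) (by decide) (by decide)
    (sb false) mk
    ({K with w := una w, pw := una q, n1 := [], x := r, y := (bits b).reverse ++ Y} : GT E).st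
    q rfl rfl
  rw [upd_y] at h2
  refine ((h1.seq h2).mono (by omega)).of_eq ?_
  have e : (bits (b ++ List.replicate q false) : List (SSym E)).reverse ++ Y =
      List.replicate q (sb false) ++ ((bits b).reverse ++ Y) := by
    rw [bits_append, bits_replicate, List.reverse_append, List.reverse_replicate,
      List.append_assoc]
  rw [e]
  rfl

/-- A word of zeros. -/
def zeroP : PT E := (Prog.fill .w (sb false) .y .n1).seq (Prog.fill .pw (sb false) .y .n1)

theorem runs_zeroP (w q : ℕ) (Y : List (SSym E)) (K : GT E) :
    Runs zeroP ({K with w := una w, pw := una q, n1 := [], y := Y} : GT E).st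
      ({K with w := una w, pw := una q, n1 := [],
               y := (bits (List.replicate (w + q) false)).reverse ++ Y} : GT E).st
      (8 * w + 8 * q + 3) := by
  have h1 := Runs.fill (u := Gr.w) (b := .y) (t := .n1) (by decide) (by decide) (by decide)
    (sb false) mk
    ({K with w := una w, pw := una q, n1 := [], y := Y} : GT E).st w rfl rfl
  rw [upd_y] at h1
  have h2 := Runs.fill (u := Gr.pw) (b := .y) (t := .n1) (by decide) (by decide) (by decide)
    (sb false) mk
    ({K with w := una w, pw := una q, n1 := [],
             y := List.replicate w (sb false) ++ Y} : GT E).st q rfl rfl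
  rw [upd_y] at h2
  refine ((h1.seq h2).mono (by omega)).of_eq ?_
  have e : (bits (List.replicate (w + q) false) : List (SSym E)).reverse ++ Y =
      List.replicate q (sb false) ++ (List.replicate w (sb false) ++ Y) := by
    rw [bits_replicate, List.reverse_replicate, ← List.append_assoc,
      List.replicate_append_replicate, Nat.add_comm]
  rw [e]
  rfl

/-- The zeros at the end of a row. -/
theorem runs_zeros (d w q : ℕ) (Y : List (SSym E)) (K : GT E) :
    Runs (Prog.forr .pc .n2 zeroP)
      ({K with pc := una d, w := una w, pw := una q, n1 := [], n2 := [], y := Y} : GT E).st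
      ({K with pc := una d, w := una w, pw := una q, n1 := [], n2 := [],
               y := (bits (cat d fun _ => List.replicate (w + q) false)).reverse ++ Y} :
        GT E).st (d * (8 * w + 8 * q + 10) + 1) := by
  have h := runs_forr_cat (u := Gr.pc) (t := .n2) (x := .x) (y := .y) (by decide) (by decide)
    (by decide) (by decide) (by decide) (body := zeroP) mk (8 * w + 8 * q + 3)
    ({K with pc := una d, w := una w, pw := una q, n1 := [], n2 := [], y := Y} : GT E).st d
    (fun _ => []) (fun _ => bits (List.replicate (w + q) false)) K.x rfl rfl
    (by rw [cat_eq_nil _ fun _ _ => rfl]; rfl)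
    (by
      intro k hk l₁ l₂ r Y'
      simp only [upd_x, upd_y, upd_pc, upd_n2]
      exact runs_zeroP w q Y' {K with pc := l₁, n2 := l₂, x := r})
  rw [upd_x, upd_y, ← bits_cat] at h
  exact h.mono (by ring_nf; omega)

/-- The zeros at the beginning of a row. -/
theorem runs_zeros' (d w q : ℕ) (Y : List (SSym E)) (K : GT E) :
    Runs (Prog.forr .c .n2 zeroP)
      ({K with c := una d, w := una w, pw := una q, n1 := [], n2 := [], y := Y} : GT E).st
      ({K with c := una d, w := una w, pw := una q, n1 := [], n2 := [],
               y := (bits (cat d fun _ => List.replicate (w + q) false)).reverse ++ Y} :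
        GT E).st (d * (8 * w + 8 * q + 10) + 1) := by
  have h := runs_forr_cat (u := Gr.c) (t := .n2) (x := .x) (y := .y) (by decide) (by decide)
    (by decide) (by decide) (by decide) (body := zeroP) mk (8 * w + 8 * q + 3)
    ({K with c := una d, w := una w, pw := una q, n1 := [], n2 := [], y := Y} : GT E).st d
    (fun _ => []) (fun _ => bits (List.replicate (w + q) false)) K.x rfl rfl
    (by rw [cat_eq_nil _ fun _ _ => rfl]; rfl)
    (by
      intro k hk l₁ l₂ r Y'
      simp only [upd_x, upd_y, upd_c, upd_n2]
      exact runs_zeroP w q Y' {K with c := l₁, n2 := l₂, x := r})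
  rw [upd_x, upd_y, ← bits_cat] at h
  exact h.mono (by ring_nf; omega)

/-- A padded row. -/
def rowBits (c d w q : ℕ) (g : ℕ → List Bool) : List Bool :=
  (cat c fun j => g j ++ List.replicate q false) ++
    cat d fun _ => List.replicate (w + q) false

/-- A row of zeros. -/
def zrowBits (c d w q : ℕ) : List Bool :=
  (cat c fun _ => List.replicate (w + q) false) ++
    cat d fun _ => List.replicate (w + q) false

/-- Pad a row. -/
def rowP : PT E := (Prog.forr .c .n2 wordP).seq (Prog.forr .pc .n2 zeroP)

theorem runs_rowP (c d w q : ℕ) (g : ℕ → List Bool) (hg : ∀ j, (g j).length = w)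
    (r Y : List (SSym E)) (K : GT E) :
    Runs rowP ({K with c := una c, pc := una d, w := una w, pw := una q, n1 := [], n2 := [],
                       x := bits (cat c g) ++ r, y := Y} : GT E).st
      ({K with c := una c, pc := una d, w := una w, pw := una q, n1 := [], n2 := [], x := r,
               y := (bits (rowBits c d w q g)).reverse ++ Y} : GT E).st
      ((c + d) * (8 * w + 8 * q + 10) + 3) := by
  have h1 := runs_forr_cat (u := Gr.c) (t := .n2) (x := .x) (y := .y) (by decide) (by decide)
    (by decide) (by decide) (by decide) (body := wordP) mk (8 * w + 8 * q + 3)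
    ({K with c := una c, pc := una d, w := una w, pw := una q, n1 := [], n2 := [],
             x := bits (cat c g) ++ r, y := Y} : GT E).st c
    (fun j => bits (g j)) (fun j => bits (g j ++ List.replicate q false)) r rfl rfl
    (by rw [← bits_cat]; rfl)
    (by
      intro k hk l₁ l₂ r' Y'
      simp only [upd_x, upd_y, upd_c, upd_n2]
      exact runs_wordP (g k) w q (hg k) r' Y' {K with c := l₁, pc := una d, n2 := l₂})
  rw [upd_x, upd_y, ← bits_cat] at h1
  have h2 := runs_zeros d w q
    ((bits (cat c fun j => g j ++ List.replicate q false)).reverse ++ Y)
    ({K with c := una c, x := r} : GT E)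
  refine ((h1.seq h2).mono (by ring_nf; omega)).of_eq ?_
  rw [rowBits, bits_append, List.reverse_append, List.append_assoc]

/-- A row of zeros. -/
def zrowP : PT E := (Prog.forr .c .n2 zeroP).seq (Prog.forr .pc .n2 zeroP)

theorem runs_zrowP (c d w q : ℕ) (Y : List (SSym E)) (K : GT E) :
    Runs zrowP ({K with c := una c, pc := una d, w := una w, pw := una q, n1 := [], n2 := [],
                        y := Y} : GT E).st
      ({K with c := una c, pc := una d, w := una w, pw := una q, n1 := [], n2 := [],
               y := (bits (zrowBits c d w q)).reverse ++ Y} : GT E).st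
      ((c + d) * (8 * w + 8 * q + 10) + 3) := by
  have h1 := runs_zeros' c w q Y ({K with pc := una d} : GT E)
  have h2 := runs_zeros d w q
    ((bits (cat c fun _ => List.replicate (w + q) false)).reverse ++ Y)
    ({K with c := una c} : GT E)
  refine ((h1.seq h2).mono (by ring_nf; omega)).of_eq ?_
  rw [zrowBits, bits_append, List.reverse_append, List.append_assoc]

/-- Pad the matrix. -/
def padP : PT E :=
  (Prog.forr .a .n3 rowP).seq ((Prog.forr .pa .n3 zrowP).seq (Prog.rev .y .x))

/-- The padded matrix. -/
def padBits (a e c d w q : ℕ) (g : ℕ → ℕ → List Bool) : List Bool :=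
  (cat a fun i => rowBits c d w q (g i)) ++ cat e fun _ => zrowBits c d w q

theorem length_rowBits {c d w q : ℕ} {g : ℕ → List Bool} (hg : ∀ j, (g j).length = w) :
    (rowBits c d w q g).length = (c + d) * (w + q) := by
  rw [rowBits, List.length_append, length_cat_of (L := w + q) (fun j _ => by
    rw [List.length_append, hg, List.length_replicate]), length_cat_of (L := w + q)
    (fun j _ => by rw [List.length_replicate])]
  ring

theorem length_zrowBits {c d w q : ℕ} :
    (zrowBits c d w q).length = (c + d) * (w + q) := by
  rw [zrowBits, List.length_append, length_cat_of (L := w + q) (fun j _ => by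
    rw [List.length_replicate]), length_cat_of (L := w + q)
    (fun j _ => by rw [List.length_replicate])]
  ring

theorem length_padBits {a e c d w q : ℕ} {g : ℕ → ℕ → List Bool}
    (hg : ∀ i j, (g i j).length = w) :
    (padBits a e c d w q g).length = (a + e) * ((c + d) * (w + q)) := by
  rw [padBits, List.length_append, length_cat_of (L := (c + d) * (w + q)) (fun j _ =>
    length_rowBits (hg j)), length_cat_of (L := (c + d) * (w + q))
    (fun j _ => length_zrowBits)]
  ring

theorem runs_padP (a e c d w q : ℕ) (g : ℕ → ℕ → List Bool) (hg : ∀ i j, (g i j).length = w)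
    (K : GT E) :
    Runs padP ({K with a := una a, pa := una e, c := una c, pc := una d, w := una w,
                       pw := una q, n1 := [], n2 := [], n3 := [],
                       x := bits (cat a fun i => cat c fun j => g i j), y := []} : GT E).st
      ({K with a := una a, pa := una e, c := una c, pc := una d, w := una w,
               pw := una q, n1 := [], n2 := [], n3 := [],
               x := bits (padBits a e c d w q g), y := []} : GT E).st
      ((a + e) * ((c + d) * (8 * w + 8 * q + 10) + 10) +
        3 * ((a + e) * ((c + d) * (w + q))) + 4) := by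
  have h1 := runs_forr_cat (u := Gr.a) (t := .n3) (x := .x) (y := .y) (by decide) (by decide)
    (by decide) (by decide) (by decide) (body := rowP) mk
    ((c + d) * (8 * w + 8 * q + 10) + 3)
    ({K with a := una a, pa := una e, c := una c, pc := una d, w := una w, pw := una q,
             n1 := [], n2 := [], n3 := [], x := bits (cat a fun i => cat c fun j => g i j),
             y := []} : GT E).st a
    (fun i => bits (cat c fun j => g i j)) (fun i => bits (rowBits c d w q (g i))) [] rfl rfl
    (by rw [← bits_cat, List.append_nil]; rfl)
    (by
      intro k hk l₁ l₂ r' Y'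
      simp only [upd_x, upd_y, upd_a, upd_n3]
      exact runs_rowP c d w q (g k) (hg k) r' Y' {K with a := l₁, pa := una e, n3 := l₂})
  rw [upd_x, upd_y, ← bits_cat] at h1
  have h2 := runs_forr_cat (u := Gr.pa) (t := .n3) (x := .x) (y := .y) (by decide) (by decide)
    (by decide) (by decide) (by decide) (body := zrowP) mk
    ((c + d) * (8 * w + 8 * q + 10) + 3)
    ({K with a := una a, pa := una e, c := una c, pc := una d, w := una w, pw := una q,
             n1 := [], n2 := [], n3 := [], x := [],
             y := (bits (cat a fun i => rowBits c d w q (g i))).reverse ++ []} : GT E).st e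
    (fun _ => []) (fun _ => bits (zrowBits c d w q)) [] rfl rfl
    (by rw [cat_eq_nil _ fun _ _ => rfl]; rfl)
    (by
      intro k hk l₁ l₂ r' Y'
      simp only [upd_x, upd_y, upd_pa, upd_n3]
      exact runs_zrowP c d w q Y' {K with a := una a, pa := l₁, n3 := l₂, x := r'})
  rw [upd_x, upd_y, ← bits_cat] at h2
  have h3 := Runs.rev (i := Gr.y) (j := .x) (by decide)
    ({K with a := una a, pa := una e, c := una c, pc := una d, w := una w, pw := una q,
             n1 := [], n2 := [], n3 := [], x := [],
             y := (bits (padBits a e c d w q g)).reverse} : GT E).st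
  simp only [GT.st, List.reverse_reverse, List.append_nil, List.length_reverse, length_bits,
    length_padBits hg] at h3
  have h4 : Runs _ _ ({K with a := una a, pa := una e, c := una c, pc := una d, w := una w,
                              pw := una q, n1 := [], n2 := [], n3 := [],
                              x := bits (padBits a e c d w q g), y := []} : GT E).st _ :=
    h3.of_eq (by rw [upd_y, upd_x])
  have e1 : (bits (cat e fun _ => zrowBits c d w q) : List (SSym E)).reverse ++
      ((bits (cat a fun i => rowBits c d w q (g i))).reverse ++ []) =
      (bits (padBits a e c d w q g)).reverse := by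
    rw [List.append_nil, padBits, bits_append, List.reverse_append]
  have h5 := h2.of_eq (s'' := ({K with a := una a, pa := una e, c := una c, pc := una d,
                                       w := una w, pw := una q, n1 := [], n2 := [], n3 := [],
                                       x := [],
                                       y := (bits (padBits a e c d w q g)).reverse} :
    GT E).st) (by rw [← e1]; rfl)
  refine (h1.seq (h5.seq h4)).mono ?_
  ring_nf
  omega

/-! ### Removing the padding -/

/-- Take a word of `w` bits and remove `pw` bits. -/
def wordQ : PT E := (Prog.movs .w .n1 .x .y).seq (Prog.drops .pw .n1 .x)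

theorem runs_wordQ (b b' : List (SSym E)) (w q : ℕ) (hb : b.length = w) (hb' : b'.length = q)
    (r Y : List (SSym E)) (K : GT E) :
    Runs wordQ ({K with w := una w, pw := una q, n1 := [], x := b ++ (b' ++ r),
                        y := Y} : GT E).st
      ({K with w := una w, pw := una q, n1 := [], x := r, y := b.reverse ++ Y} : GT E).st
      (8 * w + 8 * q + 3) := by
  have h1 := Runs.movs (u := Gr.w) (t := .n1) (x := .x) (y := .y) (by decide) (by decide)
    (by decide) (by decide) (by decide) (by decide) mk
    ({K with w := una w, pw := una q, n1 := [], x := b ++ (b' ++ r), y := Y} : GT E).st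
    b (b' ++ r) (by rw [hb]; rfl) rfl rfl
  rw [upd_x, upd_y, hb] at h1
  have h2 := Runs.drops (u := Gr.pw) (t := .n1) (x := .x) (by decide) (by decide) (by decide)
    mk ({K with w := una w, pw := una q, n1 := [], x := b' ++ r,
                y := b.reverse ++ Y} : GT E).st b' r (by rw [hb']; rfl) rfl rfl
  rw [upd_x, hb'] at h2
  exact (h1.seq h2).mono (by omega)

/-- Remove a word. -/
def dropQ : PT E := (Prog.drops .w .n1 .x).seq (Prog.drops .pw .n1 .x)

theorem runs_dropQ (b b' : List (SSym E)) (w q : ℕ) (hb : b.length = w) (hb' : b'.length = q)
    (r : List (SSym E)) (K : GT E) :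
    Runs dropQ ({K with w := una w, pw := una q, n1 := [], x := b ++ (b' ++ r)} : GT E).st
      ({K with w := una w, pw := una q, n1 := [], x := r} : GT E).st
      (8 * w + 8 * q + 3) := by
  have h1 := Runs.drops (u := Gr.w) (t := .n1) (x := .x) (by decide) (by decide) (by decide)
    mk ({K with w := una w, pw := una q, n1 := [], x := b ++ (b' ++ r)} : GT E).st
    b (b' ++ r) (by rw [hb]; rfl) rfl rfl
  rw [upd_x, hb] at h1
  have h2 := Runs.drops (u := Gr.pw) (t := .n1) (x := .x) (by decide) (by decide) (by decide)
    mk ({K with w := una w, pw := una q, n1 := [], x := b' ++ r} : GT E).st b' r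
    (by rw [hb']; rfl) rfl rfl
  rw [upd_x, hb'] at h2
  exact (h1.seq h2).mono (by omega)

/-- Take the first `a` words of a row and remove the others. -/
def rowQ : PT E := (Prog.forr .a .n3 wordQ).seq (Prog.forr .pa .n3 dropQ)

theorem runs_rowQ (a e w q : ℕ) (g g' : ℕ → List Bool) (hg : ∀ i, (g i).length = w)
    (hg' : ∀ i, (g' i).length = q) (r Y : List (SSym E)) (K : GT E) :
    Runs rowQ ({K with a := una a, pa := una e, w := una w, pw := una q, n1 := [], n3 := [],
                       x := bits (cat (a + e) fun i => g i ++ g' i) ++ r, y := Y} : GT E).st
      ({K with a := una a, pa := una e, w := una w, pw := una q, n1 := [], n3 := [], x := r,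
               y := (bits (cat a g)).reverse ++ Y} : GT E).st
      ((a + e) * (8 * w + 8 * q + 10) + 3) := by
  have h1 := runs_forr_cat (u := Gr.a) (t := .n3) (x := .x) (y := .y) (by decide) (by decide)
    (by decide) (by decide) (by decide) (body := wordQ) mk (8 * w + 8 * q + 3)
    ({K with a := una a, pa := una e, w := una w, pw := una q, n1 := [], n3 := [],
             x := bits (cat (a + e) fun i => g i ++ g' i) ++ r, y := Y} : GT E).st a
    (fun i => bits (g i ++ g' i)) (fun i => bits (g i))
    (bits (cat e fun i => g (a + i) ++ g' (a + i)) ++ r) rfl rfl
    (by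
      rw [← bits_cat, ← List.append_assoc, ← bits_append, ← cat_add a e fun i => g i ++ g' i]
      rfl)
    (by
      intro k hk l₁ l₂ r' Y'
      simp only [upd_x, upd_y, upd_a, upd_n3, bits_append, List.append_assoc]
      exact runs_wordQ (bits (g k)) (bits (g' k)) w q (by rw [length_bits, hg])
        (by rw [length_bits, hg']) r' Y' {K with a := l₁, pa := una e, n3 := l₂})
  rw [upd_x, upd_y, ← bits_cat] at h1
  have h2 := runs_forr_cat (u := Gr.pa) (t := .n3) (x := .x) (y := .y) (by decide) (by decide)
    (by decide) (by decide) (by decide) (body := dropQ) mk (8 * w + 8 * q + 3)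
    ({K with a := una a, pa := una e, w := una w, pw := una q, n1 := [], n3 := [],
             x := bits (cat e fun i => g (a + i) ++ g' (a + i)) ++ r,
             y := (bits (cat a g)).reverse ++ Y} : GT E).st e
    (fun i => bits (g (a + i) ++ g' (a + i))) (fun _ => []) r rfl rfl
    (by rw [← bits_cat]; rfl)
    (by
      intro k hk l₁ l₂ r' Y'
      simp only [upd_x, upd_y, upd_pa, upd_n3, bits_append, List.append_assoc]
      exact runs_dropQ (bits (g (a + k))) (bits (g' (a + k))) w q (by rw [length_bits, hg])
        (by rw [length_bits, hg']) r' {K with a := una a, pa := l₁, n3 := l₂, y := Y'})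
  rw [upd_x, upd_y, cat_eq_nil _ fun _ _ => rfl] at h2
  exact (h1.seq h2).mono (by ring_nf; omega)

/-- Remove the padding. -/
def unpP : PT E := (Prog.forr .c .n2 rowQ).seq ((Prog.clear .x).seq (Prog.rev .y .x))

theorem runs_unpP (a e c d w q : ℕ) (g g' : ℕ → ℕ → List Bool)
    (hg : ∀ i j, (g i j).length = w) (hg' : ∀ i j, (g' i j).length = q) (K : GT E) :
    Runs unpP ({K with a := una a, pa := una e, c := una c, w := una w,
                       pw := una q, n1 := [], n2 := [], n3 := [],
                       x := bits (cat (c + d) fun j => cat (a + e) fun i => g j i ++ g' j i),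
                       y := []} : GT E).st
      ({K with a := una a, pa := una e, c := una c, w := una w,
               pw := una q, n1 := [], n2 := [], n3 := [],
               x := bits (cat c fun j => cat a fun i => g j i), y := []} : GT E).st
      (c * ((a + e) * (8 * w + 8 * q + 10) + 10) + 3 * (d * ((a + e) * (w + q))) +
        3 * (c * (a * w)) + 3) := by
  have h1 := runs_forr_cat (u := Gr.c) (t := .n2) (x := .x) (y := .y) (by decide) (by decide)
    (by decide) (by decide) (by decide) (body := rowQ) mk
    ((a + e) * (8 * w + 8 * q + 10) + 3)
    ({K with a := una a, pa := una e, c := una c, w := una w, pw := una q, n1 := [],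
             n2 := [], n3 := [],
             x := bits (cat (c + d) fun j => cat (a + e) fun i => g j i ++ g' j i),
             y := []} : GT E).st c
    (fun j => bits (cat (a + e) fun i => g j i ++ g' j i)) (fun j => bits (cat a (g j)))
    (bits (cat d fun j => cat (a + e) fun i => g (c + j) i ++ g' (c + j) i)) rfl rfl
    (by
      rw [← bits_cat, ← bits_append,
        ← cat_add c d fun j => cat (a + e) fun i => g j i ++ g' j i]
      rfl)
    (by
      intro k hk l₁ l₂ r' Y'
      simp only [upd_x, upd_y, upd_c, upd_n2]
      exact runs_rowQ a e w q (g k) (g' k) (hg k) (hg' k) r' Y' {K with c := l₁, n2 := l₂})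
  rw [upd_x, upd_y, ← bits_cat] at h1
  have hlen : (bits (cat d fun j => cat (a + e) fun i => g (c + j) i ++ g' (c + j) i) :
      List (SSym E)).length = d * ((a + e) * (w + q)) := by
    rw [length_bits, length_cat_of (L := (a + e) * (w + q))]
    intro j _
    rw [length_cat_of (L := w + q)]
    intro i _
    rw [List.length_append, hg, hg']
  have hlen2 : (cat c fun j => cat a (g j)).length = c * (a * w) := by
    rw [length_cat_of (L := a * w)]
    intro j _
    rw [length_cat_of (L := w)]
    intro i _
    rw [hg]
  have h2 := Runs.clear Gr.x
    ({K with a := una a, pa := una e, c := una c, w := una w, pw := una q, n1 := [],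
             n2 := [], n3 := [],
             x := bits (cat d fun j => cat (a + e) fun i => g (c + j) i ++ g' (c + j) i),
             y := (bits (cat c fun j => cat a (g j))).reverse} : GT E).st
  simp only [GT.st, hlen] at h2
  have h3 := Runs.rev (i := Gr.y) (j := .x) (by decide)
    ({K with a := una a, pa := una e, c := una c, w := una w, pw := una q, n1 := [],
             n2 := [], n3 := [], x := [],
             y := (bits (cat c fun j => cat a (g j))).reverse} : GT E).st
  simp only [GT.st, List.reverse_reverse, List.append_nil, List.length_reverse, length_bits,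
    hlen2] at h3
  have g2 := h2.of_eq (upd_x _ _)
  have g3 : Runs _ _ ({K with a := una a, pa := una e, c := una c, w := una w,
                              pw := una q, n1 := [], n2 := [], n3 := [],
                              x := bits (cat c fun j => cat a fun i => g j i),
                              y := []} : GT E).st _ :=
    h3.of_eq (by rw [upd_y, upd_x])
  have g1 := h1.of_eq (s'' := ({K with a := una a, pa := una e, c := una c, w := una w,
                                       pw := una q, n1 := [], n2 := [], n3 := [],
                                       x := bits (cat d fun j => cat (a + e) fun i =>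
                                         g (c + j) i ++ g' (c + j) i),
                                       y := (bits (cat c fun j => cat a (g j))).reverse} :
    GT E).st) (by
      have : ∀ l : List (SSym E), l ++ [] = l := List.append_nil
      show ({K with a := una a, pa := una e, c := una c, w := una w,
                    pw := una q, n1 := [], n2 := [], n3 := [],
                    x := bits (cat d fun j => cat (a + e) fun i => g (c + j) i ++ g' (c + j) i),
                    y := (bits (cat c fun j => cat a (g j))).reverse ++ []} : GT E).st = _
      rw [this])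
  refine (g1.seq (g2.seq g3)).mono ?_
  ring_nf
  omega

end Vale.Agent.P338.GS.Top
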