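import Vale.Agent.P338.H921.GTopB
import Vale.Agent.P338.H921.GTopC

/-!
# P338, matrices of every shape: the preparation
-/

namespace Vale.Agent.P338.GS.Top

open Vale.Agent.P338

variable {E : Type}

/-- The empty stacks. -/
def G0 : GT E :=
  ⟨[], [], [], [], [], [], [], [], [], [], [], [], [], [], [], [], [], [], [], [], [], [], [],
    [], [], [], []⟩

/-! ### Moves -/

theorem rev_inp_x (K : GT E) :
    Runs (Prog.rev .inp .x) K.st ({K with inp := [], x := K.inp.reverse ++ K.x} : GT E).st
      (3 * K.inp.length) :=
  (Runs.rev (i := Gr.inp) (j := .x) (by decide) K.st).of_eq (by rw [upd_inp, upd_x]; rfl)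

theorem rev_y_x (K : GT E) :
    Runs (Prog.rev .y .x) K.st ({K with y := [], x := K.y.reverse ++ K.x} : GT E).st
      (3 * K.y.length) :=
  (Runs.rev (i := Gr.y) (j := .x) (by decide) K.st).of_eq (by rw [upd_y, upd_x]; rfl)

theorem rev_n3_pa (K : GT E) :
    Runs (Prog.rev .n3 .pa) K.st ({K with n3 := [], pa := K.n3.reverse ++ K.pa} : GT E).st
      (3 * K.n3.length) :=
  (Runs.rev (i := Gr.n3) (j := .pa) (by decide) K.st).of_eq (by rw [upd_n3, upd_pa]; rfl)

theorem rev_n3_pc (K : GT E) :
    Runs (Prog.rev .n3 .pc) K.st ({K with n3 := [], pc := K.n3.reverse ++ K.pc} : GT E).st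
      (3 * K.n3.length) :=
  (Runs.rev (i := Gr.n3) (j := .pc) (by decide) K.st).of_eq (by rw [upd_n3, upd_pc]; rfl)

theorem rev_n4_u (K : GT E) :
    Runs (Prog.rev .n4 .u) K.st ({K with n4 := [], u := K.n4.reverse ++ K.u} : GT E).st
      (3 * K.n4.length) :=
  (Runs.rev (i := Gr.n4) (j := .u) (by decide) K.st).of_eq (by rw [upd_n4, upd_u]; rfl)

theorem rev_n4_v (K : GT E) :
    Runs (Prog.rev .n4 .v) K.st ({K with n4 := [], v := K.n4.reverse ++ K.v} : GT E).st
      (3 * K.n4.length) :=
  (Runs.rev (i := Gr.n4) (j := .v) (by decide) K.st).of_eq (by rw [upd_n4, upd_v]; rfl)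

theorem copy_u_l (K : GT E) (h : K.n1 = []) :
    Runs (Prog.copyOnto .u .l .n1) K.st ({K with l := K.u ++ K.l} : GT E).st
      (6 * K.u.length + 1) :=
  (Runs.copyOnto (a := Gr.u) (b := .l) (t := .n1) (by decide) (by decide) (by decide) K.st
    h).of_eq (by rw [upd_l]; rfl)

theorem copy_v_l (K : GT E) (h : K.n1 = []) :
    Runs (Prog.copyOnto .v .l .n1) K.st ({K with l := K.v ++ K.l} : GT E).st
      (6 * K.v.length + 1) :=
  (Runs.copyOnto (a := Gr.v) (b := .l) (t := .n1) (by decide) (by decide) (by decide) K.st
    h).of_eq (by rw [upd_l]; rfl)

theorem copy_l_t (K : GT E) (h : K.n1 = []) :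
    Runs (Prog.copyOnto .l .t .n1) K.st ({K with t := K.l ++ K.t} : GT E).st
      (6 * K.l.length + 1) :=
  (Runs.copyOnto (a := Gr.l) (b := .t) (t := .n1) (by decide) (by decide) (by decide) K.st
    h).of_eq (by rw [upd_t]; rfl)

theorem copy_w_n1 (K : GT E) (h : K.n2 = []) :
    Runs (Prog.copyOnto .w .n1 .n2) K.st ({K with n1 := K.w ++ K.n1} : GT E).st
      (6 * K.w.length + 1) :=
  (Runs.copyOnto (a := Gr.w) (b := .n1) (t := .n2) (by decide) (by decide) (by decide) K.st
    h).of_eq (by rw [upd_n1]; rfl)

/-! ### Stage A -/

/-- Read the numbers of rows and of bits. -/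
def preA : PT E :=
  (Prog.rev .inp .x).seq (rdA.seq ((Prog.pop .x).seq (sizeP.seq ((Prog.rev .n3 .pa).seq
    ((Prog.rev .n4 .u).seq (rdW.seq (Prog.pop .x)))))))

theorem runs_preA (a w : ℕ) (D : List (SSym E)) :
    Runs preA ({G0 with inp := (List.replicate a (sb true) ++
        mk :: (List.replicate w (sb true) ++ mk :: D)).reverse} : GT E).st
      ({G0 with x := D, a := una a, w := una w, u := una (Nat.size a),
                pa := una (2 ^ Nat.size a - a)} : GT E).st
      (3 * D.length + 6 * a + 6 * w + 11 * 2 ^ Nat.size a + 8 * Nat.size a + 20) := by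
  have h1 := rev_inp_x ({G0 with inp := (List.replicate a (sb true) ++
        mk :: (List.replicate w (sb true) ++ mk :: D)).reverse} : GT E)
  have h2 := runs_rdA (List.replicate w (sb true) ++ mk :: D) a (G0 : GT E)
  have h3 := Runs.pop Gr.x ({G0 with x := mk :: (List.replicate w (sb true) ++ mk :: D),
                                     a := una a, n1 := una a, n5 := una a} : GT E).st
  have h4 := runs_sizeP a ({G0 with x := List.replicate w (sb true) ++ mk :: D,
                                    a := una a} : GT E)
  have h5 := rev_n3_pa ({G0 with x := List.replicate w (sb true) ++ mk :: D, a := una a,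
                                 n3 := una (2 ^ Nat.size a - a),
                                 n4 := una (Nat.size a)} : GT E)
  have h6 := rev_n4_u ({G0 with x := List.replicate w (sb true) ++ mk :: D, a := una a,
                                pa := una (2 ^ Nat.size a - a),
                                n4 := una (Nat.size a)} : GT E)
  have h7 := runs_rdW D w ({G0 with a := una a, pa := una (2 ^ Nat.size a - a),
                                    u := una (Nat.size a)} : GT E)
  have h8 := Runs.pop Gr.x ({G0 with x := mk :: D, a := una a,
                                     pa := una (2 ^ Nat.size a - a), u := una (Nat.size a),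
                                     w := una w} : GT E).st
  rw [upd_x] at h3 h8
  simp only [G0, List.reverse_reverse, List.append_nil, List.length_reverse,
    List.length_append, List.length_replicate, List.length_cons, length_una,
    reverse_una] at h1 h2 h3 h4 h5 h6 h7 h8
  have h9 : a < 2 ^ Nat.size a := Nat.lt_size_self a
  refine (h1.seq (h2.seq (h3.seq (h4.seq (h5.seq (h6.seq (h7.seq h8))))))).mono ?_
  omega

/-! ### Stage B -/

/-- Find the number of columns. -/
def preB : PT E :=
  (Prog.mulOnto .a .n1 .w .n2 1 .n3 mk).seq (divP.seq ((Prog.rev .y .x).seq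
    ((Prog.clear .n3).seq (sizeP.seq ((Prog.rev .n3 .pc).seq (Prog.rev .n4 .v))))))

theorem runs_preB (a c w : ℕ) (ha : 1 ≤ a) (hw : 1 ≤ w) (U P D : List (SSym E))
    (hD : D.length = c * (a * w)) :
    Runs preB ({G0 with x := D, a := una a, w := una w, u := U, pa := P} : GT E).st
      ({G0 with x := D, a := una a, w := una w, u := U, pa := P, c := una c,
                v := una (Nat.size c), pc := una (2 ^ Nat.size c - c)} : GT E).st
      (a * (w * 10 + 8) + c * (8 * (a * w) + 5) + 3 * (c * (a * w)) + 3 * (a * w) +
        11 * 2 ^ Nat.size c + 8 * Nat.size c + 3 * c + 10) := by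
  obtain ⟨L, hL1, hL2, hL3⟩ := exists_blocks (a * w) c D hD
  have haw : 1 ≤ a * w := Nat.mul_pos ha hw
  have h1 := Runs.mulOnto (u := Gr.a) (t := .n1) (v := .w) (t' := .n2) (i := .n3) (by decide)
    (by decide) (by decide) (by decide) (by decide) (by decide) (by decide) (by decide)
    (by decide) (by decide) 1 mk mk mk
    ({G0 with x := D, a := una a, w := una w, u := U, pa := P} : GT E).st a w rfl rfl rfl rfl
  have h2 := runs_divP (a * w) haw L hL3 []
    ({G0 with a := una a, w := una w, u := U, pa := P} : GT E)
  rw [hL1, hL2] at h2
  have h3 := rev_y_x ({G0 with a := una a, w := una w, u := U, pa := P, c := una c,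
                               n1 := una c, n5 := una c, n3 := una (a * w),
                               y := D.reverse} : GT E)
  have h4 := Runs.clear Gr.n3 ({G0 with a := una a, w := una w, u := U, pa := P, c := una c,
                                        n1 := una c, n5 := una c, n3 := una (a * w),
                                        x := D} : GT E).st
  have h5 := runs_sizeP c ({G0 with a := una a, w := una w, u := U, pa := P, c := una c,
                                    x := D} : GT E)
  have h6 := rev_n3_pc ({G0 with a := una a, w := una w, u := U, pa := P, c := una c,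
                                 x := D, n3 := una (2 ^ Nat.size c - c),
                                 n4 := una (Nat.size c)} : GT E)
  have h7 := rev_n4_v ({G0 with a := una a, w := una w, u := U, pa := P, c := una c,
                                x := D, pc := una (2 ^ Nat.size c - c),
                                n4 := una (Nat.size c)} : GT E)
  rw [upd_n3] at h1 h4
  simp only [GT.st, G0, List.reverse_reverse, List.append_nil, List.length_reverse,
    length_una, reverse_una, hD] at h1 h2 h3 h4 h5 h6 h7
  have e1 : a * (w * 1) = a * w := by rw [Nat.mul_one]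
  rw [show List.replicate (a * (w * 1)) (mk : SSym E) = una (a * w) by rw [e1]; rfl] at h1
  refine (h1.seq (h2.seq (h3.seq (h4.seq (h5.seq (h6.seq h7)))))).mono ?_
  have e2 : a * (w * (2 * 1 + 8) + 8) = a * (w * 10 + 8) := by norm_num
  rw [e2]
  omega

/-! ### Stage C -/

/-- The sizes of the words. -/
def preC : PT E :=
  (Prog.copyOnto .v .l .n1).seq ((Prog.copyOnto .u .l .n1).seq ((Prog.copyOnto .l .t .n1).seq
    ((Prog.copyOnto .w .n1 .n2).seq zOut)))

theorem runs_preC (w u v Z : ℕ) (A C P Q D : List (SSym E)) (h1 : w ≤ Z * (u + v))
    (h2 : Z * (u + v) < w + (u + v)) :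
    Runs preC ({G0 with x := D, a := A, w := una w, u := una u, pa := P, c := C, v := una v,
                        pc := Q} : GT E).st
      ({G0 with x := D, a := A, w := una w, u := una u, pa := P, c := C, v := una v,
                pc := Q, l := una (u + v), t := una (u + v), z := una Z,
                pw := una (Z * (u + v) - w)} : GT E).st
      (12 * (u + v) + 6 * w + Z * (6 * (u + v) + 6) + 10) := by
  have g1 := copy_v_l ({G0 with x := D, a := A, w := una w, u := una u, pa := P, c := C,
                                v := una v, pc := Q} : GT E) rfl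
  have g2 := copy_u_l ({G0 with x := D, a := A, w := una w, u := una u, pa := P, c := C,
                                v := una v, pc := Q, l := una v} : GT E) rfl
  have g3 := copy_l_t ({G0 with x := D, a := A, w := una w, u := una u, pa := P, c := C,
                                v := una v, pc := Q, l := una (u + v)} : GT E) rfl
  have g4 := copy_w_n1 ({G0 with x := D, a := A, w := una w, u := una u, pa := P, c := C,
                                 v := una v, pc := Q, l := una (u + v),
                                 t := una (u + v)} : GT E) rfl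
  have g5 := runs_zOut (u + v) Z w ({G0 with x := D, a := A, w := una w, u := una u,
                                             pa := P, c := C, v := una v, pc := Q,
                                             t := una (u + v)} : GT E) h1 h2
  have e : (una u : List (SSym E)) ++ una v = una (u + v) := by
    have := una_append_una (E := E) u v []
    simpa using this
  simp only [G0, List.append_nil, length_una, e] at g1 g2 g3 g4 g5
  refine (g1.seq (g2.seq (g3.seq (g4.seq g5)))).mono ?_
  omega

/-! ### The whole preparation -/

/-- The preparation. -/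
def preP : PT E := preA.seq (preB.seq (preC.seq (mP.seq (padP.seq (Prog.push .h mk)))))

/-- The stacks after the preparation. -/
def GP (a c w u v Z : ℕ) (D : List (SSym E)) : GT E :=
  {G0 with x := D, a := una a, c := una c, w := una w, u := una u, v := una v, z := una Z,
           t := una (u + v), l := una (u + v), m := una (c * (a * max w (u + v) * 4608)),
           h := una 1, pa := una (2 ^ u - a), pc := una (2 ^ v - c),
           pw := una (Z * (u + v) - w)}

theorem runs_preP (a c w Z : ℕ) (g : ℕ → ℕ → List Bool) (hg : ∀ i j, (g i j).length = w)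
    (ha : 1 ≤ a) (hw : 1 ≤ w) (h1 : w ≤ Z * (Nat.size a + Nat.size c))
    (h2 : Z * (Nat.size a + Nat.size c) < w + (Nat.size a + Nat.size c)) :
    Runs preP ({G0 with inp := (List.replicate a (sb true) ++
        mk :: (List.replicate w (sb true) ++
          mk :: bits (cat a fun i => cat c fun j => g i j))).reverse} : GT E).st
      (GP a c w (Nat.size a) (Nat.size c) Z (bits (padBits a (2 ^ Nat.size a - a) c
        (2 ^ Nat.size c - c) w (Z * (Nat.size a + Nat.size c) - w) g)) : GT E).st
      ((3 * (c * (a * w)) + 6 * a + 6 * w + 11 * 2 ^ Nat.size a + 8 * Nat.size a + 20) +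
        (a * (w * 10 + 8) + c * (8 * (a * w) + 5) + 3 * (c * (a * w)) + 3 * (a * w) +
        11 * 2 ^ Nat.size c + 8 * Nat.size c + 3 * c + 10) +
        (12 * (Nat.size a + Nat.size c) + 6 * w +
          Z * (6 * (Nat.size a + Nat.size c) + 6) + 10) +
        (6 * w + 6 * (Nat.size a + Nat.size c) + 6 * max w (Nat.size a + Nat.size c) +
          a * (max w (Nat.size a + Nat.size c) * 10 + 8) +
          c * (a * max w (Nat.size a + Nat.size c) * 9224 + 8) +
          3 * (a * max w (Nat.size a + Nat.size c)) + 10) +
        (2 ^ Nat.size a * (2 ^ Nat.size c * (8 * (Z * (Nat.size a + Nat.size c)) + 10) + 10) +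
          3 * (2 ^ Nat.size a * (2 ^ Nat.size c * (Z * (Nat.size a + Nat.size c)))) + 10)) := by
  have hD : (cat a fun i => cat c fun j => g i j).length = c * (a * w) := by
    rw [length_cat_of (L := c * w)]
    · ring
    · intro i _
      rw [length_cat_of (L := w)]
      intro j _
      exact hg i j
  set D : List (SSym E) := bits (cat a fun i => cat c fun j => g i j) with hDD
  have hD' : D.length = c * (a * w) := by rw [hDD, length_bits, hD]
  have k1 := runs_preA a w D
  have k2 := runs_preB a c w ha hw (una (Nat.size a)) (una (2 ^ (Nat.size a) - a)) D hD'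
  have hua : a < 2 ^ (Nat.size a) := Nat.lt_size_self a
  have hvc : c < 2 ^ (Nat.size c) := Nat.lt_size_self c
  generalize Nat.size a = u at *
  generalize Nat.size c = v at *
  have k3 := runs_preC w u v Z (una a) (una c) (una (2 ^ u - a)) (una (2 ^ v - c)) D h1 h2
  have k4 := runs_mP a c w (u + v) ({G0 with x := D, u := una u, pa := una (2 ^ u - a),
                                             v := una v, pc := una (2 ^ v - c),
                                             t := una (u + v), z := una Z,
                                             pw := una (Z * (u + v) - w)} : GT E)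
  have k5 := runs_padP a (2 ^ u - a) c (2 ^ v - c) w (Z * (u + v) - w) g hg
    ({G0 with u := una u, v := una v, t := una (u + v), z := una Z, l := una (u + v),
              m := una (c * (a * max w (u + v) * 4608))} : GT E)
  have k6 := Runs.push Gr.h mk
    ({G0 with x := bits (padBits a (2 ^ u - a) c (2 ^ v - c) w (Z * (u + v) - w) g),
              a := una a, c := una c, w := una w, u := una u, v := una v, z := una Z,
              t := una (u + v), l := una (u + v), m := una (c * (a * max w (u + v) * 4608)),
              pa := una (2 ^ u - a), pc := una (2 ^ v - c),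
              pw := una (Z * (u + v) - w)} : GT E).st
  rw [upd_h] at k6
  rw [hD'] at k1
  rw [show a + (2 ^ u - a) = 2 ^ u by omega, show c + (2 ^ v - c) = 2 ^ v by omega,
    show w + (Z * (u + v) - w) = Z * (u + v) by omega,
    show 8 * w + 8 * (Z * (u + v) - w) = 8 * (Z * (u + v)) by omega] at k5
  refine (k1.seq (k2.seq (k3.seq (k4.seq (k5.seq k6))))).mono ?_
  omega

end Vale.Agent.P338.GS.Top
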