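import Vale.Agent.P338.GS.Defs
import Vale.Agent.P338.Final
import Vale.Agent.P338.H921.GTopD

/-!
# P338, matrices of every shape: the machine
-/

namespace Vale.Agent.P338.GS.Top

open Vale.Agent.P338

/-! ### The entries -/

/-- The bits of the entries, extended by zero. -/
def extE {a c w : ℕ} (x : Fin a → Fin c → Fin w → Bool) (i j k : ℕ) : Bool :=
  if h : i < a ∧ j < c ∧ k < w then x ⟨i, h.1⟩ ⟨j, h.2.1⟩ ⟨k, h.2.2⟩ else false

/-- The entries as words. -/
def gE {a c w : ℕ} (x : Fin a → Fin c → Fin w → Bool) (i j : ℕ) : List Bool :=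
  cat w fun k => [extE x i j k]

theorem length_gE {a c w : ℕ} (x : Fin a → Fin c → Fin w → Bool) (i j : ℕ) :
    (gE x i j).length = w := by
  rw [gE, length_cat_of (L := 1) fun _ _ => rfl, Nat.mul_one]

theorem entries_eq {a c w : ℕ} (x : Fin a → Fin c → Fin w → Bool) :
    entries x = cat a fun i => cat c fun j => gE x i j := by
  rw [cat_eq_ofFn]
  unfold entries
  congr 2
  funext i
  rw [cat_eq_ofFn]
  congr 2
  funext j
  rw [gE, cat_singleton_eq_ofFn]
  congr 1
  funext k
  simp [extE]

theorem entries_transpose_eq {a c w : ℕ} (x : Fin a → Fin c → Fin w → Bool) :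
    (entries fun j i => x i j) = cat c fun j => cat a fun i => gE x i j := by
  rw [entries_eq]
  refine cat_congr fun j _ => cat_congr fun i _ => ?_
  rw [gE, gE]
  refine cat_congr fun k _ => ?_
  simp only [extE]
  congr 1
  by_cases h : i < a ∧ j < c ∧ k < w
  · rw [dif_pos h, dif_pos ⟨h.2.1, h.1, h.2.2⟩]
  · rw [dif_neg h, dif_neg fun h' => h ⟨h'.2.1, h'.1, h'.2.2⟩]

theorem length_entries {a c w : ℕ} (x : Fin a → Fin c → Fin w → Bool) :
    (entries x).length = a * c * w := by
  rw [entries_eq, length_cat_of (L := c * w)]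
  · ring
  · intro i _
    rw [length_cat_of (L := w)]
    intro j _
    exact length_gE x i j

theorem length_entInput {a c w : ℕ} (x : Fin a → Fin c → Fin w → Bool) :
    (entInput x).length = a + w + 2 + a * c * w := by
  unfold entInput
  rw [List.length_append, List.length_cons, List.length_append, List.length_cons,
    length_bitWord, length_entries, List.length_replicate, List.length_replicate]
  omega

theorem blank_notMem_entInput {a c w : ℕ} (x : Fin a → Fin c → Fin w → Bool) :
    Sym.blank ∉ entInput x := by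
  unfold entInput
  intro h
  rcases List.mem_append.mp h with h | h
  · have := List.eq_of_mem_replicate h
    cases this
  · rcases List.mem_cons.mp h with h | h
    · cases h
    · rcases List.mem_append.mp h with h | h
      · have := List.eq_of_mem_replicate h
        cases this
      · rcases List.mem_cons.mp h with h | h
        · cases h
        · exact blank_notMem_bitWord _ h

theorem embS_entInput {E : Type} {a c w : ℕ} (x : Fin a → Fin c → Fin w → Bool) :
    (entInput x).map (embS : Sym → SSym E) = List.replicate a (sb true) ++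
      mk :: (List.replicate w (sb true) ++ mk :: bits (cat a fun i => cat c fun j => gE x i j)) := by
  unfold entInput
  rw [List.map_append, List.map_cons, List.map_append, List.map_cons, embS_bitWord,
    List.map_replicate, List.map_replicate, entries_eq]
  rfl

/-! ### Words -/

/-- A list as a sequence of words of `t` bits. -/
theorem cat_words (t : ℕ) (Z : ℕ) : ∀ l : List Bool, l.length = Z * t →
    (cat Z fun z => bitsOf t (natOf ((l.drop (z * t)).take t))) = l := by
  induction Z with
  | zero =>
    intro l hl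
    rw [Nat.zero_mul] at hl
    rw [List.length_eq_zero_iff.mp hl]
    rfl
  | succ Z ih =>
    intro l hl
    have h1 : (Z + 1) * t = Z * t + t := by ring
    rw [cat_succ', Nat.zero_mul, List.drop_zero, bitsOf_natOf_of (by
      rw [List.length_take]; omega)]
    have h2 := ih (l.drop t) (by rw [List.length_drop]; omega)
    have h3 : (cat Z fun z => bitsOf t (natOf ((l.drop ((z + 1) * t)).take t))) = l.drop t := by
      rw [← h2]
      refine cat_congr fun z _ => ?_
      rw [List.drop_drop, show t + z * t = (z + 1) * t by ring]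
    rw [h3, List.take_append_drop]

/-- The padded entries. -/
def pword (a c w q : ℕ) (g : ℕ → ℕ → List Bool) (i j : ℕ) : List Bool :=
  if i < a ∧ j < c then g i j ++ List.replicate q false else List.replicate (w + q) false

theorem length_pword {a c w q : ℕ} {g : ℕ → ℕ → List Bool} (hg : ∀ i j, (g i j).length = w)
    (i j : ℕ) : (pword a c w q g i j).length = w + q := by
  unfold pword
  split_ifs
  · rw [List.length_append, hg, List.length_replicate]
  · rw [List.length_replicate]

theorem padBits_eq (a e c d w q : ℕ) (g : ℕ → ℕ → List Bool) :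
    padBits a e c d w q g = cat (a + e) fun i => cat (c + d) fun j => pword a c w q g i j := by
  rw [cat_add, padBits]
  congr 1
  · refine cat_congr fun i hi => ?_
    rw [cat_add, rowBits]
    congr 1
    · refine cat_congr fun j hj => ?_
      rw [pword, if_pos ⟨hi, hj⟩]
    · refine cat_congr fun j _ => ?_
      rw [pword, if_neg (by omega)]
  · refine cat_congr fun i _ => ?_
    rw [cat_add, zrowBits]
    congr 1
    · refine cat_congr fun j hj => ?_
      rw [pword, if_neg (by omega)]
    · refine cat_congr fun j _ => ?_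
      rw [pword, if_neg (by omega)]

/-- The words. -/
def wE (t : ℕ) (P : ℕ → ℕ → List Bool) (_ i j z : ℕ) : ℕ :=
  natOf (((P i j).drop (z * t)).take t)

theorem wE_lt (t : ℕ) (P : ℕ → ℕ → List Bool) (x i j z : ℕ) : wE t P x i j z < 2 ^ t := by
  refine (natOf_lt _).trans_le (Nat.pow_le_pow_right (by norm_num) ?_)
  rw [List.length_take]
  exact min_le_left _ _

theorem arr4_wE (M N Z t : ℕ) (P : ℕ → ℕ → List Bool) (hP : ∀ i j, (P i j).length = Z * t) :
    arr4 1 M N Z t (wE t P) = cat M fun i => cat N fun j => P i j := by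
  rw [arr4, cat_one]
  refine cat_congr fun i _ => cat_congr fun j _ => ?_
  exact cat_words t Z (P i j) (hP i j)

theorem arr4_wE' (M N Z t : ℕ) (P : ℕ → ℕ → List Bool) (hP : ∀ i j, (P i j).length = Z * t) :
    (arr4 1 M N Z t fun x j i z => wE t P x i j z) = cat M fun j => cat N fun i => P i j := by
  rw [arr4, cat_one]
  refine cat_congr fun i _ => cat_congr fun j _ => ?_
  exact cat_words t Z (P j i) (hP j i)

/-! ### The big store -/

/-- All stacks. -/
def allW : List W :=
  [.XR, .XI, .KR, .KI, .AX, .AY, .AZ, .PR, .PI, .HX, .HR, .HZ, .HM, .HN, .MM, .WS, .WB, .WP, .WT,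
    .UU, .VV, .LL, .CR, .CI, .DR, .DI, .ER, .EI, .GR, .GI, .NR, .NI, .A1, .A2, .A3, .A4, .A5,
    .A6, .A7, .A8, .T1, .T2, .T3, .T4, .T5, .T6, .T7, .T8, .O1, .O2, .O3, .O4, .F1, .F2, .F3,
    .F4, .F5, .F6, .F7, .F8, .Q1, .Q2, .Q3, .Q4, .Q5, .Q6, .Q7, .Q8, .IN, .N1, .N2, .N3, .N4,
    .N5, .N6, .N7, .N8, .N9]

instance : Finite W := by
  have h : (Set.univ : Set W).Finite :=
    (List.finite_toSet allW).subset fun q _ => by
      show q ∈ allW
      cases q <;> decide
  exact Set.finite_univ_iff.mp h

variable {J E : Type}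

/-- The stacks of the preparation in the big store. -/
def Gr.toW : Gr → W
  | .inp => .IN
  | .x => .XR
  | .y => .Q1
  | .a => .N1
  | .c => .N2
  | .w => .N3
  | .u => .UU
  | .v => .VV
  | .z => .HZ
  | .t => .WT
  | .l => .LL
  | .m => .MM
  | .h => .HX
  | .pa => .N4
  | .pc => .N5
  | .pw => .N6
  | .n1 => .Q2
  | .n2 => .Q3
  | .n3 => .Q4
  | .n4 => .Q5
  | .n5 => .Q6
  | .n6 => .Q7
  | .n7 => .Q8
  | .n8 => .T1
  | .pe => .N7
  | .pl => .N8
  | .sv => .N9

/-- The contents of the big store. -/
def bigW (K : GT E) : W → List (SSym E)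
  | .IN => K.inp
  | .XR => K.x
  | .Q1 => K.y
  | .N1 => K.a
  | .N2 => K.c
  | .N3 => K.w
  | .UU => K.u
  | .VV => K.v
  | .HZ => K.z
  | .WT => K.t
  | .LL => K.l
  | .MM => K.m
  | .HX => K.h
  | .N4 => K.pa
  | .N5 => K.pc
  | .N6 => K.pw
  | .Q2 => K.n1
  | .Q3 => K.n2
  | .Q4 => K.n3
  | .Q5 => K.n4
  | .Q6 => K.n5
  | .Q7 => K.n6
  | .Q8 => K.n7
  | .T1 => K.n8
  | .N7 => K.pe
  | .N8 => K.pl
  | .N9 => K.sv
  | _ => []

/-- The big store. -/
def big (K : GT E) : SW J E
  | .inl _ => []
  | .inr r => bigW K r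

/-- The stack in the big store. -/
def Gr.loc (r : Gr) : Loc J ⊕ W := Sum.inr r.toW

theorem Gr.loc_injective : Function.Injective (Gr.loc : Gr → Loc J ⊕ W) := by
  have h : ∀ r r' : Gr, r.toW = r'.toW → r = r' := by
    intro r r' h
    cases r <;> cases r' <;> first | rfl | (exact absurd h (by decide))
  intro r r' h'
  unfold Gr.loc at h'
  exact h r r' (Sum.inr_injective h')

theorem Runs.big' {p : PT E} {K K' : GT E} {t : ℕ} (h : Runs p K.st K'.st t) :
    Runs (p.map Gr.loc) (big K : SW J E) (big K') t := by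
  refine h.map Gr.loc_injective ?_ ?_ ?_
  · intro r
    cases r <;> rfl
  · intro r
    cases r <;> rfl
  · intro k hk
    rcases k with k | r
    · rfl
    · cases r <;> first
        | rfl
        | exact (hk ⟨Gr.inp, rfl⟩).elim
        | exact (hk ⟨Gr.x, rfl⟩).elim
        | exact (hk ⟨Gr.y, rfl⟩).elim
        | exact (hk ⟨Gr.a, rfl⟩).elim
        | exact (hk ⟨Gr.c, rfl⟩).elim
        | exact (hk ⟨Gr.w, rfl⟩).elim
        | exact (hk ⟨Gr.u, rfl⟩).elim
        | exact (hk ⟨Gr.v, rfl⟩).elim
        | exact (hk ⟨Gr.z, rfl⟩).elim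
        | exact (hk ⟨Gr.t, rfl⟩).elim
        | exact (hk ⟨Gr.l, rfl⟩).elim
        | exact (hk ⟨Gr.m, rfl⟩).elim
        | exact (hk ⟨Gr.h, rfl⟩).elim
        | exact (hk ⟨Gr.pa, rfl⟩).elim
        | exact (hk ⟨Gr.pc, rfl⟩).elim
        | exact (hk ⟨Gr.pw, rfl⟩).elim
        | exact (hk ⟨Gr.n1, rfl⟩).elim
        | exact (hk ⟨Gr.n2, rfl⟩).elim
        | exact (hk ⟨Gr.n3, rfl⟩).elim
        | exact (hk ⟨Gr.n4, rfl⟩).elim
        | exact (hk ⟨Gr.n5, rfl⟩).elim
        | exact (hk ⟨Gr.n6, rfl⟩).elim
        | exact (hk ⟨Gr.n7, rfl⟩).elim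
        | exact (hk ⟨Gr.n8, rfl⟩).elim
        | exact (hk ⟨Gr.pe, rfl⟩).elim
        | exact (hk ⟨Gr.pl, rfl⟩).elim
        | exact (hk ⟨Gr.sv, rfl⟩).elim

theorem big_input [DecidableEq J] (l : List (SSym E)) :
    (big ({G0 with inp := l} : GT E) : SW J E) =
      Function.update (fun _ => []) (Sum.inr W.IN) l := by
  funext k
  rcases k with k | r
  · rw [Function.update_of_ne (by simp)]
    rfl
  · by_cases hr : r = .IN
    · subst hr
      rw [Function.update_self]
      rfl
    · rw [Function.update_of_ne (by simpa using hr)]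
      cases r <;> first | rfl | exact absurd rfl hr

theorem big_set_x [DecidableEq J] (K : GT E) (l : List (SSym E)) :
    (big K : SW J E).set .XR l = big ({K with x := l} : GT E) := by
  funext k
  unfold SW.set
  rcases k with k | r
  · rw [Function.update_of_ne (by simp)]
    rfl
  · by_cases hr : r = .XR
    · subst hr
      rw [Function.update_self]
      rfl
    · rw [Function.update_of_ne (by simpa using hr)]
      cases r <;> first | rfl | exact absurd rfl hr

/-- The stacks before and after the transposition of words. -/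
theorem big_GP_wsc (a c w u v Z : ℕ) (D : List (SSym E)) :
    ∀ r ∈ wsc, SW.at (big (GP a c w u v Z D : GT E) : SW J E) r = [] := by
  intro r hr
  cases r <;> first | rfl | (exact absurd hr (by decide))

theorem big_GP_cln (a c w u v Z : ℕ) (D : List (SSym E)) :
    Cln0 (big (GP a c w u v Z D : GT E) : SW J E) where
  idle := fun _ => rfl
  emp := by
    intro r hr
    cases r <;> first | rfl | (exact absurd hr (by decide))

/-- The whole program. -/
noncomputable def topP (p : PW J E) : PW J E :=
  (preP.map Gr.loc).seq (p.seq (unpP.map Gr.loc))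

end Vale.Agent.P338.GS.Top
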