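import Vale.Agent.P338.H921.S2Mach

/-!
# P338, second reduction: asymptotic forms
-/

namespace Vale.Agent.P338.S2

/-! ### The terms of `tinyT` -/

theorem tinyT_eq (T : ℕ → ℕ) (k L : ℕ) :
    tinyT T k L = ∑ i ∈ Finset.range k, T (tsz (nxt^[i] L)) / tsz (nxt^[i] L) +
      Nat.log 2 (nxt^[k] L) := by
  induction k generalizing L with
  | zero => simp [tinyT]
  | succ k ih =>
    rw [tinyT, ih, Finset.sum_range_succ', Function.iterate_succ_apply]
    simp only [Function.iterate_succ_apply, Function.iterate_zero_apply]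
    ring

theorem log_mul_16 {n : ℕ} (hn : 1 ≤ n) : Nat.log 2 (16 * n) = Nat.log 2 n + 4 := by
  have h : 16 * n = n * 2 ^ 4 := by ring
  rw [h]
  have := Nat.log_mul_base (b := 2) (n := n) (by norm_num) (by omega)
  have h2 := Nat.log_mul_base (b := 2) (n := n * 2) (by norm_num) (by omega)
  have h3 := Nat.log_mul_base (b := 2) (n := n * 2 * 2) (by norm_num) (by omega)
  have h4 := Nat.log_mul_base (b := 2) (n := n * 2 * 2 * 2) (by norm_num) (by omega)
  have h5 : n * 2 ^ 4 = n * 2 * 2 * 2 * 2 := by ring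
  rw [h5, h4, h3, h2, this]

theorem size_eq_log {n : ℕ} (hn : 1 ≤ n) : Nat.size n = Nat.log 2 n + 1 :=
  le_antisymm (Nat.size_le.mpr (Nat.lt_pow_succ_log_self (by norm_num) n))
    (Nat.lt_size.mpr (Nat.pow_log_le_self 2 (by omega)))

theorem tsz_16 {n : ℕ} (hn : 1 ≤ n) : tsz (16 * n) = 8 * (Nat.log 2 n + 5) := by
  unfold tsz
  rw [size_eq_log (by omega), log_mul_16 hn]

theorem nxt_16 {n : ℕ} (hn : 1 ≤ n) : nxt (16 * n) ≤ max 1 (Nat.log 2 n) := by
  unfold nxt
  rw [log_mul_16 hn]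
  omega

theorem log_max_one (x : ℕ) : Nat.log 2 (max 1 x) = Nat.log 2 x := by
  rcases Nat.eq_zero_or_pos x with h | h
  · subst h; simp
  · rw [max_eq_right h]

theorem nxt_iter_le {n : ℕ} (hn : 1 ≤ n) (k : ℕ) :
    nxt^[k + 1] (16 * n) ≤ max 1 ((Nat.log 2)^[k + 1] n) := by
  induction k with
  | zero => exact nxt_16 hn
  | succ k ih =>
    rw [Function.iterate_succ_apply', Function.iterate_succ_apply' (Nat.log 2)]
    have h1 : Nat.log 2 (nxt^[k + 1] (16 * n)) ≤ Nat.log 2 ((Nat.log 2)^[k + 1] n) := by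
      rw [← log_max_one ((Nat.log 2)^[k + 1] n)]
      exact Nat.log_mono_right ih
    unfold nxt at h1 ⊢
    omega

theorem log_nxt_iter_le {n : ℕ} (hn : 1 ≤ n) (k : ℕ) :
    Nat.log 2 (nxt^[k + 1] (16 * n)) ≤ (Nat.log 2)^[k + 2] n := by
  rw [Function.iterate_succ_apply' (Nat.log 2), ← log_max_one ((Nat.log 2)^[k + 1] n)]
  exact Nat.log_mono_right (nxt_iter_le hn k)

/-- One level: the tiny size is `8 (log n + 5)`. -/
theorem tinyT_one_le (T : ℕ → ℕ) {n : ℕ} (hn : 1 ≤ n) :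
    tinyT T 1 (16 * n) ≤ T (8 * (Nat.log 2 n + 5)) / (8 * (Nat.log 2 n + 5)) +
      Nat.log 2 (Nat.log 2 n) := by
  simp only [tinyT]
  rw [tsz_16 hn]
  apply Nat.add_le_add_left
  rw [← log_max_one (Nat.log 2 n)]
  exact Nat.log_mono_right (nxt_16 hn)

/-- One level, with tiny multiplications in time `O(m (log m + 1) ^ e)`. -/
theorem tinyT_poly {T : ℕ → ℕ} {D e : ℕ} (he : 1 ≤ e)
    (hT : ∀ m, 1 ≤ m → T m ≤ D * (m * (Nat.log 2 m + 1) ^ e)) {n : ℕ} (hn : 1 ≤ n) :
    tinyT T 1 (16 * n) ≤ (D * 7 ^ e + 1) * (Nat.log 2 (Nat.log 2 n) + 1) ^ e := by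
  refine (tinyT_one_le T hn).trans ?_
  set x := Nat.log 2 n with hx
  set s := 8 * (x + 5) with hs
  have h1 : Nat.log 2 s ≤ 6 + Nat.log 2 x := by
    rcases Nat.eq_zero_or_pos x with h | h
    · rw [hs, h]
      have : Nat.log 2 (8 * (0 + 5)) < 6 := Nat.log_lt_of_lt_pow (by norm_num) (by norm_num)
      omega
    · have h2 : Nat.log 2 s < 6 + Nat.log 2 x + 1 := by
        apply Nat.log_lt_of_lt_pow (by omega)
        have h3 := Nat.lt_pow_succ_log_self (b := 2) (by norm_num) x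
        have h4 : 2 ^ (6 + Nat.log 2 x + 1) = 64 * 2 ^ (Nat.log 2 x + 1) := by
          rw [show 6 + Nat.log 2 x + 1 = 6 + (Nat.log 2 x + 1) by ring, pow_add]
          norm_num
        rw [h4]
        have h5 : s ≤ 48 * x := by omega
        rw [Nat.succ_eq_add_one] at h3
        omega
      omega
  have h2 : T s / s ≤ D * (Nat.log 2 s + 1) ^ e := by
    have hs0 : 0 < s := by omega
    apply Nat.div_le_of_le_mul
    calc T s ≤ D * (s * (Nat.log 2 s + 1) ^ e) := hT s hs0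
      _ = s * (D * (Nat.log 2 s + 1) ^ e) := by ring
  have h3 : (Nat.log 2 s + 1) ^ e ≤ 7 ^ e * (Nat.log 2 x + 1) ^ e := by
    rw [← Nat.mul_pow]
    exact Nat.pow_le_pow_left (by omega) e
  have h4 : Nat.log 2 x ≤ (Nat.log 2 x + 1) ^ e := by
    calc Nat.log 2 x ≤ (Nat.log 2 x + 1) ^ 1 := by rw [pow_one]; omega
      _ ≤ (Nat.log 2 x + 1) ^ e := Nat.pow_le_pow_right (by omega) he
  calc T s / s + Nat.log 2 x
      ≤ D * (7 ^ e * (Nat.log 2 x + 1) ^ e) + (Nat.log 2 x + 1) ^ e :=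
        Nat.add_le_add (h2.trans (Nat.mul_le_mul_left _ h3)) h4
    _ = (D * 7 ^ e + 1) * (Nat.log 2 x + 1) ^ e := by ring

theorem nxt_iter_le_self {L : ℕ} (hL : 1 ≤ L) (i : ℕ) : nxt^[i] L ≤ L ∧ 1 ≤ nxt^[i] L := by
  induction i with
  | zero => exact ⟨le_rfl, hL⟩
  | succ i ih =>
    rw [Function.iterate_succ_apply']
    exact ⟨(tm_nxt_le ih.2).trans ih.1, tm_one_le_nxt _⟩

theorem size_mono' {a b : ℕ} (h : a ≤ b) : Nat.size a ≤ Nat.size b := Nat.size_le_size h

theorem tsz_iter_le {n : ℕ} (hn : 8 ≤ n) (i : ℕ) : tsz (nxt^[i] (16 * n)) ≤ n ^ 2 := by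
  have h1 : tsz (nxt^[i] (16 * n)) ≤ tsz (16 * n) := by
    unfold tsz
    exact Nat.mul_le_mul_left _ (size_mono' (nxt_iter_le_self (by omega) i).1)
  refine h1.trans ?_
  rw [tsz_16 (by omega)]
  have h2 : Nat.log 2 n + 5 ≤ n := by
    have h3 : Nat.log 2 n < n - 4 := by
      apply Nat.log_lt_of_lt_pow (by omega)
      have key : ∀ m : ℕ, 8 ≤ m → m < 2 ^ (m - 4) := by
        intro m hm
        induction m, hm using Nat.le_induction with
        | base => norm_num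
        | succ m hm ih =>
          have e : 2 ^ (m + 1 - 4) = 2 * 2 ^ (m - 4) := by
            rw [show m + 1 - 4 = (m - 4) + 1 by omega, pow_succ]
            ring
          omega
      exact key n hn
    omega
  calc 8 * (Nat.log 2 n + 5) ≤ n * n := Nat.mul_le_mul hn h2
    _ = n ^ 2 := by ring

/-- If `T m / m` is nondecreasing up to a constant, the tiny multiplications cost less than
the big ones. -/
theorem tinyT_regular {T : ℕ → ℕ} {c : ℕ} (hT : ∀ m, 1 ≤ m → m ≤ T m)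
    (hreg : ∀ m m', 1 ≤ m → m ≤ m' → T m * m' ≤ c * (T m' * m)) (k : ℕ) :
    ∃ C : ℕ, ∀ n M : ℕ, 1 ≤ n → n ^ 2 ≤ M →
      n ^ 2 * tinyT T (k + 1) (16 * n) ≤ C * (T M + n ^ 2 * (Nat.log 2)^[k + 2] n) := by
  set c0 := (Finset.range 8).sup fun n => tinyT T (k + 1) (16 * n) with hc0
  refine ⟨c0 + (k + 1) * c + 1, fun n M hn hM => ?_⟩
  have hn2 : 1 ≤ n ^ 2 := Nat.one_le_pow _ _ hn
  have hM1 : 1 ≤ M := hn2.trans hM
  have hTM : n ^ 2 ≤ T M := hM.trans (hT M hM1)
  rcases Nat.lt_or_ge n 8 with h8 | h8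
  · have h1 : tinyT T (k + 1) (16 * n) ≤ c0 :=
      Finset.le_sup (f := fun n => tinyT T (k + 1) (16 * n)) (Finset.mem_range.2 h8)
    calc n ^ 2 * tinyT T (k + 1) (16 * n) ≤ T M * c0 := Nat.mul_le_mul hTM h1
      _ ≤ (c0 + (k + 1) * c + 1) * (T M + n ^ 2 * (Nat.log 2)^[k + 2] n) := by
        rw [Nat.mul_comm (T M)]
        exact Nat.mul_le_mul (by omega) (by omega)
  · rw [tinyT_eq, Nat.mul_add, Finset.mul_sum]
    have h1 : ∀ i ∈ Finset.range (k + 1),
        n ^ 2 * (T (tsz (nxt^[i] (16 * n))) / tsz (nxt^[i] (16 * n))) ≤ c * T M := by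
      intro i _
      set s := tsz (nxt^[i] (16 * n)) with hs
      have hs1 : 0 < s := tsz_pos (nxt_iter_le_self (by omega) i).2
      have hsM : s ≤ M := (tsz_iter_le h8 i).trans hM
      have h2 := hreg s M hs1 hsM
      have h3 : T s / s * s ≤ T s := Nat.div_mul_le_self _ _
      have h4 : (T s / s * M) * s ≤ (c * T M) * s := by
        calc (T s / s * M) * s = (T s / s * s) * M := by ring
          _ ≤ T s * M := Nat.mul_le_mul_right _ h3
          _ ≤ c * (T M * s) := h2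
          _ = (c * T M) * s := by ring
      have h5 : T s / s * M ≤ c * T M := Nat.le_of_mul_le_mul_right h4 hs1
      calc n ^ 2 * (T s / s) ≤ M * (T s / s) := Nat.mul_le_mul_right _ hM
        _ = T s / s * M := by ring
        _ ≤ c * T M := h5
    have h2 := Finset.sum_le_card_nsmul _ _ _ h1
    rw [Finset.card_range, smul_eq_mul] at h2
    have h3 := log_nxt_iter_le hn k
    have h4 : n ^ 2 * Nat.log 2 (nxt^[k + 1] (16 * n)) ≤ n ^ 2 * (Nat.log 2)^[k + 2] n :=
      Nat.mul_le_mul_left _ h3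
    set X := n ^ 2 * (Nat.log 2)^[k + 2] n with hX
    calc ∑ i ∈ Finset.range (k + 1), n ^ 2 * (T (tsz (nxt^[i] (16 * n))) /
          tsz (nxt^[i] (16 * n))) + n ^ 2 * Nat.log 2 (nxt^[k + 1] (16 * n))
        ≤ (k + 1) * (c * T M) + X := Nat.add_le_add h2 h4
      _ ≤ (c0 + (k + 1) * c + 1) * (T M + X) := by
        have : (c0 + (k + 1) * c + 1) * (T M + X) = c0 * (T M + X) + (k + 1) * (c * T M) +
          (k + 1) * c * X + T M + X := by ring
        rw [this]
        have h5 := Nat.zero_le (c0 * (T M + X))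
        have h6 := Nat.zero_le ((k + 1) * c * X)
        omega

end Vale.Agent.P338.S2
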