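import Vale.Agent.P338.H921.S2Time
import Vale.Agent.P338.TopFinal

/-!
# P338, second reduction: the core of the transposing machines
-/

namespace Vale.Agent.P338.S2

variable {J E : Type}

/-! ### Stores -/

/-- The store `s` with new contents of the stacks used by the core. -/
def cst (s : St J E) (x nn p11 p12 pp mp pst p1 p2 gg hh : List (SSym E)) : St J E
  | Sum.inl R.X => x
  | Sum.inl R.NN => nn
  | Sum.inl R.P11 => p11
  | Sum.inl R.P12 => p12
  | Sum.inl R.PP => pp
  | Sum.inl R.MP => mp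
  | Sum.inl R.PST => pst
  | Sum.inl R.P1 => p1
  | Sum.inl R.P2 => p2
  | Sum.inl R.GG => gg
  | Sum.inl R.HH => hh
  | q => s q

section upd

variable (s : St J E) (x nn p11 p12 pp mp pst p1 p2 gg hh l : List (SSym E))

@[simp] theorem cst_X : cst s x nn p11 p12 pp mp pst p1 p2 gg hh (Sum.inl R.X) = x := rfl
@[simp] theorem cst_NN : cst s x nn p11 p12 pp mp pst p1 p2 gg hh (Sum.inl R.NN) = nn := rfl
@[simp] theorem cst_P11 : cst s x nn p11 p12 pp mp pst p1 p2 gg hh (Sum.inl R.P11) = p11 := rfl
@[simp] theorem cst_P12 : cst s x nn p11 p12 pp mp pst p1 p2 gg hh (Sum.inl R.P12) = p12 := rfl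
@[simp] theorem cst_PP : cst s x nn p11 p12 pp mp pst p1 p2 gg hh (Sum.inl R.PP) = pp := rfl
@[simp] theorem cst_MP : cst s x nn p11 p12 pp mp pst p1 p2 gg hh (Sum.inl R.MP) = mp := rfl
@[simp] theorem cst_PST : cst s x nn p11 p12 pp mp pst p1 p2 gg hh (Sum.inl R.PST) = pst := rfl
@[simp] theorem cst_P1 : cst s x nn p11 p12 pp mp pst p1 p2 gg hh (Sum.inl R.P1) = p1 := rfl
@[simp] theorem cst_P2 : cst s x nn p11 p12 pp mp pst p1 p2 gg hh (Sum.inl R.P2) = p2 := rfl
@[simp] theorem cst_GG : cst s x nn p11 p12 pp mp pst p1 p2 gg hh (Sum.inl R.GG) = gg := rfl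
@[simp] theorem cst_HH : cst s x nn p11 p12 pp mp pst p1 p2 gg hh (Sum.inl R.HH) = hh := rfl
@[simp] theorem cst_inr (j : J) :
    cst s x nn p11 p12 pp mp pst p1 p2 gg hh (Sum.inr j) = s (Sum.inr j) := rfl

theorem cst_other {q : R} (h : q ∉ [R.X, R.NN, R.P11, R.P12, R.PP, R.MP, R.PST, R.P1, R.P2,
    R.GG, R.HH]) :
    cst s x nn p11 p12 pp mp pst p1 p2 gg hh (Sum.inl q) = s (Sum.inl q) := by
  cases q <;> first | rfl | exact absurd h (by decide)

variable [DecidableEq J]

@[simp] theorem updc_X : Function.update (cst s x nn p11 p12 pp mp pst p1 p2 gg hh)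
    (Sum.inl R.X) l = cst s l nn p11 p12 pp mp pst p1 p2 gg hh := by
  funext q
  rcases q with q | q
  · cases q <;> rfl
  · rfl
@[simp] theorem updc_NN : Function.update (cst s x nn p11 p12 pp mp pst p1 p2 gg hh)
    (Sum.inl R.NN) l = cst s x l p11 p12 pp mp pst p1 p2 gg hh := by
  funext q
  rcases q with q | q
  · cases q <;> rfl
  · rfl
@[simp] theorem updc_P11 : Function.update (cst s x nn p11 p12 pp mp pst p1 p2 gg hh)
    (Sum.inl R.P11) l = cst s x nn l p12 pp mp pst p1 p2 gg hh := by
  funext q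
  rcases q with q | q
  · cases q <;> rfl
  · rfl
@[simp] theorem updc_P12 : Function.update (cst s x nn p11 p12 pp mp pst p1 p2 gg hh)
    (Sum.inl R.P12) l = cst s x nn p11 l pp mp pst p1 p2 gg hh := by
  funext q
  rcases q with q | q
  · cases q <;> rfl
  · rfl
@[simp] theorem updc_PP : Function.update (cst s x nn p11 p12 pp mp pst p1 p2 gg hh)
    (Sum.inl R.PP) l = cst s x nn p11 p12 l mp pst p1 p2 gg hh := by
  funext q
  rcases q with q | q
  · cases q <;> rfl
  · rfl
@[simp] theorem updc_MP : Function.update (cst s x nn p11 p12 pp mp pst p1 p2 gg hh)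
    (Sum.inl R.MP) l = cst s x nn p11 p12 pp l pst p1 p2 gg hh := by
  funext q
  rcases q with q | q
  · cases q <;> rfl
  · rfl
@[simp] theorem updc_PST : Function.update (cst s x nn p11 p12 pp mp pst p1 p2 gg hh)
    (Sum.inl R.PST) l = cst s x nn p11 p12 pp mp l p1 p2 gg hh := by
  funext q
  rcases q with q | q
  · cases q <;> rfl
  · rfl
@[simp] theorem updc_P1 : Function.update (cst s x nn p11 p12 pp mp pst p1 p2 gg hh)
    (Sum.inl R.P1) l = cst s x nn p11 p12 pp mp pst l p2 gg hh := by
  funext q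
  rcases q with q | q
  · cases q <;> rfl
  · rfl
@[simp] theorem updc_P2 : Function.update (cst s x nn p11 p12 pp mp pst p1 p2 gg hh)
    (Sum.inl R.P2) l = cst s x nn p11 p12 pp mp pst p1 l gg hh := by
  funext q
  rcases q with q | q
  · cases q <;> rfl
  · rfl
@[simp] theorem updc_GG : Function.update (cst s x nn p11 p12 pp mp pst p1 p2 gg hh)
    (Sum.inl R.GG) l = cst s x nn p11 p12 pp mp pst p1 p2 l hh := by
  funext q
  rcases q with q | q
  · cases q <;> rfl
  · rfl
@[simp] theorem updc_HH : Function.update (cst s x nn p11 p12 pp mp pst p1 p2 gg hh)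
    (Sum.inl R.HH) l = cst s x nn p11 p12 pp mp pst p1 p2 gg l := by
  funext q
  rcases q with q | q
  · cases q <;> rfl
  · rfl

end upd

/-! ### The program -/

/-- The stacks of `padMat` and `unpMat`. -/
def loc2 : TR → Loc J
  | .IN => Sum.inl R.P11
  | .B => Sum.inl R.P12
  | .X => Sum.inl R.X
  | .T => Sum.inl R.T
  | .NN => Sum.inl R.MP
  | .MM => Sum.inl R.MM
  | .HH => Sum.inl R.HH
  | .S1 => Sum.inl R.P1
  | .S2 => Sum.inl R.P2
  | .S3 => Sum.inl R.S3
  | .S4 => Sum.inl R.S4

theorem loc2_injective : Function.Injective (loc2 : TR → Loc J) := by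
  intro a b h
  cases a <;> cases b <;> first | rfl | (simp [loc2] at h)

/-- Commands before the padding. -/
def cmd1 : List (Cmd E) :=
  [.cp R.P11 R.P12, .cp R.MP R.P1, .sub R.P11 R.P1, .cp R.P1 R.P2, .push R.GG mk]

/-- Commands at the end. -/
def cmd2 : List (Cmd E) :=
  [.rev R.P11 R.NN, .clr R.P12, .clr R.P1, .clr R.P2, .clr R.MP, .push R.HH mk]

variable [DecidableEq J]

/-- Transposition of an `n × n` matrix: the parameters are found, the matrix is padded, the
digits are swapped, and the result is cut off. -/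
noncomputable def core2 (par dsw : Pr J E) : Pr J E :=
  (Prog.forr (rg R.NN) (rg R.S1) (Prog.pushN 16 (rg R.PP) mk)).seq
    ((cmds [.rev R.NN R.P11]).seq (par.seq ((cmds cmd1).seq ((padMat.map loc2).seq
      (dsw.seq ((unpMat.map loc2).seq (cmds cmd2)))))))

omit [DecidableEq J] in
/-- The scratch stacks are empty. -/
theorem cst_dScratch {s : St J E} (h : ∀ q ∈ dScratch, s (Sum.inl q) = [])
    (x nn p11 p12 pp mp pst p1 p2 gg hh : List (SSym E)) :
    (cst s x nn p11 p12 pp mp pst p1 p2 gg hh).Empty dScratch := by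
  intro q hq
  rw [cst_other]
  · exact h q hq
  · revert hq; revert q; decide

theorem cmd1_runs {s : St J E} (h1 : s (Sum.inl R.S1) = []) (x pst hh : List (SSym E))
    (n N : ℕ) :
    Runs (cmds cmd1) (cst s x [] (una n) [] [] (una N) pst [] [] [] hh)
      (cst s x [] (una n) (una n) [] (una N) pst (una (N - n)) (una (N - n)) (una 1) hh)
      (14 * (n + N) + 20) := by
  have hS1 : ∀ p12 p1 p2 gg, cst s x [] (una n) p12 [] (una N) pst p1 p2 gg hh (Sum.inl R.S1)
      = [] := by
    intro p12 p1 p2 gg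
    rw [cst_other _ _ _ _ _ _ _ _ _ _ _ _ (by decide)]
    exact h1
  have h := cmds_spec (J := J) (E := E) cmd1
    (cst s x [] (una n) [] [] (una N) pst [] [] [] hh) (by
      simp [cmd1, oks, Cmd.ok, Cmd.eff, hS1])
  refine (h.mono ?_).of_eq ?_
  · simp only [cmd1, costs, Cmd.cost, Cmd.eff, St.at, cst_P11, cst_MP, cst_P1, updc_P12,
      updc_P1, length_una, List.append_nil, List.length_drop]
    omega
  · simp only [cmd1, effs, Cmd.eff, St.at, cst_P11, cst_MP, cst_P1, cst_P2, cst_P12, cst_GG,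
      updc_P12, updc_P1, updc_P2, updc_GG, length_una, List.append_nil, drop_una, una_one]

theorem cmd2_runs {s : St J E} (x : List (SSym E)) (n N d : ℕ) :
    Runs (cmds cmd2) (cst s x [] (una n) (una n) [] (una N) [] (una d) (una d) [] [])
      (cst s x (una n) [] [] [] [] [] [] [] [] (una 1))
      (6 * n + 6 * d + 3 * N + 20) := by
  have h := cmds_spec (J := J) (E := E) cmd2
    (cst s x [] (una n) (una n) [] (una N) [] (una d) (una d) [] []) (by
      simp [cmd2, oks, Cmd.ok])
  refine (h.mono ?_).of_eq ?_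
  · simp only [cmd2, costs, Cmd.cost, Cmd.eff, St.at, cst_P11, cst_MP, cst_P1, cst_P12, cst_P2,
      cst_NN, updc_P11, updc_NN, updc_P12, updc_P1, updc_P2, length_una, List.append_nil]
    omega
  · simp only [cmd2, effs, Cmd.eff, St.at, cst_P11, cst_NN, cst_HH, updc_P11, updc_NN,
      updc_P12, updc_P1, updc_P2, updc_MP, updc_HH, List.append_nil, reverse_una, una_one]

omit [DecidableEq J] in
/-- Padding. -/
theorem pad2_runs {s : St J E} (hT : s (Sum.inl R.T) = []) (h3 : s (Sum.inl R.S3) = [])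
    (h4 : s (Sum.inl R.S4) = []) (n N : ℕ) (hnN : n ≤ N) (y : ℕ → ℕ → Bool)
    (pst gg hh : List (SSym E)) :
    Runs (padMat.map loc2)
      (cst s (bits (cat n fun i => cat n fun j => [y i j])) [] (una n) (una n) [] (una N) pst
        (una (N - n)) (una (N - n)) gg hh)
      (cst s (bits (cat N fun i => cat N fun j => [if i < n ∧ j < n then y i j else false])) []
        (una n) (una n) [] (una N) pst (una (N - n)) (una (N - n)) gg hh)
      (30 * N ^ 2 + 30 * N + 10) := by
  refine Runs.map loc2_injective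
    (padMat_runs (E := E) n n N hnN hnN y (s (Sum.inl R.MM)) hh) ?_ ?_ ?_
  · intro r
    cases r <;> first | rfl | exact hT | exact h3 | exact h4
  · intro r
    cases r <;> first | rfl | exact hT | exact h3 | exact h4
  · intro q hq
    rcases q with q | q
    · cases q <;> first | rfl | exact absurd ⟨TR.X, rfl⟩ hq
    · rfl

omit [DecidableEq J] in
/-- Unpadding. -/
theorem unp2_runs {s : St J E} (hT : s (Sum.inl R.T) = []) (h3 : s (Sum.inl R.S3) = [])
    (h4 : s (Sum.inl R.S4) = []) (n N : ℕ) (hnN : n ≤ N) (y : ℕ → ℕ → Bool)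
    (pst gg hh : List (SSym E)) :
    Runs (unpMat.map loc2)
      (cst s (bits (cat N fun i => cat N fun j => [y i j])) [] (una n) (una n) [] (una N) pst
        (una (N - n)) (una (N - n)) gg hh)
      (cst s (bits (cat n fun i => cat n fun j => [y i j])) [] (una n) (una n) [] (una N) pst
        (una (N - n)) (una (N - n)) gg hh)
      (20 * N ^ 2 + 20 * N + 10) := by
  refine Runs.map loc2_injective
    (unpMat_runs (E := E) n n N hnN hnN y (una N) (s (Sum.inl R.MM)) hh (una (N - n))) ?_ ?_ ?_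
  · intro r
    cases r <;> first | rfl | exact hT | exact h3 | exact h4
  · intro r
    cases r <;> first | rfl | exact hT | exact h3 | exact h4
  · intro q hq
    rcases q with q | q
    · cases q <;> first | rfl | exact absurd ⟨TR.X, rfl⟩ hq
    · rfl

theorem cat_one' {α : Type} (g : ℕ → List α) : cat 1 g = g 0 := by
  simp [cat]

theorem dig_one (N : ℕ) (y : ℕ → ℕ → Bool) :
    dig 1 N 1 (fun _ a _ b => y a b) = cat N fun i => cat N fun j => [y i j] := by
  simp only [dig, cat_one']

/-- What the top level needs from the core program that transposes an `n × n` matrix with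
multiplications of size `m ≥ K₀ n ^ 2`. -/
def CoreSpecK (K₀ : ℕ) (core : Pr J E) (TB : ℕ → ℕ → ℕ) : Prop :=
  ∀ (n m : ℕ) (x : ℕ → ℕ → Bool) (s : St J E), 1 ≤ n → K₀ * n ^ 2 ≤ m → s.Idle →
    (∀ r : R, r ≠ R.X → r ≠ R.NN → r ≠ R.MM → r ≠ R.HH → r ≠ R.INP → r ≠ R.IN2 →
      s.at r = []) →
    s.at R.HH = una 1 → s.at R.NN = una n → s.at R.MM = una m →
    s.at R.X = bits (cat n fun i => cat n fun j => [x i j]) →
    Runs core s (s.set R.X (bits (cat n fun i => cat n fun j => [x j i]))) (TB n m)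

/-- The time of the core. -/
def coreTime (C D k : ℕ) (Tb Tt : ℕ → ℕ) (n m : ℕ) : ℕ :=
  20000 * n ^ 2 + C * ((16 * n) ^ 2 * (17 * k + 8 * tinyT Tt k (16 * n) + 1)) +
    D * (k * (m + Tb m) + 256 * n ^ 2 * (4096 * k + 2048 * tinyT Tt k (16 * n) + 1))

theorem core2_spec {par dsw : Pr J E} {k : ℕ} {Tb Tt : ℕ → ℕ} {C D : ℕ}
    (hpar : ParSpec par k Tt C) (hd : DSpec dsw k Tb Tt D) :
    CoreSpecK 1572864 (core2 par dsw) (coreTime C D k Tb Tt) := by
  intro n m y s hn hm hidle hemp hHH hNN hMM hX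
  simp only [St.at] at hHH hNN hMM hX
  have emp : ∀ r : R, r ∉ [R.X, R.NN, R.MM, R.HH, R.INP, R.IN2] → s (Sum.inl r) = [] := by
    intro r hr
    simp only [List.mem_cons, List.not_mem_nil, or_false, not_or] at hr
    exact hemp r hr.1 hr.2.1 hr.2.2.1 hr.2.2.2.1 hr.2.2.2.2.1 hr.2.2.2.2.2
  have empD : ∀ q ∈ dScratch, s (Sum.inl q) = [] := by
    intro q hq
    refine emp q ?_
    revert hq; revert q; decide
  -- the starting store
  have e0 : s = cst s (bits (cat n fun i => cat n fun j => [y i j])) (una n) [] [] [] [] [] []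
      [] [] (una 1) := by
    funext q
    rcases q with q | q
    · cases q <;> first | rfl | exact emp _ (by decide) | exact hX | exact hNN | exact hHH
    · rfl
  set W : List (SSym E) := bits (cat n fun i => cat n fun j => [y i j]) with hW
  -- `16 n`
  have l1 := Runs.scaleOnto (v := (rg R.NN : Loc J)) (t' := rg R.S1) (i := rg R.PP) (by simp)
    (by simp) (by simp) 16 (mk (E := E)) mk (cst s W (una n) [] [] [] [] [] [] [] [] (una 1)) n
    rfl (emp _ (by decide))
  simp only [rg, updc_PP, cst_PP, List.append_nil] at l1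
  have l2 := cmds_spec (J := J) (E := E) [.rev R.NN R.P11]
    (cst s W (una n) [] [] (List.replicate (n * 16) mk) [] [] [] [] [] (una 1))
    ⟨by simp [Cmd.ok], trivial⟩
  simp only [costs, effs, Cmd.cost, Cmd.eff, St.at, cst_NN, cst_P11, updc_NN, updc_P11,
    List.append_nil, reverse_una, length_una] at l2
  -- the parameters
  obtain ⟨Ls, τ, hlen, hgood, l3⟩ := hpar (16 * n)
    (cst s W [] (una n) [] (List.replicate (n * 16) mk) [] [] [] [] [] (una 1)) (by omega)
    (by intro j; exact hidle j) (cst_dScratch empD _ _ _ _ _ _ _ _ _ _ _)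
    (by
      intro q hq
      simp only [List.mem_cons, List.not_mem_nil, or_false] at hq
      rcases hq with rfl | rfl | rfl | rfl | rfl | rfl
      · rfl
      · rfl
      · rfl
      · rfl
      · exact emp _ (by decide)
      · exact emp _ (by decide))
    (by simp [una, Nat.mul_comm])
  simp only [St.at, updc_PP, updc_MP, updc_PST, cst_PST, List.append_nil] at l3
  obtain ⟨hN1, hN2⟩ := siz_le_of_goodP hgood
  set N := siz Ls τ with hNdef
  have hnN : n ≤ N := by omega
  -- padding
  have l4 := cmd1_runs (emp R.S1 (by decide)) W (frames Ls τ) (una 1) n N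
  have l5 := pad2_runs (emp R.T (by decide)) (emp R.S3 (by decide)) (emp R.S4 (by decide)) n N
    hnN y (frames Ls τ) (una 1) (una 1)
  rw [← hW] at l5
  -- the swap
  set y' : ℕ → ℕ → Bool := fun i j => if i < n ∧ j < n then y i j else false with hy'
  have hM : 1 * N * 1 * N = N ^ 2 := by ring
  have hN3 : N ^ 2 ≤ 256 * n ^ 2 :=
    calc N ^ 2 ≤ (16 * n) ^ 2 := Nat.pow_le_pow_left hN1 2
      _ = 256 * n ^ 2 := by ring
  have l6 := hd Ls τ 1 1 m (fun _ a _ b => y' a b) []
    (cst s (bits (dig 1 N 1 fun _ a _ b => y' a b)) [] (una n) (una n) [] (una N)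
      (frames Ls τ) (una (N - n)) (una (N - n)) (una 1) (una 1)) hlen le_rfl le_rfl
    (by
      rw [← hNdef, hM]
      refine good_of_goodP ?_ (show 1 ≤ 16 * n by omega) hgood
      calc 6144 * N ^ 2 ≤ 6144 * (256 * n ^ 2) := Nat.mul_le_mul_left _ hN3
        _ = 1572864 * n ^ 2 := by ring
        _ ≤ m := hm)
    (by intro j; exact hidle j) (cst_dScratch empD _ _ _ _ _ _ _ _ _ _ _) rfl rfl hMM
    (by simp) rfl
  simp only [updc_X, updc_PST, updc_HH, updc_GG] at l6
  rw [← hNdef, hM, dig_one, dig_one N fun i j => y' j i] at l6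
  -- unpadding
  have l7 := unp2_runs (emp R.T (by decide)) (emp R.S3 (by decide)) (emp R.S4 (by decide)) n N
    hnN (fun i j => y' j i) [] [] []
  have l8 := cmd2_runs (s := s) (bits (cat n fun i => cat n fun j => [y' j i])) n N (N - n)
  have h := l1.seq (l2.seq (l3.seq (l4.seq (l5.seq (l6.seq (l7.seq l8))))))
  have hfin : cst s (bits (cat n fun i => cat n fun j => [y' j i])) (una n) [] [] [] [] [] []
      [] [] (una 1) = s.set R.X (bits (cat n fun i => cat n fun j => [y j i])) := by
    have e1 : (cat n fun i => cat n fun j => [y' j i]) = cat n fun i => cat n fun j => [y j i] := by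
      refine cat_congr fun i hi => cat_congr fun j hj => ?_
      rw [hy']
      simp only [hi, hj, and_self, if_true]
    rw [e1]
    calc cst s (bits (cat n fun i => cat n fun j => [y j i])) (una n) [] [] [] [] [] [] [] []
          (una 1) = Function.update (cst s W (una n) [] [] [] [] [] [] [] [] (una 1))
            (Sum.inl R.X) (bits (cat n fun i => cat n fun j => [y j i])) := (updc_X ..).symm
      _ = Function.update s (Sum.inl R.X) (bits (cat n fun i => cat n fun j => [y j i])) := by
          rw [← e0]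
  rw [← e0, hfin] at h
  refine h.mono ?_
  have b1 := PTime_le (T := Tt) (C := C) (N := 16 * n) (k := k) (L := 16 * n) (by omega) le_rfl
  have b2 := DTime_le (Tb := Tb) (Tt := Tt) (M := N ^ 2) (m := m) (D := D)
    (show 1 ≤ 16 * n by omega) hgood
  rw [hlen] at b2
  have b3 : D * (k * (m + Tb m) + N ^ 2 * (4096 * k + 2048 * tinyT Tt k (16 * n) + 1)) ≤
      D * (k * (m + Tb m) + 256 * n ^ 2 * (4096 * k + 2048 * tinyT Tt k (16 * n) + 1)) := by
    apply Nat.mul_le_mul_left
    apply Nat.add_le_add_left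
    exact Nat.mul_le_mul_right _ hN3
  have b4 : n ≤ n ^ 2 := Nat.le_self_pow (by norm_num) n
  have b5 : 30 * N ^ 2 ≤ 30 * (256 * n ^ 2) := Nat.mul_le_mul_left _ hN3
  have b6 : 20 * N ^ 2 ≤ 20 * (256 * n ^ 2) := Nat.mul_le_mul_left _ hN3
  unfold coreTime
  omega

end Vale.Agent.P338.S2
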