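import Vale.Agent.P338.H921.S2Core

/-!
# P338, second reduction: the transposing machines
-/

namespace Vale.Agent.P338.S2

variable {J E : Type}

/-! ### The size of the multiplications for rectangular matrices -/

/-- The size of the multiplications that are used for `a × b` matrices. -/
def mszK (K q ρ a b : ℕ) : ℕ :=
  if a ≤ b ∧ b - a ≤ a then K * a ^ 2 + q * (b - a) + ρ else K * (max a b) ^ 2

/-- `MM := K N ^ 2`. -/
def brBK (K : ℕ) : Prog TR (SSym E) :=
  (Prog.clear .S3).seq ((Prog.copyOnto .NN .S3 .T).seq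
        ((Prog.mulOnto .NN .S4 .S3 .T K .MM mk).seq (Prog.clear .S3)))

theorem brBK_runs (K N d : ℕ) (a b x s1 s2 : List (SSym E)) :
    Runs (brBK K) (tst a b x [] (una N) [] [] s1 s2 (una d) [])
      (tst a b x [] (una N) (una (K * N ^ 2)) [] s1 s2 [] [])
      ((2 * K + 8) * N ^ 2 + 17 * N + 3 * d + 6) := by
  have h0 := Runs.clear TR.S3
    (tst a b x [] (una N) [] [] s1 s2 (una d) [] : Store TR (SSym E))
  have h1 := Runs.copyOnto (a := TR.NN) (b := .S3) (t := .T) (by decide) (by decide) (by decide)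
    (tst a b x [] (una N) [] [] s1 s2 [] [] : Store TR (SSym E)) rfl
  have h2 := Runs.mulOnto (u := TR.NN) (t := .S4) (v := .S3) (t' := .T) (i := .MM) (by decide)
    (by decide) (by decide) (by decide) (by decide) (by decide) (by decide) (by decide)
    (by decide) (by decide) K mk mk mk
    (tst a b x [] (una N) [] [] s1 s2 (una N) [] : Store TR (SSym E)) N N rfl rfl rfl rfl
  have h3 := Runs.clear TR.S3
    (tst a b x [] (una N) (una (N * (N * K))) [] s1 s2 (una N) [] : Store TR (SSym E))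
  have h := (h0.of_eq (s'' := tst a b x [] (una N) [] [] s1 s2 [] []) (by simp)).seq
    ((h1.of_eq (s'' := tst a b x [] (una N) [] [] s1 s2 (una N) []) (by simp)).seq
    ((h2.of_eq (s'' := tst a b x [] (una N) (una (N * (N * K))) [] s1 s2 (una N) [])
      (by simp [una])).seq h3))
  refine (h.mono ?_).of_eq ?_
  · simp only [tst_NN, tst_S3, length_una]
    have e : N * (N * (2 * K + 8) + 8) = (2 * K + 8) * N ^ 2 + 8 * N := by ring
    omega
  · have e : N * (N * K) = K * N ^ 2 := by ring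
    simp [e]

/-- Put `mszK K q ρ a b` on `MM`. -/
def setMMK (K q ρ : ℕ) : Prog TR (SSym E) :=
  cmpSz.seq (Prog.ite (fun tp => !(tp .S1).isSome && !(tp .S3).isSome) (brA K q ρ) (brBK K))

theorem setMMK_runs (K q ρ a b : ℕ) (ha : 1 ≤ a) (x : List (SSym E)) :
    Runs (setMMK K q ρ)
      (tst (una a) (una b) x [] (una (max a b)) [] [] (una (a - b)) (una (b - a)) [] [])
      (tst (una a) (una b) x [] (una (max a b)) (una (mszK K q ρ a b)) [] (una (a - b))
        (una (b - a)) [] [])
      ((2 * K + 2 * q + 2 * ρ + 200) * (max a b) ^ 2) := by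
  have hN : a ≤ max a b ∧ b ≤ max a b := ⟨le_max_left _ _, le_max_right _ _⟩
  have h0 := cmpSz_runs a b x (una (max a b)) []
  unfold mszK
  by_cases hc : a ≤ b ∧ b - a ≤ a
  · rw [if_pos hc]
    have h1 := Runs.iteT (c := fun tp => !(tp .S1).isSome && !(tp .S3).isSome) (q := brBK K) (by
      simp only [tops_apply, tst_S1, tst_S3, isSome_una]
      simp
      omega) (brA_runs K q ρ a (b - a) (una b) x (una (max a b)) (una (a - b)))
    have e : (una (b - a - a) : List (SSym E)) = [] := by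
      have : b - a - a = 0 := by omega
      rw [this]; rfl
    rw [e] at h0
    refine (h0.seq h1).mono ?_
    generalize max a b = N at *
    have hd : b - a ≤ N := by omega
    generalize b - a = d at *
    have i0 : 1 ≤ N := by omega
    have i1 : N ≤ N ^ 2 := by nlinarith
    have i2 : (2 * K + 8) * a ^ 2 ≤ (2 * K + 8) * N ^ 2 :=
      Nat.mul_le_mul_left _ (Nat.pow_le_pow_left hN.1 2)
    have i3 : (2 * q + 8) * d ≤ (2 * q + 8) * N ^ 2 := Nat.mul_le_mul_left _ (hd.trans i1)
    have i4 : 2 * ρ * 1 ≤ 2 * ρ * N ^ 2 := Nat.mul_le_mul_left _ (i0.trans i1)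
    have i5 : (2 * K + 2 * q + 2 * ρ + 200) * N ^ 2 =
      (2 * K + 8) * N ^ 2 + (2 * q + 8) * N ^ 2 + 2 * ρ * N ^ 2 + 184 * N ^ 2 := by ring
    omega
  · rw [if_neg hc]
    have h1 := Runs.iteF (c := fun tp => !(tp .S1).isSome && !(tp .S3).isSome)
      (p := brA K q ρ) (by
      simp only [tops_apply, tst_S1, tst_S3, isSome_una]
      simp
      omega) (brBK_runs K (max a b) (b - a - a) (una a) (una b) x (una (a - b))
        (una (b - a)))
    refine (h0.seq h1).mono ?_
    generalize max a b = N at *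
    have hd : b - a - a ≤ N := by omega
    generalize b - a - a = d at *
    have i0 : 1 ≤ N := by omega
    have i1 : N ≤ N ^ 2 := by nlinarith
    have i5 : (2 * K + 2 * q + 2 * ρ + 200) * N ^ 2 =
      (2 * K + 8) * N ^ 2 + (2 * q + 2 * ρ) * N ^ 2 + 192 * N ^ 2 := by ring
    omega

/-- Preparations for rectangular matrices. -/
def preRectK (K q ρ : ℕ) : Prog TR (SSym E) :=
  (Prog.rev .IN .X).seq (readRows.seq (divRows.seq (maxi.seq (diffs.seq ((setMMK K q ρ).seq
    (padMat.seq ((Prog.clear .S1).seq ((Prog.clear .S2).seq (Prog.push .HH mk)))))))))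

theorem preRectK_runs (K q ρ a b : ℕ) (ha : 1 ≤ a) (sep : SSym E) (hsep : sep ≠ sb true)
    (x : ℕ → ℕ → Bool) :
    Runs (preRectK K q ρ)
      (tst (List.replicate a (sb true) ++ sep ::
        bits (cat a fun i => cat b fun j => [x i j])).reverse [] [] [] [] [] [] [] [] [] [])
      (tst (una a) (una b) (bits (cat (max a b) fun i => cat (max a b) fun j =>
          [if i < a ∧ j < b then x i j else false])) [] (una (max a b))
        (una (mszK K q ρ a b)) (una 1) [] [] [] [])
      ((2 * K + 2 * q + 2 * ρ + 1200) * (max a b) ^ 2) := by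
  have hlen : (bits (cat a fun i => cat b fun j => [x i j]) : List (SSym E)).length = b * a := by
    rw [length_bits, length_cat_of (L := b) (fun i _ => length_row b _), Nat.mul_comm]
  have h1 := Runs.rev (i := TR.IN) (j := .X) (by decide)
    (tst (List.replicate a (sb true) ++ sep ::
        bits (cat a fun i => cat b fun j => [x i j])).reverse [] [] [] [] [] [] [] [] [] [] :
        Store TR (SSym E))
  have h2 := readRows_runs a sep hsep (bits (cat a fun i => cat b fun j => [x i j])) [] []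
  have h3 := divRows_runs a b ha (bits (cat a fun i => cat b fun j => [x i j]) :
    List (SSym E)) hlen [] []
  have h4 := maxi_runs a b (bits (cat a fun i => cat b fun j => [x i j]) : List (SSym E))
    [] [] [] []
  have h5 := diffs_runs a b (bits (cat a fun i => cat b fun j => [x i j]) : List (SSym E))
    (una (max a b)) [] [] [] []
  have h6 := setMMK_runs K q ρ a b ha
    (bits (cat a fun i => cat b fun j => [x i j]) : List (SSym E))
  have h7 := padMat_runs (E := E) a b (max a b) (le_max_left _ _) (le_max_right _ _) x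
    (una (mszK K q ρ a b)) []
  have e1 : max a b - b = a - b := by omega
  have e2 : max a b - a = b - a := by omega
  rw [e1, e2] at h7
  have h8 := Runs.clear TR.S1 (tst (una a) (una b) (bits (cat (max a b) fun i =>
    cat (max a b) fun j => [if i < a ∧ j < b then x i j else false])) [] (una (max a b))
        (una (mszK K q ρ a b)) [] (una (a - b)) (una (b - a)) [] [] : Store TR (SSym E))
  have h9 := Runs.clear TR.S2 (tst (una a) (una b) (bits (cat (max a b) fun i =>
    cat (max a b) fun j => [if i < a ∧ j < b then x i j else false])) [] (una (max a b))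
        (una (mszK K q ρ a b)) [] [] (una (b - a)) [] [] : Store TR (SSym E))
  have h10 := Runs.push TR.HH mk (tst (una a) (una b) (bits (cat (max a b) fun i =>
    cat (max a b) fun j => [if i < a ∧ j < b then x i j else false])) [] (una (max a b))
        (una (mszK K q ρ a b)) [] [] [] [] [] : Store TR (SSym E))
  have h := (h1.of_eq (s'' := tst [] [] (List.replicate a (sb true) ++ sep ::
      bits (cat a fun i => cat b fun j => [x i j])) [] [] [] [] [] [] [] []) (by simp)).seq
    (h2.seq (h3.seq (h4.seq (h5.seq (h6.seq (h7.seq ((h8.of_eq (upd_S1 ..)).seq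
      ((h9.of_eq (upd_S2 ..)).seq h10))))))))
  refine (h.mono ?_).of_eq ?_
  · simp only [tst_IN, tst_S1, tst_S2, List.length_reverse, List.length_append,
      List.length_replicate, List.length_cons, hlen, length_una]
    have hN : a ≤ max a b ∧ b ≤ max a b := ⟨le_max_left _ _, le_max_right _ _⟩
    generalize max a b = N at *
    have i0 : 1 ≤ N := by omega
    have i1 : N ≤ N ^ 2 := by nlinarith
    have i2 : b * a ≤ N ^ 2 := by rw [sq]; exact Nat.mul_le_mul hN.2 hN.1
    have i3 : b * (8 * a + 5) = 8 * (b * a) + 5 * b := by ring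
    have i5 : (2 * K + 2 * q + 2 * ρ + 1200) * N ^ 2 =
      (2 * K + 2 * q + 2 * ρ + 200) * N ^ 2 + 1000 * N ^ 2 := by ring
    rw [i3, i5]
    omega
  · simp [una]

/-! ### The programs -/

theorem CoreSpecK.runs [DecidableEq J] {K₀ : ℕ} {core : Pr J E} {TB : ℕ → ℕ → ℕ}
    (hcore : CoreSpecK K₀ core TB) {n m : ℕ} (hn : 1 ≤ n) (hm : K₀ * n ^ 2 ≤ m)
    (x : ℕ → ℕ → Bool) (inp in2 : List (SSym E)) :
    Runs core (big (tst inp in2 (bits (cat n fun i => cat n fun j => [x i j])) [] (una n)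
        (una m) (una 1) [] [] [] []))
      (big (tst inp in2 (bits (cat n fun i => cat n fun j => [x j i])) [] (una n)
        (una m) (una 1) [] [] [] [])) (TB n m) := by
  have h := hcore n m x (big (tst inp in2 (bits (cat n fun i => cat n fun j => [x i j])) []
    (una n) (una m) (una 1) [] [] [] [])) hn hm
    (by
      intro j
      exact big_other _ (by intro r; cases r <;> simp [TR.loc]))
    (by
      intro r h1 h2 h3 h4 h5 h6
      by_cases hr : ∃ r' : TR, r'.loc = (Sum.inl r : Loc J)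
      · obtain ⟨r', hr'⟩ := hr
        change big _ (Sum.inl r) = []
        rw [← hr', big_loc]
        cases r' <;> simp_all [TR.loc]
      · exact big_other _ (by intro r' hr'; exact hr ⟨r', hr'⟩))
    (big_loc _ TR.HH) (big_loc _ TR.NN) (big_loc _ TR.MM) (big_loc _ TR.X)
  refine h.of_eq ?_
  funext k
  by_cases hk : ∃ r' : TR, r'.loc = k
  · obtain ⟨r', rfl⟩ := hk
    rw [big_loc]
    by_cases hX : r' = TR.X
    · subst hX
      exact Function.update_self ..
    · rw [St.set, Function.update_of_ne, big_loc]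
      · cases r' <;> simp_all
      · intro h
        exact hX (TR.loc_injective h)
  · have hk' : ∀ r' : TR, r'.loc ≠ k := fun r' hr' => hk ⟨r', hr'⟩
    have hX : k ≠ Sum.inl R.X := fun h => hk' TR.X h.symm
    rw [big_other _ hk', St.set, Function.update_of_ne hX, big_other _ hk']

/-- The program for square matrices. -/
noncomputable def sqProgK (K₀ : ℕ) (core : Pr J E) : Pr J E :=
  ((preSq K₀).map TR.loc).seq core

/-- The program for rectangular matrices. -/
noncomputable def rectProgK (K q ρ : ℕ) (core : Pr J E) : Pr J E :=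
  ((preRectK K q ρ).map TR.loc).seq (core.seq (postRect.map TR.loc))

/-- The program for square matrices is correct. -/
theorem sqProgK_runs [DecidableEq J] {K₀ : ℕ} {core : Pr J E} {TB : ℕ → ℕ → ℕ}
    (hcore : CoreSpecK K₀ core TB) {n : ℕ} (hn : 1 ≤ n) (x : ℕ → ℕ → Bool) :
    ∃ s' : St J E, Runs (sqProgK K₀ core)
      (Function.update (fun _ => []) (Sum.inl R.INP)
        (bits (cat n fun i => cat n fun j => [x i j])).reverse) s'
      ((2 * K₀ + 100) * n ^ 2 + TB n (K₀ * n ^ 2)) ∧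
      s' (Sum.inl R.X) = bits (cat n fun i => cat n fun j => [x j i]) := by
  have hlen : (bits (cat n fun i => cat n fun j => [x i j]) : List (SSym E)).length = n ^ 2 := by
    rw [length_bits, length_cat_of (L := n) (fun i _ => length_row n _), sq]
  have h1 := (preSq_runs K₀ n _ hlen).big (J := J)
  have h2 := hcore.runs hn le_rfl x [] []
  have h := (h1.seq h2).mono (t' := (2 * K₀ + 100) * n ^ 2 + TB n (K₀ * n ^ 2)) (by
    have i0 : n ≤ n ^ 2 := Nat.le_self_pow (by norm_num) n
    have i1 : (2 * K₀ + 100) * n ^ 2 = (2 * K₀ + 40) * n ^ 2 + 60 * n ^ 2 := by ring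
    omega)
  rw [big_input] at h
  exact ⟨_, h, big_loc _ TR.X⟩

/-- The program for rectangular matrices is correct. -/
theorem rectProgK_runs [DecidableEq J] {K₀ : ℕ} {core : Pr J E} {TB : ℕ → ℕ → ℕ}
    (hcore : CoreSpecK K₀ core TB) (K q ρ : ℕ) (hK : 4 * K₀ ≤ K) {a b : ℕ} (ha : 1 ≤ a)
    (sep : SSym E) (hsep : sep ≠ sb true) (x : ℕ → ℕ → Bool) :
    ∃ s' : St J E, Runs (rectProgK K q ρ core)
      (Function.update (fun _ => []) (Sum.inl R.INP)
        (List.replicate a (sb true) ++ sep ::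
          bits (cat a fun i => cat b fun j => [x i j])).reverse) s'
      ((2 * K + 2 * q + 2 * ρ + 2000) * (max a b) ^ 2 +
        TB (max a b) (mszK K q ρ a b)) ∧
      s' (Sum.inl R.X) = bits (cat b fun i => cat a fun j => [x j i]) := by
  have hmm : K₀ * (max a b) ^ 2 ≤ mszK K q ρ a b := by
    unfold mszK
    split_ifs with hc
    · have h1 : max a b ≤ 2 * a := by omega
      have h2 : (max a b) ^ 2 ≤ (2 * a) ^ 2 := Nat.pow_le_pow_left h1 2
      have h3 : (2 * a) ^ 2 = 4 * a ^ 2 := by ring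
      calc K₀ * (max a b) ^ 2 ≤ K₀ * (4 * a ^ 2) := Nat.mul_le_mul_left _ (h3 ▸ h2)
        _ = 4 * K₀ * a ^ 2 := by ring
        _ ≤ K * a ^ 2 := Nat.mul_le_mul_right _ hK
        _ ≤ K * a ^ 2 + q * (b - a) + ρ := by omega
    · exact Nat.mul_le_mul_right _ (by omega)
  have h1 := (preRectK_runs K q ρ a b ha sep hsep x).big (J := J)
  have h2 := hcore.runs (by omega) hmm
    (fun i j => if i < a ∧ j < b then x i j else false) (una a) (una b)
  have h3 := (postRect_runs a b ha (fun i j => if j < a ∧ i < b then x j i else false)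
    (una (max a b)) (una (mszK K q ρ a b)) (una 1)).big (J := J) (E := E)
  have h := (h1.seq (h2.seq h3)).mono (t' := (2 * K + 2 * q + 2 * ρ + 2000) * (max a b) ^ 2 +
        TB (max a b) (mszK K q ρ a b)) (by
    have i0 : 1 ≤ max a b := by omega
    have i1 : 1 ≤ (max a b) ^ 2 := Nat.one_le_pow _ _ i0
    have i2 : (2 * K + 2 * q + 2 * ρ + 2000) * (max a b) ^ 2 =
      (2 * K + 2 * q + 2 * ρ + 1200) * (max a b) ^ 2 + 800 * (max a b) ^ 2 := by ring
    omega)
  rw [big_input] at h
  refine ⟨_, h, (big_loc _ TR.X).trans ?_⟩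
  rw [tst_X]
  congr 1
  refine cat_congr fun i hi => cat_congr fun j hj => ?_
  rw [if_pos ⟨hj, hi⟩]

/-! ### The machines -/

variable [DecidableEq J]

/-- The machine for square matrices. -/
theorem exists_machine_sqK [Finite J] [Finite E] {K₀ : ℕ} {core : Pr J E} {TB : ℕ → ℕ → ℕ}
    (hcore : CoreSpecK K₀ core TB) :
    ∃ (B : TM) (C : ℕ), Transposes B ∧
      ∀ n : ℕ, 1 ≤ n → transTime B n ≤ C * (n ^ 2 + TB n (K₀ * n ^ 2)) := by
  obtain ⟨B, C, hB, hT⟩ := exists_transposes (sqProgK K₀ core) R.INP R.X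
    (fun n => (2 * K₀ + 100) * n ^ 2 + TB n (K₀ * n ^ 2)) (by
      intro n hn a
      obtain ⟨s', h1, h2⟩ := sqProgK_runs hcore hn (extMat a)
      refine ⟨s', ?_, ?_⟩
      · rw [startStore_bits (bitWord (rowMajor a))
          (bits (cat n fun i => cat n fun j => [extMat a i j]))
          (by rw [embS_bitWord, rowMajor_extMat])]
        exact h1
      · rw [rowMajor_transpose]
        exact h2)
  refine ⟨B, (2 * K₀ + 101) * C, hB, fun n hn => (hT n hn).trans ?_⟩
  rw [mul_comm (2 * K₀ + 101) C, mul_assoc]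
  apply Nat.mul_le_mul_left
  have h2 : TB n (K₀ * n ^ 2) * 1 ≤ TB n (K₀ * n ^ 2) * (2 * K₀ + 101) :=
    Nat.mul_le_mul_left _ (by omega)
  nlinarith

/-- The machines for rectangular matrices. -/
theorem exists_machine_rectK [Finite J] [Finite E] {K₀ : ℕ} {core : Pr J E} {TB : ℕ → ℕ → ℕ}
    (hcore : CoreSpecK K₀ core TB) (K q ρ : ℕ) (hK : 4 * K₀ ≤ K) :
    ∃ (B : TM) (C : ℕ), TransposesRect B ∧
      ∀ a b : ℕ, 1 ≤ a → 1 ≤ b →
        rectTime B a b ≤ C * ((max a b) ^ 2 + TB (max a b) (mszK K q ρ a b)) := by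
  obtain ⟨B, C, hB, hT⟩ := exists_transposesRect (rectProgK K q ρ core) R.INP R.X
    (fun a b => (2 * K + 2 * q + 2 * ρ + 2000) * (max a b) ^ 2 +
        TB (max a b) (mszK K q ρ a b)) (by
      intro a b ha hb x
      obtain ⟨s', h1, h2⟩ := rectProgK_runs hcore K q ρ hK ha (b := b) mk
        (by simp [mk, sb]) (extMat x)
      refine ⟨s', ?_, ?_⟩
      · rw [startStore_bits (rectInput x)
          (List.replicate a (sb true) ++ mk ::
            bits (cat a fun i => cat b fun j => [extMat x i j]))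
          (by
            unfold rectInput
            rw [List.map_append, List.map_cons, embS_bitWord, rowMajor_extMat,
              List.map_replicate]
            rfl)]
        exact h1
      · rw [rowMajor_transpose]
        exact h2)
  refine ⟨B, (2 * K + 2 * q + 2 * ρ + 2001) * C, hB, fun a b ha hb => (hT a b ha hb).trans ?_⟩
  rw [mul_comm _ C, mul_assoc]
  apply Nat.mul_le_mul_left
  have h1 : a * b ≤ (max a b) ^ 2 := by
    rw [sq]; exact Nat.mul_le_mul (le_max_left _ _) (le_max_right _ _)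
  have h2 : TB (max a b) (mszK K q ρ a b) * 1 ≤
      TB (max a b) (mszK K q ρ a b) * (2 * K + 2 * q + 2 * ρ + 2001) :=
    Nat.mul_le_mul_left _ (by omega)
  nlinarith

/-- The constant for which the core works. -/
def K2 : ℕ := 1572864

theorem coreTime_le (C D k : ℕ) (Tb Tt : ℕ → ℕ) (n m : ℕ) :
    coreTime C D k Tb Tt n m ≤ (20000 + 256 * C * (17 * k + 9) + D * k +
      256 * D * (4096 * k + 2049)) * (n ^ 2 + m + Tb m + n ^ 2 * tinyT Tt k (16 * n)) := by
  unfold coreTime
  set q := tinyT Tt k (16 * n)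
  have e1 : 17 * k + 8 * q + 1 ≤ (17 * k + 9) * (q + 1) := by nlinarith [Nat.zero_le (k * q)]
  have e2 : 4096 * k + 2048 * q + 1 ≤ (4096 * k + 2049) * (q + 1) := by
    nlinarith [Nat.zero_le (k * q)]
  have f1 : C * ((16 * n) ^ 2 * (17 * k + 8 * q + 1)) ≤
      256 * C * (17 * k + 9) * (n ^ 2 + n ^ 2 * q) :=
    calc C * ((16 * n) ^ 2 * (17 * k + 8 * q + 1))
        ≤ C * ((16 * n) ^ 2 * ((17 * k + 9) * (q + 1))) :=
          Nat.mul_le_mul_left _ (Nat.mul_le_mul_left _ e1)
      _ = 256 * C * (17 * k + 9) * (n ^ 2 + n ^ 2 * q) := by ring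
  have f2 : 256 * n ^ 2 * (4096 * k + 2048 * q + 1) ≤
      256 * (4096 * k + 2049) * (n ^ 2 + n ^ 2 * q) :=
    calc 256 * n ^ 2 * (4096 * k + 2048 * q + 1)
        ≤ 256 * n ^ 2 * ((4096 * k + 2049) * (q + 1)) := Nat.mul_le_mul_left _ e2
      _ = 256 * (4096 * k + 2049) * (n ^ 2 + n ^ 2 * q) := by ring
  set W := n ^ 2 + m + Tb m + n ^ 2 * q with hW
  have g1 : n ^ 2 ≤ W := by omega
  have g2 : n ^ 2 + n ^ 2 * q ≤ W := by omega
  have g3 : m + Tb m ≤ W := by omega
  calc 20000 * n ^ 2 + C * ((16 * n) ^ 2 * (17 * k + 8 * q + 1)) +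
        D * (k * (m + Tb m) + 256 * n ^ 2 * (4096 * k + 2048 * q + 1))
      ≤ 20000 * W + 256 * C * (17 * k + 9) * W +
        D * (k * W + 256 * (4096 * k + 2049) * W) := by
        refine Nat.add_le_add (Nat.add_le_add (Nat.mul_le_mul_left _ g1)
          (f1.trans (Nat.mul_le_mul_left _ g2))) (Nat.mul_le_mul_left _ ?_)
        exact Nat.add_le_add (Nat.mul_le_mul_left _ g3) (f2.trans (Nat.mul_le_mul_left _ g2))
    _ = (20000 + 256 * C * (17 * k + 9) + D * k +
      256 * D * (4096 * k + 2049)) * W := by ring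

/-- The machine for square matrices. -/
theorem exists_machine_sq2 [Finite J] [Finite E] {par dsw : Pr J E} {k : ℕ} {Tb Tt : ℕ → ℕ}
    {C D : ℕ} (hpar : ParSpec par k Tt C) (hd : DSpec dsw k Tb Tt D) :
    ∃ (B : TM) (C' : ℕ), Transposes B ∧ ∀ n : ℕ, 1 ≤ n →
      transTime B n ≤ C' * (n ^ 2 + Tb (K2 * n ^ 2) + n ^ 2 * tinyT Tt k (16 * n)) := by
  obtain ⟨B, C₁, hB, hT⟩ := exists_machine_sqK (core2_spec hpar hd)
  refine ⟨B, C₁ * (1 + (20000 + 256 * C * (17 * k + 9) + D * k +
      256 * D * (4096 * k + 2049)) * (K2 + 1)), hB, fun n hn => (hT n hn).trans ?_⟩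
  rw [mul_assoc]
  apply Nat.mul_le_mul_left
  have h := coreTime_le C D k Tb Tt n (1572864 * n ^ 2)
  set c := 20000 + 256 * C * (17 * k + 9) + D * k + 256 * D * (4096 * k + 2049)
  change n ^ 2 + coreTime C D k Tb Tt n (1572864 * n ^ 2) ≤
    (1 + c * (K2 + 1)) * (n ^ 2 + Tb (1572864 * n ^ 2) + n ^ 2 * tinyT Tt k (16 * n))
  set T1 := Tb (1572864 * n ^ 2)
  set q := tinyT Tt k (16 * n)
  have g : n ^ 2 + 1572864 * n ^ 2 + T1 + n ^ 2 * q ≤ (K2 + 1) * (n ^ 2 + T1 + n ^ 2 * q) := by
    have : (K2 + 1) * (n ^ 2 + T1 + n ^ 2 * q) = n ^ 2 + 1572864 * n ^ 2 + T1 + n ^ 2 * q +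
      1572864 * (T1 + n ^ 2 * q) := by unfold K2; ring
    omega
  calc n ^ 2 + coreTime C D k Tb Tt n (1572864 * n ^ 2)
      ≤ (n ^ 2 + T1 + n ^ 2 * q) + c * ((K2 + 1) * (n ^ 2 + T1 + n ^ 2 * q)) :=
        Nat.add_le_add (by omega) (h.trans (Nat.mul_le_mul_left _ g))
    _ = (1 + c * (K2 + 1)) * (n ^ 2 + T1 + n ^ 2 * q) := by ring

/-- The machines for rectangular matrices. -/
theorem exists_machine_rect2 [Finite J] [Finite E] {par dsw : Pr J E} {k : ℕ} {Tb Tt : ℕ → ℕ}
    {C D : ℕ} (hpar : ParSpec par k Tt C) (hd : DSpec dsw k Tb Tt D)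
    (K q ρ : ℕ) (hK : 4 * K2 ≤ K) :
    ∃ (B : TM) (C' : ℕ), TransposesRect B ∧ ∀ a b : ℕ, 1 ≤ a → 1 ≤ b →
      rectTime B a b ≤ C' * ((max a b) ^ 2 + Tb (mszK K q ρ a b) +
        (max a b) ^ 2 * tinyT Tt k (16 * max a b)) := by
  obtain ⟨B, C₁, hB, hT⟩ := exists_machine_rectK (core2_spec hpar hd) K q ρ hK
  refine ⟨B, C₁ * (1 + (20000 + 256 * C * (17 * k + 9) + D * k +
      256 * D * (4096 * k + 2049)) * (K + q + ρ + 1)), hB, fun a b ha hb =>
        (hT a b ha hb).trans ?_⟩
  rw [mul_assoc]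
  apply Nat.mul_le_mul_left
  have h := coreTime_le C D k Tb Tt (max a b) (mszK K q ρ a b)
  set c := 20000 + 256 * C * (17 * k + 9) + D * k + 256 * D * (4096 * k + 2049)
  have hm : mszK K q ρ a b ≤ (K + q + ρ) * (max a b) ^ 2 := by
    have hN : a ≤ max a b ∧ b ≤ max a b := ⟨le_max_left _ _, le_max_right _ _⟩
    unfold mszK
    split_ifs with hc
    · generalize max a b = N at *
      have i0 : 1 ≤ N := by omega
      have i1 : N ≤ N ^ 2 := Nat.le_self_pow (by norm_num) N
      have i2 : K * a ^ 2 ≤ K * N ^ 2 := Nat.mul_le_mul_left _ (Nat.pow_le_pow_left hN.1 2)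
      have i3 : q * (b - a) ≤ q * N ^ 2 := Nat.mul_le_mul_left _ (by omega)
      have i4 : ρ * 1 ≤ ρ * N ^ 2 := Nat.mul_le_mul_left _ (by omega)
      have i5 : (K + q + ρ) * N ^ 2 = K * N ^ 2 + q * N ^ 2 + ρ * N ^ 2 := by ring
      omega
    · exact Nat.mul_le_mul_right _ (by omega)
  set T1 := Tb (mszK K q ρ a b)
  set N := max a b
  set m := mszK K q ρ a b
  set u := tinyT Tt k (16 * N)
  have g : N ^ 2 + m + T1 + N ^ 2 * u ≤ (K + q + ρ + 1) * (N ^ 2 + T1 + N ^ 2 * u) := by
    have : (K + q + ρ + 1) * (N ^ 2 + T1 + N ^ 2 * u) = N ^ 2 + (K + q + ρ) * N ^ 2 + T1 +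
      N ^ 2 * u + (K + q + ρ) * (T1 + N ^ 2 * u) := by ring
    omega
  calc N ^ 2 + coreTime C D k Tb Tt N m
      ≤ (N ^ 2 + T1 + N ^ 2 * u) + c * ((K + q + ρ + 1) * (N ^ 2 + T1 + N ^ 2 * u)) :=
        Nat.add_le_add (by omega) (h.trans (Nat.mul_le_mul_left _ g))
    _ = (1 + c * (K + q + ρ + 1)) * (N ^ 2 + T1 + N ^ 2 * u) := by ring

end Vale.Agent.P338.S2
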