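import Vale.Agent.P338.H921.S2Transfer

/-!
# P338, second reduction: the logarithm as a lower bound
-/

namespace Vale.Agent.P338.S2

open Filter

theorem natLog_le_two_log {n : ℕ} (hn : 1 ≤ n) : (Nat.log 2 n : ℝ) ≤ 2 * Real.log n := by
  have h1 : ((2 ^ Nat.log 2 n : ℕ) : ℝ) ≤ n := by
    exact_mod_cast Nat.pow_log_le_self 2 (by omega)
  have h2 : Real.log ((2 ^ Nat.log 2 n : ℕ) : ℝ) ≤ Real.log n :=
    Real.log_le_log (by positivity) h1
  rw [Nat.cast_pow, Real.log_pow] at h2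
  have h3 := Real.log_two_gt_d9
  have h4 : (0 : ℝ) ≤ Nat.log 2 n := Nat.cast_nonneg _
  have h5 : (Nat.log 2 n : ℝ) * (1 / 2) ≤ Nat.log 2 n * Real.log (2 : ℕ) := by
    apply mul_le_mul_of_nonneg_left _ h4
    push_cast
    linarith
  have h6 := h5.trans h2
  linarith

/-- Powers of the double logarithm are small compared with the logarithm. -/
theorem loglog_pow_small (e : ℕ) (ε : ℝ) (hε : 0 < ε) : ∃ N : ℕ, ∀ n : ℕ, N ≤ n →
    ((Nat.log 2 (Nat.log 2 n) + 1 : ℕ) : ℝ) ^ e ≤ ε * Real.log n := by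
  have h1 := (Real.isLittleO_pow_log_id_atTop (n := e)).bound
    (show (0 : ℝ) < ε / (2 * 3 ^ e) by positivity)
  have h2 := (tendsto_natCast_atTop_atTop (R := ℝ)).eventually h1
  obtain ⟨X, hX⟩ := eventually_atTop.1 h2
  refine ⟨2 ^ (max X 3), fun n hn => ?_⟩
  set x := Nat.log 2 n with hx
  have hx3 : max X 3 ≤ x := by
    rw [hx]
    exact Nat.le_log_of_pow_le (by norm_num) hn
  have hxX : X ≤ x := (le_max_left _ _).trans hx3
  have hx3' : 3 ≤ x := (le_max_right _ _).trans hx3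
  have h3 := hX x hxX
  have hxR : (3 : ℝ) ≤ x := by exact_mod_cast hx3'
  have hlog1 : 1 ≤ Real.log x := by
    rw [Real.le_log_iff_exp_le (by linarith)]
    have := Real.exp_one_lt_d9
    linarith
  have h4 := natLog_le_two_log (n := x) (by omega)
  have hn1 : 1 ≤ n := le_trans Nat.one_le_two_pow hn
  have h5 := natLog_le_two_log hn1
  rw [← hx] at h5
  simp only [id, Real.norm_eq_abs] at h3
  rw [abs_of_nonneg (by positivity), abs_of_nonneg (by linarith)] at h3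
  have h6 : ((Nat.log 2 x + 1 : ℕ) : ℝ) ≤ 3 * Real.log x := by
    push_cast
    linarith
  calc ((Nat.log 2 x + 1 : ℕ) : ℝ) ^ e ≤ (3 * Real.log x) ^ e :=
        pow_le_pow_left₀ (by positivity) h6 e
    _ = 3 ^ e * Real.log x ^ e := by rw [mul_pow]
    _ ≤ 3 ^ e * (ε / (2 * 3 ^ e) * x) := mul_le_mul_of_nonneg_left h3 (by positivity)
    _ = ε / 2 * x := by
        have : (3 : ℝ) ^ e ≠ 0 := by positivity
        field_simp
    _ ≤ ε / 2 * (2 * Real.log n) := mul_le_mul_of_nonneg_left h5 (by positivity)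
    _ = ε * Real.log n := by ring

/-- `log ⌊√n⌋ ≥ (log n) / 4`. -/
theorem log_sqrt_ge {n : ℕ} (hn : 16 ≤ n) : Real.log n / 4 ≤ Real.log (Nat.sqrt n) := by
  set a := Nat.sqrt n with ha
  have ha4 : 4 ≤ a := by rw [ha, Nat.le_sqrt]; omega
  have h1 : n < (a + 1) * (a + 1) := Nat.lt_succ_sqrt _
  have h2 : n ≤ a ^ 4 := by
    have h3 : (a + 1) * (a + 1) ≤ a ^ 4 := by
      have : a + 1 ≤ a ^ 2 := by nlinarith
      calc (a + 1) * (a + 1) ≤ a ^ 2 * a ^ 2 := Nat.mul_le_mul this this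
        _ = a ^ 4 := by ring
    omega
  have h3 : Real.log n ≤ Real.log ((a : ℝ) ^ 4) := by
    apply Real.log_le_log
    · exact_mod_cast (by omega : 0 < n)
    · exact_mod_cast h2
  rw [Real.log_pow] at h3
  push_cast at h3
  linarith

/-- From a lower bound at the perfect squares: some length in `[n - 2 √n, n]`. -/
theorem window_of_squares {T : ℕ → ℕ}
    (h : ∃ c : ℝ, 0 < c ∧ ∃ N : ℕ, ∀ n : ℕ, N ≤ n →
      c * ((n : ℝ) ^ 2 * Real.log n) ≤ T (n ^ 2)) :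
    ∃ c : ℝ, 0 < c ∧ ∃ N : ℕ, 2 ≤ N ∧ ∀ n : ℕ, N ≤ n →
      ∃ k : ℕ, k ≤ n ∧ n ≤ k + 2 * Nat.sqrt n ∧ n ≤ 2 * k ∧
        c * ((n : ℝ) * Real.log n) ≤ T k := by
  obtain ⟨c, hc, N, hN⟩ := h
  refine ⟨c / 16, by positivity, max (N ^ 2) 16, by omega, fun n hn => ?_⟩
  have hnN : N ^ 2 ≤ n := (le_max_left _ _).trans hn
  have hn16 : 16 ≤ n := (le_max_right _ _).trans hn
  set a := Nat.sqrt n with ha
  have ha4 : 4 ≤ a := by rw [ha, Nat.le_sqrt]; omega
  have haN : N ≤ a := by rw [ha, Nat.le_sqrt, ← sq]; exact hnN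
  have h1 : n < (a + 1) * (a + 1) := Nat.lt_succ_sqrt _
  have h2 : a * a ≤ n := Nat.sqrt_le _
  have h3 : (a + 1) * (a + 1) = a * a + (2 * a + 1) := by ring
  have h4 : a ^ 2 = a * a := sq a
  have h5 : 4 * a ≤ a * a := Nat.mul_le_mul_right _ ha4
  refine ⟨a ^ 2, by omega, by omega, by omega, ?_⟩
  refine le_trans ?_ (hN a haN)
  have h6 := log_sqrt_ge hn16
  rw [← ha] at h6
  have h7 : (n : ℝ) ≤ 4 * (a : ℝ) ^ 2 := by
    have : n ≤ 4 * a ^ 2 := by omega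
    exact_mod_cast this
  have h8 : 0 ≤ Real.log n := Real.log_nonneg (by exact_mod_cast (by omega : 1 ≤ n))
  calc c / 16 * ((n : ℝ) * Real.log n) ≤ c / 16 * ((4 * (a : ℝ) ^ 2) * (4 * Real.log a)) := by
        apply mul_le_mul_of_nonneg_left _ (by positivity)
        exact mul_le_mul h7 (by linarith) h8 (by positivity)
    _ = c * ((a : ℝ) ^ 2 * Real.log a) := by ring

/-- From near-square shapes to all lengths, for the logarithm. -/
theorem log_of_sqrt {T : ℕ → ℕ}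
    (h : ∃ c : ℝ, 0 < c ∧ ∃ N : ℕ, 2 ≤ N ∧ ∀ n : ℕ, N ≤ n →
      c * ((n : ℝ) * Real.log (Nat.sqrt n)) ≤ T n) :
    ∃ c : ℝ, 0 < c ∧ ∃ N : ℕ, 2 ≤ N ∧ ∀ n : ℕ, N ≤ n → c * ((n : ℝ) * Real.log n) ≤ T n := by
  obtain ⟨c, hc, N, hN2, hN⟩ := h
  refine ⟨c / 4, by positivity, max N 16, by omega, fun n hn => ?_⟩
  have hnN : N ≤ n := (le_max_left _ _).trans hn
  have hn16 : 16 ≤ n := (le_max_right _ _).trans hn
  refine le_trans ?_ (hN n hnN)
  have h6 := log_sqrt_ge hn16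
  calc c / 4 * ((n : ℝ) * Real.log n) = c * ((n : ℝ) * (Real.log n / 4)) := by ring
    _ ≤ c * ((n : ℝ) * Real.log (Nat.sqrt n)) := by
        apply mul_le_mul_of_nonneg_left _ hc.le
        exact mul_le_mul_of_nonneg_left h6 (Nat.cast_nonneg _)

end Vale.Agent.P338.S2
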