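import Vale.Agent.P338.S2ParIface

/-!
# P338, second reduction: explicit bounds for the time
-/

namespace Vale.Agent.P338.S2

/-- The contribution of the tiny multiplications (`T (S_j) / S_j` on the levels
`j < k`) and of the innermost level. -/
def tinyT (T : ℕ → ℕ) : ℕ → ℕ → ℕ
  | 0, L => Nat.log 2 L
  | k + 1, L => T (tsz L) / tsz L + tinyT T k (nxt L)

theorem tm_one_le_nxt (L : ℕ) : 1 ≤ nxt L := le_max_left _ _

theorem tm_nxt_le {L : ℕ} (hL : 1 ≤ L) : nxt L ≤ L := by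
  have _ := hL
  unfold nxt
  have h := Nat.log_le_self 2 L
  omega

theorem tsz_pos {L : ℕ} (hL : 1 ≤ L) : 0 < tsz L := by
  have h : 0 < Nat.size L := Nat.size_pos.mpr (by omega)
  unfold tsz
  omega

theorem tsz_le_self {L : ℕ} (hL : 1 ≤ L) : tsz L ≤ 8 * L := by
  unfold tsz
  have h : Nat.size L ≤ L := Nat.size_le.mpr Nat.lt_two_pow_self
  omega

theorem T_le_div (T : ℕ → ℕ) {L : ℕ} (hL : 1 ≤ L) :
    T (tsz L) ≤ tsz L * (T (tsz L) / tsz L + 1) := by
  have h := Nat.lt_mul_div_succ (T (tsz L)) (tsz_pos hL)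
  exact h.le

/-- The time of the swap of the two digits. -/
theorem DTime_le {Tb Tt : ℕ → ℕ} {τ M m D : ℕ} : ∀ {Ls : List Lp} {L : ℕ}, 1 ≤ L →
    GoodP Ls τ L → DTime D Tb Tt Ls τ M m ≤ D * (Ls.length * (m + Tb m) +
      M * (4096 * Ls.length + 2048 * tinyT Tt Ls.length L + 1))
  | [], L, hL, h => by
    obtain ⟨h1, _⟩ := h
    have h2 : τ ≤ Nat.log 2 L := Nat.le_log_of_pow_le (by norm_num) h1
    simp only [DTime, List.length_nil, tinyT, Nat.zero_mul, Nat.mul_zero, Nat.zero_add]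
    apply Nat.mul_le_mul_left
    apply Nat.mul_le_mul_left
    omega
  | a :: Ls, L, hL, h => by
    have h1 := goodP_S_le hL h
    obtain ⟨⟨c1, c2, c3, c4, c5, c6, c7, c8, c9, _, _⟩, h3⟩ := h
    have ih := DTime_le (Tb := Tb) (Tt := Tt) (M := M) (m := m) (D := D) (tm_one_le_nxt L) h3
    have hS := tsz_pos hL
    have hT := T_le_div Tt hL
    rw [← c9] at hS hT
    -- `M / t * S ≤ 2048 * M`
    have e1 : M / a.t * a.S ≤ 2048 * M :=
      calc M / a.t * a.S ≤ M / a.t * (2048 * a.t) := Nat.mul_le_mul_left _ h1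
        _ = 2048 * (M / a.t * a.t) := by ring
        _ ≤ 2048 * M := Nat.mul_le_mul_left _ (Nat.div_mul_le_self _ _)
    have e2 : M / a.t * Tt a.S ≤ 2048 * M * (Tt a.S / a.S + 1) :=
      calc M / a.t * Tt a.S ≤ M / a.t * (a.S * (Tt a.S / a.S + 1)) := Nat.mul_le_mul_left _ hT
        _ = M / a.t * a.S * (Tt a.S / a.S + 1) := by ring
        _ ≤ 2048 * M * (Tt a.S / a.S + 1) := Nat.mul_le_mul_right _ e1
    simp only [DTime, List.length_cons, tinyT]
    rw [← c9]
    calc D * (m + Tb m + M / a.t * (a.S + Tt a.S)) + DTime D Tb Tt Ls τ M m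
        ≤ D * (m + Tb m + (2048 * M + 2048 * M * (Tt a.S / a.S + 1))) +
          D * (Ls.length * (m + Tb m) +
            M * (4096 * Ls.length + 2048 * tinyT Tt Ls.length (nxt L) + 1)) := by
          refine Nat.add_le_add (Nat.mul_le_mul_left _ ?_) ih
          rw [Nat.mul_add]
          omega
      _ = D * ((Ls.length + 1) * (m + Tb m) + M * (4096 * (Ls.length + 1) +
          2048 * (Tt a.S / a.S + tinyT Tt Ls.length (nxt L)) + 1)) := by ring

/-- The time for finding the parameters. -/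
theorem PTime_le {T : ℕ → ℕ} {C N : ℕ} : ∀ {k L : ℕ}, 1 ≤ L → L ≤ N →
    PTime C T k L ≤ C * (N ^ 2 * (17 * k + 8 * tinyT T k L + 1))
  | 0, L, hL, hN => by
    simp only [PTime]
    apply Nat.mul_le_mul_left
    have h : L ^ 2 ≤ N ^ 2 := Nat.pow_le_pow_left hN 2
    exact h.trans (Nat.le_mul_of_pos_right _ (by omega))
  | k + 1, L, hL, hN => by
    have ih := PTime_le (T := T) (C := C) (N := N) (k := k) (tm_one_le_nxt L)
      ((tm_nxt_le hL).trans hN)
    have hT := T_le_div T hL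
    have hS := tsz_le_self hL
    have h : L ^ 2 ≤ N ^ 2 := Nat.pow_le_pow_left hN 2
    simp only [PTime, tinyT]
    set q := T (tsz L) / tsz L with hq
    have e1 : L * tsz L ≤ 8 * N ^ 2 :=
      calc L * tsz L ≤ L * (8 * L) := Nat.mul_le_mul_left _ hS
        _ = 8 * L ^ 2 := by ring
        _ ≤ 8 * N ^ 2 := Nat.mul_le_mul_left _ h
    have e2 : L * T (tsz L) ≤ 8 * N ^ 2 * (q + 1) :=
      calc L * T (tsz L) ≤ L * (tsz L * (q + 1)) := Nat.mul_le_mul_left _ hT
        _ = L * tsz L * (q + 1) := by ring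
        _ ≤ 8 * N ^ 2 * (q + 1) := Nat.mul_le_mul_right _ e1
    calc C * (L ^ 2 + L * (tsz L + T (tsz L))) + PTime C T k (nxt L)
        ≤ C * (N ^ 2 + (8 * N ^ 2 + 8 * N ^ 2 * (q + 1))) +
          C * (N ^ 2 * (17 * k + 8 * tinyT T k (nxt L) + 1)) := by
          refine Nat.add_le_add (Nat.mul_le_mul_left _ ?_) ih
          rw [Nat.mul_add]
          omega
      _ = C * (N ^ 2 * (17 * (k + 1) + 8 * (q + tinyT T k (nxt L)) + 1)) := by ring

end Vale.Agent.P338.S2
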