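import Vale.Agent.P338.H921.S2Asym

/-!
# P338, second reduction: transfer of lower bounds
-/

namespace Vale.Agent.P338.S2

/-! ### Square matrices -/

/-- Transfer of a lower bound `n² φ(n)` for the transposition of square matrices. -/
theorem lower_sq {T M g : ℕ → ℕ} {φ : ℕ → ℝ} {B : TM} {C : ℕ}
    (hB : ∀ n : ℕ, 1 ≤ n → transTime B n ≤ C * (T (M n) + n ^ 2 * g n))
    (hφ : ∀ ε : ℝ, 0 < ε → ∃ N : ℕ, ∀ n : ℕ, N ≤ n → (g n : ℝ) ≤ ε * φ n)
    (h : ∃ c : ℝ, 0 < c ∧ ∃ N : ℕ, ∀ n : ℕ, N ≤ n → c * ((n : ℝ) ^ 2 * φ n) ≤ transTime B n) :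
    ∃ c : ℝ, 0 < c ∧ ∃ N : ℕ, ∀ n : ℕ, N ≤ n → c * ((n : ℝ) ^ 2 * φ n) ≤ T (M n) := by
  obtain ⟨c, hc, N, hN⟩ := h
  obtain ⟨N', hN'⟩ := hφ (c / (2 * (C + 1))) (by positivity)
  refine ⟨c / (2 * (C + 1)), by positivity, max (max N N') 1, fun n hn => ?_⟩
  have hnN : N ≤ n := (le_max_left _ _).trans ((le_max_left _ _).trans hn)
  have hnN' : N' ≤ n := (le_max_right _ _).trans ((le_max_left _ _).trans hn)
  have hn1 : 1 ≤ n := (le_max_right _ _).trans hn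
  have h1 := hN n hnN
  have h2 := hN' n hnN'
  have h3 : (transTime B n : ℝ) ≤ C * (T (M n) + (n : ℝ) ^ 2 * g n) := by
    exact_mod_cast hB n hn1
  have hC : (0 : ℝ) ≤ C := Nat.cast_nonneg _
  have hT : (0 : ℝ) ≤ T (M n) := Nat.cast_nonneg _
  have hn2 : (0 : ℝ) ≤ (n : ℝ) ^ 2 := by positivity
  have h4 : (n : ℝ) ^ 2 * g n ≤ (n : ℝ) ^ 2 * (c / (2 * (C + 1)) * φ n) :=
    mul_le_mul_of_nonneg_left h2 hn2
  have h5 : 0 ≤ (n : ℝ) ^ 2 * (c / (2 * (C + 1)) * φ n) :=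
    le_trans (by positivity) h4
  have h6 : c * ((n : ℝ) ^ 2 * φ n) ≤
      (C + 1) * (T (M n)) + (C + 1) * ((n : ℝ) ^ 2 * (c / (2 * (C + 1)) * φ n)) := by
    refine (h1.trans h3).trans ?_
    nlinarith
  have h7 : (C + 1 : ℝ) * ((n : ℝ) ^ 2 * (c / (2 * (C + 1)) * φ n)) =
      c * ((n : ℝ) ^ 2 * φ n) / 2 := by
    have : (C + 1 : ℝ) ≠ 0 := by positivity
    field_simp
  rw [h7] at h6
  have h8 : c * ((n : ℝ) ^ 2 * φ n) / 2 ≤ (C + 1) * T (M n) := by linarith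
  have h9 : c / (2 * (C + 1)) * ((n : ℝ) ^ 2 * φ n) =
      (c * ((n : ℝ) ^ 2 * φ n) / 2) / (C + 1) := by
    have : (C + 1 : ℝ) ≠ 0 := by positivity
    field_simp
  rw [h9, div_le_iff₀ (by positivity)]
  linarith

/-! ### Rectangular matrices -/

/-- Every length `n ≥ 1` is `a² + q (b - a) + ρ` for a near-square shape `(a, b)` with
`a = ⌊√n⌋`, for one of the `q` values `ρ < q`. -/
theorem exists_shape' {D n : ℕ} (hD : 1 ≤ D) (hn : 1 ≤ n) :
    ∃ b ρ : ℕ, ρ < 3 * D ∧ Nat.sqrt n ≤ b ∧ (b - Nat.sqrt n) * D ≤ Nat.sqrt n ∧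
      mszK 1 (3 * D) ρ (Nat.sqrt n) b = n := by
  set a := Nat.sqrt n with ha
  have ha1 : 1 ≤ a := by rw [ha, Nat.le_sqrt]; omega
  have h2 : a * a ≤ n := Nat.sqrt_le _
  have h3 : n < (a + 1) * (a + 1) := Nat.lt_succ_sqrt _
  set r := n - a * a with hr
  have h6 : r < 3 * a := by
    have : (a + 1) * (a + 1) = a * a + (2 * a + 1) := by ring
    omega
  have hq : 0 < 3 * D := by omega
  have h8 : a + r / (3 * D) - a = r / (3 * D) := Nat.add_sub_cancel_left _ _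
  refine ⟨a + r / (3 * D), r % (3 * D), Nat.mod_lt _ hq, Nat.le_add_right _ _, ?_, ?_⟩
  · rw [h8, ← Nat.div_div_eq_div_mul]
    calc r / 3 / D * D ≤ r / 3 := Nat.div_mul_le_self _ _
      _ ≤ a := by omega
  · have h9 : r / (3 * D) ≤ a := by
      apply Nat.div_le_of_le_mul
      calc r ≤ 3 * a := h6.le
        _ ≤ 3 * D * a := Nat.mul_le_mul_right _ (by omega)
    unfold mszK
    rw [if_pos ⟨Nat.le_add_right _ _, by rw [h8]; exact h9⟩, h8]
    have h10 := Nat.div_add_mod r (3 * D)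
    have h11 : 1 * a ^ 2 = a * a := by ring
    rw [h11]
    omega

/-- The double logarithm of numbers of similar size. -/
theorem loglog_le {a b : ℕ} (hb : b ≤ 2 * a) :
    Nat.log 2 (Nat.log 2 b) + 1 ≤ 2 * (Nat.log 2 (Nat.log 2 a) + 1) := by
  have h1 : Nat.log 2 b ≤ Nat.log 2 a + 1 := by
    rcases Nat.eq_zero_or_pos a with h | h
    · subst h
      have : b = 0 := by omega
      subst this
      simp
    · calc Nat.log 2 b ≤ Nat.log 2 (a * 2) := Nat.log_mono_right (by omega)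
        _ = Nat.log 2 a + 1 := Nat.log_mul_base (by norm_num) (by omega)
  rcases Nat.eq_zero_or_pos (Nat.log 2 a) with h | h
  · rw [h] at h1 ⊢
    have h2 : Nat.log 2 (Nat.log 2 b) ≤ Nat.log 2 1 := Nat.log_mono_right (by omega)
    rw [Nat.log_one_right] at h2
    omega
  · have h2 : Nat.log 2 (Nat.log 2 b) ≤ Nat.log 2 (Nat.log 2 a * 2) :=
      Nat.log_mono_right (by omega)
    rw [Nat.log_mul_base (by norm_num) (by omega)] at h2
    omega

/-- Transfer of a lower bound `a² φ(a)` for the transposition of near-square matrices, to all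
lengths. -/
theorem lower_rect {T : ℕ → ℕ} {φ : ℕ → ℝ} {e : ℕ} {δ : ℝ} (hδ : 0 < δ)
    (hmach : ∀ q ρ : ℕ, ∃ (B : TM) (C : ℕ), TransposesRect B ∧ ∀ a b : ℕ, 1 ≤ a → 1 ≤ b →
      rectTime B a b ≤ C * (T (mszK 1 q ρ a b) +
        (max a b) ^ 2 * (Nat.log 2 (Nat.log 2 (max a b)) + 1) ^ e))
    (hφ : ∀ ε : ℝ, 0 < ε → ∃ N : ℕ, ∀ n : ℕ, N ≤ n →
      ((Nat.log 2 (Nat.log 2 n) + 1 : ℕ) : ℝ) ^ e ≤ ε * φ n)
    (h : ∀ B : TM, TransposesRect B → ∃ c : ℝ, 0 < c ∧ ∃ N : ℕ, ∀ a b : ℕ, N ≤ a → a ≤ b →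
      (b : ℝ) ≤ (1 + δ) * a → c * ((a : ℝ) ^ 2 * φ a) ≤ rectTime B a b) :
    ∃ c : ℝ, 0 < c ∧ ∃ N : ℕ, 2 ≤ N ∧ ∀ n : ℕ, N ≤ n → c * ((n : ℝ) * φ (Nat.sqrt n)) ≤ T n := by
  obtain ⟨D, hD⟩ : ∃ D : ℕ, 1 / δ < D := exists_nat_gt _
  have hD1 : 1 ≤ D := by
    have : (0 : ℝ) < D := lt_trans (by positivity) hD
    exact_mod_cast this
  set q := 3 * D with hq
  have hqpos : 0 < q := by omega
  -- one value of `ρ`
  have step : ∀ ρ : ℕ, ∃ c : ℝ, 0 < c ∧ ∃ N : ℕ, ∀ a b : ℕ, N ≤ a → a ≤ b →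
      (b - a) * D ≤ a → 0 ≤ φ a ∧ c * ((a : ℝ) ^ 2 * φ a) ≤ T (mszK 1 q ρ a b) := by
    intro ρ
    obtain ⟨B, C, hB, hC⟩ := hmach q ρ
    obtain ⟨c, hc, N, hN⟩ := h B hB
    obtain ⟨N', hN'⟩ := hφ (c / (2 * (C + 1) * (4 * 2 ^ e))) (by positivity)
    obtain ⟨N'', hN''⟩ := hφ 1 (by norm_num)
    refine ⟨c / (2 * (C + 1)), by positivity, max (max N N') (max N'' 1),
      fun a b ha hab hbD => ?_⟩
    have haN : N ≤ a := (le_max_left _ _).trans ((le_max_left _ _).trans ha)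
    have haN' : N' ≤ a := (le_max_right _ _).trans ((le_max_left _ _).trans ha)
    have haN'' : N'' ≤ a := (le_max_left _ _).trans ((le_max_right _ _).trans ha)
    have ha1 : 1 ≤ a := (le_max_right _ _).trans ((le_max_right _ _).trans ha)
    have hb2 : b ≤ 2 * a := by
      have : b - a ≤ (b - a) * D := Nat.le_mul_of_pos_right _ (by omega)
      omega
    have hbδ : (b : ℝ) ≤ (1 + δ) * a := by
      have h1 : ((b - a : ℕ) : ℝ) * D ≤ a := by exact_mod_cast hbD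
      have h2 : ((b - a : ℕ) : ℝ) = b - a := by
        rw [Nat.cast_sub hab]
      rw [h2] at h1
      have h3 : (0 : ℝ) ≤ (b : ℝ) - a := by
        have : (a : ℝ) ≤ b := by exact_mod_cast hab
        linarith
      have h4 : (1 : ℝ) ≤ δ * D := by
        rw [div_lt_iff₀ hδ] at hD
        linarith
      nlinarith
    set m := mszK 1 q ρ a b with hmdef
    have hC0 : (0 : ℝ) ≤ C := Nat.cast_nonneg _
    have hT : (0 : ℝ) ≤ T m := Nat.cast_nonneg _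
    have h1 := hN a b haN hab hbδ
    have h2 := hN' a haN'
    have h2' := hN'' a haN''
    have hmax : max a b = b := max_eq_right hab
    have h3 : (rectTime B a b : ℝ) ≤
        C * (T m + (b : ℝ) ^ 2 * ((Nat.log 2 (Nat.log 2 b) + 1 : ℕ) : ℝ) ^ e) := by
      have := hC a b ha1 (by omega)
      rw [hmax] at this
      exact_mod_cast this
    have h4 : (b : ℝ) ^ 2 ≤ 4 * (a : ℝ) ^ 2 := by
      have : b ^ 2 ≤ (2 * a) ^ 2 := Nat.pow_le_pow_left hb2 2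
      have h5 : ((b ^ 2 : ℕ) : ℝ) ≤ ((2 * a) ^ 2 : ℕ) := by exact_mod_cast this
      push_cast at h5
      nlinarith
    have h5 : ((Nat.log 2 (Nat.log 2 b) + 1 : ℕ) : ℝ) ^ e ≤
        2 ^ e * ((Nat.log 2 (Nat.log 2 a) + 1 : ℕ) : ℝ) ^ e := by
      rw [← mul_pow]
      apply pow_le_pow_left₀ (by positivity)
      exact_mod_cast loglog_le hb2
    set G : ℝ := ((Nat.log 2 (Nat.log 2 a) + 1 : ℕ) : ℝ) ^ e with hG
    have hG0 : 0 ≤ G := by positivity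
    have hφ0 : 0 ≤ φ a := by
      have : G ≤ φ a := by linarith
      linarith
    refine ⟨hφ0, ?_⟩
    have h6 : (b : ℝ) ^ 2 * ((Nat.log 2 (Nat.log 2 b) + 1 : ℕ) : ℝ) ^ e ≤
        (4 * (a : ℝ) ^ 2) * (2 ^ e * (c / (2 * (C + 1) * (4 * 2 ^ e)) * φ a)) := by
      refine mul_le_mul h4 (h5.trans ?_) (by positivity) (by positivity)
      exact mul_le_mul_of_nonneg_left h2 (by positivity)
    have h7 : (4 * (a : ℝ) ^ 2) * (2 ^ e * (c / (2 * (C + 1) * (4 * 2 ^ e)) * φ a)) =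
        c / (2 * (C + 1)) * ((a : ℝ) ^ 2 * φ a) := by
      have : (C + 1 : ℝ) ≠ 0 := by positivity
      have h' : (2 : ℝ) ^ e ≠ 0 := by positivity
      field_simp
    rw [h7] at h6
    set X : ℝ := (a : ℝ) ^ 2 * φ a with hX
    have hX0 : 0 ≤ X := by positivity
    have h8 : c * X ≤ (C + 1) * (T m) + (C + 1) * (c / (2 * (C + 1)) * X) := by
      refine (h1.trans h3).trans ?_
      have h9 : 0 ≤ c / (2 * (C + 1)) * X := by positivity
      nlinarith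
    have h9 : (C + 1 : ℝ) * (c / (2 * (C + 1)) * X) = c * X / 2 := by
      have : (C + 1 : ℝ) ≠ 0 := by positivity
      field_simp
    rw [h9] at h8
    have h10 : c / (2 * (C + 1)) * X = (c * X / 2) / (C + 1) := by
      have : (C + 1 : ℝ) ≠ 0 := by positivity
      field_simp
    rw [h10, div_le_iff₀ (by positivity)]
    linarith
  choose c hc N hN using step
  have hne : (Finset.range q).Nonempty := ⟨0, Finset.mem_range.2 hqpos⟩
  set c₀ := (Finset.range q).inf' hne c with hc₀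
  have hc₀pos : 0 < c₀ := by
    rw [hc₀, Finset.lt_inf'_iff]
    exact fun i _ => hc i
  set N₀ := (Finset.range q).sup N with hN₀
  refine ⟨c₀ / 4, by positivity, N₀ ^ 2 + 2, by omega, fun n hn => ?_⟩
  obtain ⟨b, ρ, hρ, hab, hbD, hmn⟩ := exists_shape' (D := D) (n := n) hD1 (by omega)
  set a := Nat.sqrt n with ha
  have haN : N ρ ≤ a := by
    have h1 : N ρ ≤ N₀ := Finset.le_sup (f := N) (Finset.mem_range.2 hρ)
    have h2 : N₀ ≤ a := by
      rw [ha, Nat.le_sqrt, ← sq]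
      omega
    omega
  obtain ⟨h0, h1⟩ := hN ρ a b haN hab hbD
  rw [hmn] at h1
  refine le_trans ?_ h1
  have h2 : (n : ℝ) ≤ 4 * (a : ℝ) ^ 2 := by
    have h3 : n < (a + 1) * (a + 1) := Nat.lt_succ_sqrt _
    have ha1 : 1 ≤ a := by rw [ha, Nat.le_sqrt]; omega
    have h4 : n ≤ 4 * a ^ 2 := by nlinarith
    exact_mod_cast h4
  have h3 : c₀ ≤ c ρ := Finset.inf'_le _ (Finset.mem_range.2 hρ)
  calc c₀ / 4 * ((n : ℝ) * φ a) ≤ c₀ / 4 * ((4 * (a : ℝ) ^ 2) * φ a) := by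
        apply mul_le_mul_of_nonneg_left _ (by positivity)
        exact mul_le_mul_of_nonneg_right h2 h0
    _ = c₀ * ((a : ℝ) ^ 2 * φ a) := by ring
    _ ≤ c ρ * ((a : ℝ) ^ 2 * φ a) := mul_le_mul_of_nonneg_right h3 (by positivity)

end Vale.Agent.P338.S2
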