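import Vale.Agent.P338.H921.GBitsA

/-!
# P338, matrices of every shape: inverse shuffles, for matrices with few rows
-/

namespace Vale.Agent.P338.GS.Top

open Vale.Agent.P338

variable {E : Type}

/-- One word from each half. -/
def pairQ : PT E := (Prog.movs .z .n1 .n6 .y).seq (Prog.movs .z .n1 .x .y)

theorem runs_pairQ (b b' : List (SSym E)) (w : ℕ) (hb : b.length = w) (hb' : b'.length = w)
    (r r' Y : List (SSym E)) (K : GT E) :
    Runs pairQ ({K with z := una w, n1 := [], n6 := b ++ r', x := b' ++ r,
                        y := Y} : GT E).st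
      ({K with z := una w, n1 := [], n6 := r', x := r,
               y := (b ++ b').reverse ++ Y} : GT E).st (16 * w + 3) := by
  have h1 := Runs.movs (u := Gr.z) (t := .n1) (x := .n6) (y := .y) (by decide) (by decide)
    (by decide) (by decide) (by decide) (by decide) mk
    ({K with z := una w, n1 := [], n6 := b ++ r', x := b' ++ r, y := Y} : GT E).st
    b r' (by rw [hb]; rfl) rfl rfl
  rw [upd_n6, upd_y, hb] at h1
  have h2 := Runs.movs (u := Gr.z) (t := .n1) (x := .x) (y := .y) (by decide) (by decide)
    (by decide) (by decide) (by decide) (by decide) mk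
    ({K with z := una w, n1 := [], n6 := r', x := b' ++ r, y := b.reverse ++ Y} : GT E).st
    b' r (by rw [hb']; rfl) rfl rfl
  rw [upd_x, upd_y, hb'] at h2
  refine ((h1.seq h2).mono (by omega)).of_eq ?_
  rw [List.reverse_append, List.append_assoc]
  rfl

/-- One inverse shuffle of a block. -/
def undealB : PT E :=
  (Prog.forr .n3 .n2 (Prog.movs .z .n1 .x .n4)).seq ((Prog.rev .n4 .n6).seq
    (Prog.forr .n3 .n2 pairQ))

theorem runs_undealB (w H : ℕ) (P Q : ℕ → List (SSym E)) (hP : ∀ q, (P q).length = w)
    (hQ : ∀ q, (Q q).length = w) (r Y : List (SSym E)) (K : GT E) :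
    Runs undealB ({K with z := una w, n1 := [], n2 := [], n3 := una H, n4 := [], n5 := [],
                          n6 := [], x := cat H P ++ (cat H Q ++ r), y := Y} : GT E).st
      ({K with z := una w, n1 := [], n2 := [], n3 := una H, n4 := [], n5 := [],
               n6 := [], x := r, y := (cat H fun q => P q ++ Q q).reverse ++ Y} : GT E).st
      (28 * (H * w) + 18 * H + 5) := by
  have h1 := runs_forr_cat (u := Gr.n3) (t := .n2) (x := .x) (y := .n4) (by decide)
    (by decide) (by decide) (by decide) (by decide) (body := Prog.movs .z .n1 .x .n4) mk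
    (8 * w + 1)
    ({K with z := una w, n1 := [], n2 := [], n3 := una H, n4 := [], n5 := [],
             n6 := [], x := cat H P ++ (cat H Q ++ r), y := Y} : GT E).st H P P
    (cat H Q ++ r) rfl rfl rfl
    (by
      intro k hk l₁ l₂ r' Y'
      simp only [upd_x, upd_n4, upd_n3, upd_n2]
      have := Runs.movs (u := Gr.z) (t := .n1) (x := .x) (y := .n4) (by decide) (by decide)
        (by decide) (by decide) (by decide) (by decide) mk
        ({K with z := una w, n1 := [], n2 := l₂, n3 := l₁, n4 := Y', n5 := [],
                 n6 := [], x := P k ++ r', y := Y} : GT E).st (P k) r' (by rw [hP]; rfl)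
        rfl rfl
      rw [upd_x, upd_n4, hP] at this
      exact this)
  rw [upd_x, upd_n4] at h1
  have lP : (cat H P).length = H * w := length_cat_of fun i _ => hP i
  have h2 := Runs.rev (i := Gr.n4) (j := .n6) (by decide)
    ({K with z := una w, n1 := [], n2 := [], n3 := una H, n4 := (cat H P).reverse,
             n5 := [], n6 := [], x := cat H Q ++ r, y := Y} : GT E).st
  have h3 := Runs.forr' (u := Gr.n3) (t := .n2) (by decide) (body := (pairQ : PT E)) H mk
    (fun k => ({K with z := una w, n1 := [], n2 := [], n3 := una H, n4 := [], n5 := [],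
                       n6 := cat (H - k) fun q => P (k + q),
                       x := (cat (H - k) fun q => Q (k + q)) ++ r,
                       y := (cat k fun q => P q ++ Q q).reverse ++ Y} : GT E).st)
    (fun _ => 16 * w + 3) (fun _ _ => rfl) (fun _ _ => rfl)
    (by
      intro k hk l l'
      simp only [upd_n3, upd_n2]
      obtain ⟨m, hm⟩ : ∃ m, H - k = m + 1 := ⟨H - k - 1, by omega⟩
      have e : ∀ F : ℕ → List (SSym E), (cat (H - k) fun q => F (k + q)) =
          F k ++ cat (H - (k + 1)) fun q => F (k + 1 + q) := by
        intro F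
        rw [hm, cat_succ', show H - (k + 1) = m by omega, Nat.add_zero]
        congr 1
        refine cat_congr fun i _ => ?_
        rw [show k + (i + 1) = k + 1 + i by omega]
      rw [e P, e Q, List.append_assoc, cat_succ, List.reverse_append, List.append_assoc]
      exact runs_pairQ (P k) (Q k) w (hP k) (hQ k) _ _ _
        {K with n2 := l', n3 := l, n4 := [], n5 := []})
  simp only [Nat.sub_zero, Nat.zero_add, Nat.sub_self, cat_zero, List.reverse_nil,
    List.nil_append] at h3
  simp only [GT.st, List.length_reverse, List.reverse_reverse, List.append_nil, lP] at h2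
  have g1 := h1.of_eq (s'' :=
    ({K with z := una w, n1 := [], n2 := [], n3 := una H, n4 := (cat H P).reverse, n5 := [],
             n6 := [], x := cat H Q ++ r, y := Y} : GT E).st) (by
    have : ∀ l : List (SSym E), l ++ [] = l := List.append_nil
    show
      ({K with z := una w, n1 := [], n2 := [], n3 := una H, n4 := (cat H P).reverse ++ [],
               n5 := [], n6 := [], x := cat H Q ++ r, y := Y} : GT E).st = _
    rw [this])
  have g2 : Runs _ _
      ({K with z := una w, n1 := [], n2 := [], n3 := una H, n4 := [], n5 := [],
               n6 := cat H P, x := cat H Q ++ r, y := Y} : GT E).st _ :=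
    h2.of_eq (by rw [upd_n4, upd_n6])
  refine (g1.seq (g2.seq h3)).mono ?_
  rw [Finset.sum_const, Finset.card_range, smul_eq_mul]
  have e1 : H * (8 * w + 1 + 7) = 8 * (H * w) + 8 * H := by ring
  have e2 : H * (16 * w + 3 + 4) = 16 * (H * w) + 7 * H := by ring
  omega

/-- One inverse shuffle of all blocks. -/
def undealP : PT E := (Prog.forr .h .n7 undealB).seq (Prog.rev .y .x)

theorem runs_undealP (X w H : ℕ) (P Q : ℕ → ℕ → List (SSym E))
    (hP : ∀ x q, (P x q).length = w) (hQ : ∀ x q, (Q x q).length = w) (K : GT E) :
    Runs undealP ({K with h := una X, z := una w, n1 := [], n2 := [], n3 := una H,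
                          n4 := [], n5 := [], n6 := [], n7 := [],
                          x := cat X fun x => cat H (P x) ++ cat H (Q x), y := []} :
        GT E).st
      ({K with h := una X, z := una w, n1 := [], n2 := [], n3 := una H, n4 := [], n5 := [],
               n6 := [], n7 := [], x := cat X fun x => cat H fun q => P x q ++ Q x q,
               y := []} : GT E).st (34 * (X * (H * w)) + 18 * (X * H) + 12 * X + 2) := by
  have h1 := runs_forr_cat (u := Gr.h) (t := .n7) (x := .x) (y := .y) (by decide) (by decide)
    (by decide) (by decide) (by decide) (body := undealB) mk (28 * (H * w) + 18 * H + 5)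
    ({K with h := una X, z := una w, n1 := [], n2 := [], n3 := una H, n4 := [], n5 := [],
             n6 := [], n7 := [], x := cat X fun x => cat H (P x) ++ cat H (Q x),
             y := []} : GT E).st X
    (fun x => cat H (P x) ++ cat H (Q x)) (fun x => cat H fun q => P x q ++ Q x q) []
    rfl rfl (by rw [List.append_nil]; rfl)
    (by
      intro k hk l₁ l₂ r' Y'
      simp only [upd_x, upd_y, upd_h, upd_n7]
      rw [List.append_assoc]
      exact runs_undealB w H (P k) (Q k) (hP k) (hQ k) r' Y' {K with h := l₁, n7 := l₂})
  rw [upd_x, upd_y] at h1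
  have hl : (cat X fun x => cat H fun q => P x q ++ Q x q).length = 2 * (X * (H * w)) := by
    rw [length_cat_of (L := 2 * (H * w))]
    · ring
    · intro x _
      rw [length_cat_of (L := 2 * w)]
      · ring
      · intro q _
        rw [List.length_append, hP, hQ]
        ring
  have h2 := Runs.rev (i := Gr.y) (j := .x) (by decide)
    ({K with h := una X, z := una w, n1 := [], n2 := [], n3 := una H, n4 := [], n5 := [],
             n6 := [], n7 := [], x := [],
             y := (cat X fun x => cat H fun q => P x q ++ Q x q).reverse ++ []} : GT E).st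
  simp only [GT.st, List.append_nil, List.length_reverse, List.reverse_reverse, hl] at h2
  have g2 : Runs _ _ ({K with h := una X, z := una w, n1 := [], n2 := [], n3 := una H,
                              n4 := [], n5 := [], n6 := [], n7 := [],
                              x := cat X fun x => cat H fun q => P x q ++ Q x q,
                              y := []} :
      GT E).st _ := h2.of_eq (by rw [upd_y, upd_x])
  have g1 := h1.of_eq (s'' :=
    ({K with h := una X, z := una w, n1 := [], n2 := [],
             n3 := una H, n4 := [], n5 := [], n6 := [], n7 := [], x := [],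
             y := (cat X fun x => cat H fun q => P x q ++ Q x q).reverse} : GT E).st) (by
    have : ∀ l : List (SSym E), l ++ [] = l := List.append_nil
    show
      ({K with h := una X, z := una w, n1 := [], n2 := [],
               n3 := una H, n4 := [], n5 := [], n6 := [], n7 := [], x := [],
               y := (cat X fun x => cat H fun q => P x q ++ Q x q).reverse ++ []} :
        GT E).st = _
    rw [this])
  refine (g1.seq g2).mono ?_
  have : X * (28 * (H * w) + 18 * H + 5 + 7) = 28 * (X * (H * w)) + 18 * (X * H) + 12 * X := by
    ring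
  omega

/-! ### All inverse shuffles -/

/-- Transpose by inverse shuffles. -/
def undealsP : PT E := halfP.seq ((Prog.forr .u .n8 undealP).seq (Prog.clear .n3))

theorem runs_undealsP (X u v w : ℕ) (hX : 1 ≤ X) (hu : 1 ≤ u) (hw : 1 ≤ w)
    (e : ℕ → ℕ → ℕ → List (SSym E))
    (he : ∀ x i j, (e x i j).length = w) (K : GT E) :
    Runs undealsP ({K with h := una X, z := una w, u := una u, v := una v, n1 := [],
                           n2 := [], n3 := [], n4 := [], n5 := [], n6 := [], n7 := [],
                           n8 := [], x := A3 X (2 ^ u) (2 ^ v) e, y := []} : GT E).st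
      ({K with h := una X, z := una w, u := una u, v := una v, n1 := [], n2 := [],
               n3 := [], n4 := [], n5 := [], n6 := [], n7 := [], n8 := [],
               x := A3 X (2 ^ v) (2 ^ u) fun x j i => e x i j, y := []} : GT E).st
      (100 * (X * 2 ^ (u + v) * w) * (u + 1)) := by
  have h1 := runs_halfP (E := E) u v (by omega)
    {K with h := una X, z := una w, n6 := [], n7 := [], n8 := [],
            x := A3 X (2 ^ u) (2 ^ v) e, y := []}
  have h2 := Runs.forr' (u := Gr.u) (t := .n8) (by decide) (body := (undealP : PT E)) u mk
    (fun s => ({K with h := una X, z := una w, u := una u, v := una v, n1 := [], n2 := [],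
                       n3 := una (2 ^ (u + v - 1)), n4 := [], n5 := [], n6 := [], n7 := [],
                       n8 := [], x := dS X v u (u - s) fun x j i => e x i j,
                       y := []} : GT E).st)
    (fun _ => 34 * (X * (2 ^ (u + v - 1) * w)) + 18 * (X * 2 ^ (u + v - 1)) + 12 * X + 2)
    (fun _ _ => rfl) (fun _ _ => rfl)
    (by
      intro s hs l l'
      simp only [upd_u, upd_n8]
      obtain ⟨s', hs'⟩ : ∃ s', u - (s + 1) = s' := ⟨_, rfl⟩
      rw [hs', show u - s = s' + 1 by omega, dS_eq X v u s' (by omega),
        dS_succ X v u s' (by omega), Nat.add_comm v u]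
      exact runs_undealP X w (2 ^ (u + v - 1)) (dP v u s' fun x j i => e x i j)
        (dQ v u s' fun x j i => e x i j) (fun x q => he _ _ _) (fun x q => he _ _ _)
        {K with u := l, v := una v, n8 := l'})
  simp only [Nat.sub_zero, Nat.sub_self, dS_zero, dS_last] at h2
  have h3 := Runs.clear Gr.n3
    ({K with h := una X, z := una w, u := una u, v := una v, n1 := [], n2 := [],
             n3 := una (2 ^ (u + v - 1)), n4 := [], n5 := [], n6 := [], n7 := [],
             n8 := [], x := A3 X (2 ^ v) (2 ^ u) fun x j i => e x i j, y := []} : GT E).st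
  simp only [GT.st, length_una] at h3
  have g3 := h3.of_eq (upd_n3 _ _)
  refine (h1.seq (h2.seq g3)).mono ?_
  rw [Finset.sum_const, Finset.card_range, smul_eq_mul]
  have s2 : 2 ^ (u + v) = 2 * 2 ^ (u + v - 1) := by
    rw [← pow_succ']
    congr 1
    omega
  set H := 2 ^ (u + v - 1) with hH
  have hH1 : 1 ≤ H := Nat.one_le_two_pow
  rw [s2]
  have t1 : X ≤ X * H := Nat.le_mul_of_pos_right _ hH1
  have t2 : X * H ≤ X * (H * w) := Nat.mul_le_mul_left _ (Nat.le_mul_of_pos_right _ hw)
  have t3 : H ≤ X * H := Nat.le_mul_of_pos_left _ hX
  set D := X * (H * w) with hD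
  have t4 : 34 * D + 18 * (X * H) + 12 * X + 2 + 4 ≤ 70 * D := by omega
  have t5 := Nat.mul_le_mul_left u t4
  have t6 : 100 * (X * (2 * H) * w) * (u + 1) = 200 * (u * D) + 200 * D := by
    rw [hD]
    ring
  have t7 : u * (70 * D) = 70 * (u * D) := by ring
  have t8 : u ≤ u * D := Nat.le_mul_of_pos_right _ (by omega)
  rw [t6]
  rw [t7] at t5
  omega

end Vale.Agent.P338.GS.Top
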