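import Vale.Agent.P338.GS.Iface2
import Vale.Agent.P338.H921.T2A
import Vale.Agent.P338.H921.GBitsE

/-!
# P338, matrices of every shape: the parameter `g`
-/

namespace Vale.Agent.P338.GS.Top

open Vale.Agent.P338

variable {E : Type}

/-! ### Numbers -/

/-- The number `g` for words of `2 ^ π` bits. -/
def gO (π : ℕ) : ℕ := π - Nat.size π + 3

theorem size_le_self' (π : ℕ) : Nat.size π ≤ π := by
  rw [Nat.size_le]
  exact Nat.lt_two_pow_self

theorem two_pow_size_gt {π : ℕ} (h : 1 ≤ π) : 2 ^ Nat.size π ≤ 2 * π := two_pow_size_le h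

theorem le_wL_gO {π : ℕ} (h : 1 ≤ π) : 2 ^ π ≤ wL (gO π) := by
  have h1 := two_pow_size_gt h
  have h2 := size_le_self' π
  have h3 : 1 ≤ Nat.size π := Nat.size_pos.2 h
  unfold wL gO
  generalize Nat.size π = s at *
  rcases Nat.lt_or_ge s 2 with h4 | h4
  · have h5 : s = 1 := by omega
    subst h5
    have e1 : π - 1 + 3 - 1 = (π - 1) + 1 + 1 := by omega
    rw [e1, pow_succ, pow_succ]
    have e2 : 2 ^ π = 2 ^ (π - 1) * 2 := by
      rw [← pow_succ]
      congr 1
      omega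
    rw [e2]
    calc 2 ^ (π - 1) * 2 ≤ 2 ^ (π - 1) * 2 * 2 * 1 := by omega
      _ ≤ 2 ^ (π - 1) * 2 * 2 * (π - 1 + 3) := Nat.mul_le_mul_left _ (by omega)
  · obtain ⟨k, rfl⟩ : ∃ k, s = k + 2 := ⟨s - 2, by omega⟩
    have e1 : π - (k + 2) + 3 - 1 = π - k := by omega
    have e2 : 2 ^ π = 2 ^ (π - k) * 2 ^ k := by
      rw [← pow_add]
      congr 1
      omega
    rw [e1, e2]
    apply Nat.mul_le_mul_left
    have e3 : 2 ^ (k + 2) = 4 * 2 ^ k := by rw [pow_add]; ring
    have e4 : k < 2 ^ k := Nat.lt_two_pow_self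
    omega

theorem wL_gO_le {π : ℕ} (h : 1 ≤ π) : wL (gO π) ≤ 8 * 2 ^ π := by
  have h1 : π < 2 ^ Nat.size π := Nat.lt_size_self π
  have h2 := size_le_self' π
  have h3 : 1 ≤ Nat.size π := Nat.size_pos.2 h
  unfold wL gO
  generalize Nat.size π = s at *
  have e1 : π - s + 3 - 1 = π - s + 2 := by omega
  have e2 : 2 ^ π = 2 ^ (π - s) * 2 ^ s := by
    rw [← pow_add]
    congr 1
    omega
  rw [e1, e2, pow_add]
  have e3 : π - s + 3 ≤ 2 * 2 ^ s := by
    have : 2 ≤ 2 ^ s := by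
      calc 2 = 2 ^ 1 := rfl
        _ ≤ 2 ^ s := Nat.pow_le_pow_right (by norm_num) h3
    omega
  calc 2 ^ (π - s) * 2 ^ 2 * (π - s + 3) ≤ 2 ^ (π - s) * 2 ^ 2 * (2 * 2 ^ s) :=
        Nat.mul_le_mul_left _ e3
    _ = 8 * (2 ^ (π - s) * 2 ^ s) := by ring

theorem gO_le (π : ℕ) : gO π ≤ π + 3 := by
  unfold gO
  omega

theorem one_le_gO (π : ℕ) : 1 ≤ gO π := by
  unfold gO
  omega

/-! ### The state -/

/-- The stacks during the main program. -/
def KN (K : GT E) (X u v w m pe t lw g : ℕ) (P Q D n1 : List (SSym E)) : GT E :=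
  {K with h := una X, u := una u, v := una v, z := una w, m := una m, pe := una pe, pl := Q,
          t := una t, l := una lw, sv := una g, inp := P, x := D, y := [], n1 := n1,
          n2 := [], n3 := [], n4 := [], n5 := [], n6 := [], n7 := [], n8 := []}

/-! ### The programs -/

/-- Compute `g` on `sv`. -/
def gP1 : PT E :=
  (Prog.rev .pl .t).seq ((Prog.copyOnto .pe .n1 .n2).seq ((Prog.push .n3 mk).seq
    (grow.seq ((Prog.clear .n3).seq ((Prog.copyOnto .pe .sv .n1).seq
      ((Prog.subtr .sv .n4).seq ((Prog.clear .n4).seq (Prog.pushN 3 .sv mk))))))))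

theorem runs_gP1 (a c w e d X u v z m π : ℕ) (D : List (SSym E)) :
    Runs gP1 (KM (KT a c w e d 0) X u v z m π (2 ^ π) [] [] D [] []).st
      (KN (KT a c w e d 0) X u v z m π (2 ^ π) 0 (gO π) [] [] D []).st
      (3 * 2 ^ π + 12 * π + 11 * 2 ^ Nat.size π + 11 * Nat.size π + 30) := by
  have h1 := Runs.rev (i := Gr.pl) (j := .t) (by decide)
    (KM (KT a c w e d 0) X u v z m π (2 ^ π) [] [] D [] [] : GT E).st
  have h2 := Runs.copyOnto (a := Gr.pe) (b := .n1) (t := .n2) (by decide) (by decide)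
    (by decide) (KN (KT a c w e d 0) X u v z m π (2 ^ π) 0 0 [] [] D [] : GT E).st rfl
  have h3 := Runs.push Gr.n3 mk
    (KN (KT a c w e d 0) X u v z m π (2 ^ π) 0 0 [] [] D (una π) : GT E).st
  have h4 := runs_grow (E := E) π (Nat.size π) 0
    (KN (KT a c w e d 0) X u v z m π (2 ^ π) 0 0 [] [] D []) (by omega)
  have h5 := Runs.clear Gr.n3
    ({KN (KT a c w e d 0) X u v z m π (2 ^ π) 0 0 [] [] D [] with
      n3 := una (2 ^ Nat.size π), n4 := una (Nat.size π)} : GT E).st
  have h6 := Runs.copyOnto (a := Gr.pe) (b := .sv) (t := .n1) (by decide) (by decide)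
    (by decide) ({KN (KT a c w e d 0) X u v z m π (2 ^ π) 0 0 [] [] D [] with
      n4 := una (Nat.size π)} : GT E).st rfl
  have h7 := Runs.subtr (u := Gr.sv) (v := .n4) (by decide)
    ({KN (KT a c w e d 0) X u v z m π (2 ^ π) 0 π [] [] D [] with
      n4 := una (Nat.size π)} : GT E).st
  have h8 := Runs.clear Gr.n4
    ({KN (KT a c w e d 0) X u v z m π (2 ^ π) 0 (π - Nat.size π) [] [] D [] with
      n4 := una (Nat.size π - π)} : GT E).st
  have h9 := Runs.pushN 3 Gr.sv mk
    (KN (KT a c w e d 0) X u v z m π (2 ^ π) 0 (π - Nat.size π) [] [] D [] : GT E).st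
  rw [Nat.zero_add, pow_zero, Nat.add_sub_cancel] at h4
  have e0 : (una 0 : List (SSym E)) = [] := rfl
  simp only [KM, KN, KT, GT.st, length_una, List.append_nil, reverse_una, drop_una, e0]
    at h1 h2 h3 h4 h5 h6 h7 h8 h9
  have g1 := h1.of_eq (by rw [upd_pl, upd_t])
  have g2 := h2.of_eq (upd_n1 _ _)
  have g3 := h3.of_eq (upd_n3 _ _)
  have g5 := h5.of_eq (upd_n3 _ _)
  have g6 := h6.of_eq (upd_sv _ _)
  have g7 := h7.of_eq (by rw [upd_sv, upd_n4])
  have g8 := h8.of_eq (upd_n4 _ _)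
  have g9 := h9.of_eq (upd_sv _ _)
  refine ((g1.seq (g2.seq (g3.seq (h4.seq (g5.seq (g6.seq (g7.seq (g8.seq g9)))))))).mono
    ?_).of_eq ?_
  · have := size_le_self' π
    omega
  · have e1 : (List.replicate 3 mk ++ una (π - Nat.size π) : List (SSym E)) =
        una (gO π) := by
      have := una_append_una (E := E) 3 (π - Nat.size π) []
      rw [List.append_nil, List.append_nil] at this
      show una 3 ++ una (π - Nat.size π) = _
      rw [this, gO, Nat.add_comm]
    rw [e1]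
    rfl

/-- Compute `wL g` on `l`. -/
def gP2 : PT E :=
  (Prog.push .n3 mk).seq ((Prog.copyOnto .sv .n4 .n1).seq ((Prog.pop .n4).seq
    ((Prog.forr .n4 .n5 dbl3).seq ((Prog.clear .n4).seq
      ((Prog.mulOnto .sv .n1 .n3 .n2 1 .l mk).seq (Prog.clear .n3))))))

theorem runs_gP2 (K : GT E) (X u v z m π t g : ℕ) (hg : 1 ≤ g) (P Q D : List (SSym E)) :
    Runs gP2 (KN K X u v z m π t 0 g P Q D []).st
      (KN K X u v z m π t (wL g) g P Q D []).st (80 * wL g) := by
  have h1 := Runs.push Gr.n3 mk (KN K X u v z m π t 0 g P Q D [] : GT E).st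
  have h2 := Runs.copyOnto (a := Gr.sv) (b := .n4) (t := .n1) (by decide) (by decide)
    (by decide) ({KN K X u v z m π t 0 g P Q D [] with n3 := una 1} : GT E).st rfl
  have h3 := Runs.pop Gr.n4 ({KN K X u v z m π t 0 g P Q D [] with
    n3 := una 1, n4 := una g} : GT E).st
  have h4 := Runs.forr' (u := Gr.n4) (t := .n5) (by decide) (body := (dbl3 : PT E))
    (g - 1) mk
    (fun k => ({KN K X u v z m π t 0 g P Q D [] with
      n3 := una (2 ^ k), n4 := una (g - 1)} : GT E).st)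
    (fun k => 13 * 2 ^ k + 2) (fun _ _ => rfl) (fun _ _ => rfl)
    (by
      intro k hk l l'
      simp only [upd_n4, upd_n5]
      rw [pow_succ, Nat.mul_comm (2 ^ k) 2]
      exact runs_dbl3 (2 ^ k) {KN K X u v z m π t 0 g P Q D [] with n4 := l, n5 := l'})
  have h5 := Runs.clear Gr.n4 ({KN K X u v z m π t 0 g P Q D [] with
    n3 := una (2 ^ (g - 1)), n4 := una (g - 1)} : GT E).st
  have h6 := Runs.mulOnto (u := Gr.sv) (t := .n1) (v := .n3) (t' := .n2) (i := .l)
    (by decide) (by decide) (by decide) (by decide) (by decide) (by decide) (by decide)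
    (by decide) (by decide) (by decide) 1 mk mk mk
    ({KN K X u v z m π t 0 g P Q D [] with n3 := una (2 ^ (g - 1))} : GT E).st
    g (2 ^ (g - 1)) rfl rfl rfl rfl
  have h7 := Runs.clear Gr.n3 ({KN K X u v z m π t (wL g) g P Q D [] with
    n3 := una (2 ^ (g - 1))} : GT E).st
  have e0 : (una 0 : List (SSym E)) = [] := rfl
  have e1 : (una g : List (SSym E)).tail = una (g - 1) := by
    rw [← List.drop_one, drop_una]
  have e2 : (List.replicate (g * (2 ^ (g - 1) * 1)) mk : List (SSym E)) = una (wL g) := by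
    rw [Nat.mul_one, Nat.mul_comm]
    rfl
  simp only [KN, GT.st, length_una, List.append_nil, e0, e1, e2]
    at h1 h2 h3 h4 h5 h6 h7
  have g1 := h1.of_eq (upd_n3 _ _)
  have g2 := h2.of_eq (upd_n4 _ _)
  have g3 := h3.of_eq (upd_n4 _ _)
  have g5 := h5.of_eq (upd_n4 _ _)
  have g6 := h6.of_eq (upd_l _ _)
  have g7 := h7.of_eq (upd_n3 _ _)
  refine (g1.seq (g2.seq (g3.seq (h4.seq (g5.seq (g6.seq g7)))))).mono ?_
  have s1 : ∑ k ∈ Finset.range (g - 1), (13 * 2 ^ k + 2 + 4) =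
      13 * (2 ^ (g - 1) - 1) + 6 * (g - 1) := by
    rw [← sum_two_pow, Finset.mul_sum, Finset.sum_congr rfl fun k _ =>
      show 13 * 2 ^ k + 2 + 4 = 13 * 2 ^ k + 6 by ring, Finset.sum_add_distrib]
    simp [mul_comm]
  rw [s1]
  have s2 : g * (2 ^ (g - 1) * (2 * 1 + 8) + 8) = 10 * wL g + 8 * g := by
    unfold wL
    ring
  rw [s2]
  have s3 : 2 ^ (g - 1) ≤ wL g := Nat.le_mul_of_pos_right _ hg
  have s4 : g ≤ wL g := Nat.le_mul_of_pos_left _ (by positivity)
  omega

/-- Compute `g` and `wL g`. -/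
def gP : PT E := gP1.seq gP2

theorem runs_gP (a c w e d X u v z m π : ℕ) (hπ : 1 ≤ π) (D : List (SSym E)) :
    Runs gP (KM (KT a c w e d 0) X u v z m π (2 ^ π) [] [] D [] []).st
      (KN (KT a c w e d 0) X u v z m π (2 ^ π) (wL (gO π)) (gO π) [] [] D []).st
      (1000 * 2 ^ π) := by
  refine ((runs_gP1 a c w e d X u v z m π D).seq
    (runs_gP2 (KT a c w e d 0) X u v z m π (2 ^ π) (gO π) (one_le_gO π) [] [] D)).mono ?_
  have h1 := wL_gO_le hπ
  have h2 := two_pow_size_gt hπ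
  have h3 := size_le_self' π
  have h4 : π < 2 ^ π := Nat.lt_two_pow_self
  omega

/-! ### Moves between the stacks -/

/-- `v := v - pe`. -/
def subV : PT E := (Prog.copyOnto .pe .n1 .n2).seq ((Prog.subtr .v .n1).seq (Prog.clear .n1))

theorem runs_subV (K : GT E) (X u v z m pe t lw g : ℕ) (P Q D : List (SSym E)) :
    Runs subV (KN K X u v z m pe t lw g P Q D []).st
      (KN K X u (v - pe) z m pe t lw g P Q D []).st (12 * pe + 10) := by
  have h1 := Runs.copyOnto (a := Gr.pe) (b := .n1) (t := .n2) (by decide) (by decide)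
    (by decide) (KN K X u v z m pe t lw g P Q D [] : GT E).st rfl
  have h2 := Runs.subtr (u := Gr.v) (v := .n1) (by decide)
    (KN K X u v z m pe t lw g P Q D (una pe) : GT E).st
  have h3 := Runs.clear Gr.n1
    (KN K X u (v - pe) z m pe t lw g P Q D (una (pe - v)) : GT E).st
  simp only [KN, GT.st, length_una, List.append_nil, drop_una] at h1 h2 h3
  have g1 := h1.of_eq (upd_n1 _ _)
  have g2 := h2.of_eq (by rw [upd_v, upd_n1])
  have g3 := h3.of_eq (upd_n1 _ _)
  exact (g1.seq (g2.seq g3)).mono (by omega)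

/-- `u := u - pe`. -/
def subU : PT E := (Prog.copyOnto .pe .n1 .n2).seq ((Prog.subtr .u .n1).seq (Prog.clear .n1))

theorem runs_subU (K : GT E) (X u v z m pe t lw g : ℕ) (P Q D : List (SSym E)) :
    Runs subU (KN K X u v z m pe t lw g P Q D []).st
      (KN K X (u - pe) v z m pe t lw g P Q D []).st (12 * pe + 10) := by
  have h1 := Runs.copyOnto (a := Gr.pe) (b := .n1) (t := .n2) (by decide) (by decide)
    (by decide) (KN K X u v z m pe t lw g P Q D [] : GT E).st rfl
  have h2 := Runs.subtr (u := Gr.u) (v := .n1) (by decide)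
    (KN K X u v z m pe t lw g P Q D (una pe) : GT E).st
  have h3 := Runs.clear Gr.n1
    (KN K X (u - pe) v z m pe t lw g P Q D (una (pe - u)) : GT E).st
  simp only [KN, GT.st, length_una, List.append_nil, drop_una] at h1 h2 h3
  have g1 := h1.of_eq (upd_n1 _ _)
  have g2 := h2.of_eq (by rw [upd_u, upd_n1])
  have g3 := h3.of_eq (upd_n1 _ _)
  exact (g1.seq (g2.seq g3)).mono (by omega)

/-- After the first permutation: `h := h * 2 ^ v`, saved on `inp`; `v := pe`; `u := u - pe`,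
saved on `pl`; `h := h * 2 ^ u`; `u := pe`. -/
def blkP : PT E :=
  (Prog.forr .v .n7 dblH).seq ((Prog.copyOnto .h .inp .n1).seq ((Prog.clear .v).seq
    ((Prog.copyOnto .pe .v .n1).seq (subU.seq ((Prog.forr .u .n7 dblH).seq
      ((Prog.rev .u .pl).seq (Prog.copyOnto .pe .u .n1)))))))

theorem runs_blkP (K : GT E) (X u v z m pe t lw g : ℕ) (D : List (SSym E)) :
    Runs blkP (KN K X u v z m pe t lw g [] [] D []).st
      (KN K (X * 2 ^ v * 2 ^ (u - pe)) pe pe z m pe t lw g (una (X * 2 ^ v))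
        (una (u - pe)) D []).st
      (32 * (X * 2 ^ v * 2 ^ (u - pe)) + 12 * v + 12 * u + 30 * pe + 30) := by
  have h1 := Runs.forr' (u := Gr.v) (t := .n7) (by decide) (body := (dblH : PT E)) v mk
    (fun k => (KN K (X * 2 ^ k) u v z m pe t lw g [] [] D []).st)
    (fun k => 13 * (X * 2 ^ k) + 2) (fun _ _ => rfl) (fun _ _ => rfl)
    (by
      intro k hk l l'
      simp only [upd_v, upd_n7]
      have := runs_dblH (X * 2 ^ k)
        {KN K (X * 2 ^ k) u v z m pe t lw g [] [] D [] with v := l, n7 := l'}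
      rw [show 2 * (X * 2 ^ k) = X * 2 ^ (k + 1) by ring] at this
      exact this)
  rw [pow_zero, Nat.mul_one, dbl_sum] at h1
  obtain ⟨Y, hY⟩ : ∃ Y, X * 2 ^ v = Y := ⟨_, rfl⟩
  have b1 : 13 * X * (2 ^ v - 1) ≤ 13 * Y := by
    rw [← hY, Nat.mul_assoc]
    exact Nat.mul_le_mul_left _ (Nat.mul_le_mul_left _ (Nat.sub_le _ _))
  rw [hY] at h1 ⊢
  have h2 := Runs.copyOnto (a := Gr.h) (b := .inp) (t := .n1) (by decide) (by decide)
    (by decide) (KN K Y u v z m pe t lw g [] [] D [] : GT E).st rfl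
  have h3 := Runs.clear Gr.v (KN K Y u v z m pe t lw g (una Y) [] D [] : GT E).st
  have h4 := Runs.copyOnto (a := Gr.pe) (b := .v) (t := .n1) (by decide) (by decide)
    (by decide) (KN K Y u 0 z m pe t lw g (una Y) [] D [] : GT E).st rfl
  have h5 := runs_subU K Y u pe z m pe t lw g (una Y) [] D
  obtain ⟨u', hu'⟩ : ∃ u', u - pe = u' := ⟨_, rfl⟩
  rw [hu'] at h5 ⊢
  have h6 := Runs.forr' (u := Gr.u) (t := .n7) (by decide) (body := (dblH : PT E)) u' mk
    (fun k => (KN K (Y * 2 ^ k) u' pe z m pe t lw g (una Y) [] D []).st)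
    (fun k => 13 * (Y * 2 ^ k) + 2) (fun _ _ => rfl) (fun _ _ => rfl)
    (by
      intro k hk l l'
      simp only [upd_u, upd_n7]
      have := runs_dblH (Y * 2 ^ k)
        {KN K (Y * 2 ^ k) u' pe z m pe t lw g (una Y) [] D [] with u := l, n7 := l'}
      rw [show 2 * (Y * 2 ^ k) = Y * 2 ^ (k + 1) by ring] at this
      exact this)
  rw [pow_zero, Nat.mul_one, dbl_sum] at h6
  have b2 : 13 * Y * (2 ^ u' - 1) ≤ 13 * (Y * 2 ^ u') := by
    rw [Nat.mul_assoc]
    exact Nat.mul_le_mul_left _ (Nat.mul_le_mul_left _ (Nat.sub_le _ _))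
  have b3 : Y ≤ Y * 2 ^ u' := Nat.le_mul_of_pos_right _ (by positivity)
  obtain ⟨Y', hY'⟩ : ∃ Y', Y * 2 ^ u' = Y' := ⟨_, rfl⟩
  rw [hY'] at h6 b2 b3 ⊢
  have h7 := Runs.rev (i := Gr.u) (j := .pl) (by decide)
    (KN K Y' u' pe z m pe t lw g (una Y) [] D [] : GT E).st
  have h8 := Runs.copyOnto (a := Gr.pe) (b := .u) (t := .n1) (by decide) (by decide)
    (by decide) (KN K Y' 0 pe z m pe t lw g (una Y) (una u') D [] : GT E).st rfl
  have e0 : (una 0 : List (SSym E)) = [] := rfl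
  simp only [KN, GT.st, length_una, List.append_nil, reverse_una, e0]
    at h1 h2 h3 h4 h5 h6 h7 h8
  have g2 := h2.of_eq (upd_inp _ _)
  have g3 := h3.of_eq (upd_v _ _)
  have g4 := h4.of_eq (upd_v _ _)
  have g7 := h7.of_eq (by rw [upd_u, upd_pl])
  have g8 := h8.of_eq (upd_u _ _)
  refine (h1.seq (g2.seq (g3.seq (g4.seq (h5.seq (h6.seq (g7.seq g8))))))).mono ?_
  omega

/-- Before the second permutation: restore `u` and `h`. -/
def unblkP : PT E :=
  (Prog.clear .u).seq ((Prog.rev .pl .u).seq ((Prog.clear .h).seq (Prog.rev .inp .h)))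

theorem runs_unblkP (K : GT E) (X X' u u' v z m pe t lw g : ℕ) (D : List (SSym E)) :
    Runs unblkP (KN K X u v z m pe t lw g (una X') (una u') D []).st
      (KN K X' u' v z m pe t lw g [] [] D []).st
      (3 * u + 3 * u' + 3 * X + 3 * X' + 3) := by
  have h1 := Runs.clear Gr.u (KN K X u v z m pe t lw g (una X') (una u') D [] : GT E).st
  have h2 := Runs.rev (i := Gr.pl) (j := .u) (by decide)
    (KN K X 0 v z m pe t lw g (una X') (una u') D [] : GT E).st
  have h3 := Runs.clear Gr.h (KN K X u' v z m pe t lw g (una X') [] D [] : GT E).st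
  have h4 := Runs.rev (i := Gr.inp) (j := .h) (by decide)
    (KN K 0 u' v z m pe t lw g (una X') [] D [] : GT E).st
  have e0 : (una 0 : List (SSym E)) = [] := rfl
  simp only [KN, GT.st, length_una, List.append_nil, reverse_una, e0] at h1 h2 h3 h4
  have g1 := h1.of_eq (upd_u _ _)
  have g2 := h2.of_eq (by rw [upd_pl, upd_u])
  have g3 := h3.of_eq (upd_h _ _)
  have g4 := h4.of_eq (by rw [upd_inp, upd_h])
  exact (g1.seq (g2.seq (g3.seq g4))).mono (by omega)

/-- `n1 := v - 8 * pe`. -/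
def cmpV : PT E :=
  (Prog.forr .pe .n3 (Prog.pushN 8 .n2 mk)).seq ((Prog.copyOnto .v .n1 .n3).seq
    ((Prog.subtr .n1 .n2).seq (Prog.clear .n2)))

theorem runs_cmpV (K : GT E) (X u v z m pe t lw g : ℕ) (P Q D : List (SSym E)) :
    Runs cmpV (KN K X u v z m pe t lw g P Q D []).st
      (KN K X u v z m pe t lw g P Q D (una (v - 8 * pe))).st (72 * pe + 9 * v + 10) := by
  have h1 := Runs.scaleOnto (v := Gr.pe) (t' := .n3) (i := .n2) (by decide) (by decide)
    (by decide) 8 mk mk (KN K X u v z m pe t lw g P Q D [] : GT E).st pe rfl rfl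
  have h2 := Runs.copyOnto (a := Gr.v) (b := .n1) (t := .n3) (by decide) (by decide)
    (by decide) ({KN K X u v z m pe t lw g P Q D [] with n2 := una (8 * pe)} : GT E).st rfl
  have h3 := Runs.subtr (u := Gr.n1) (v := .n2) (by decide)
    ({KN K X u v z m pe t lw g P Q D (una v) with n2 := una (8 * pe)} : GT E).st
  have h4 := Runs.clear Gr.n2
    ({KN K X u v z m pe t lw g P Q D (una (v - 8 * pe)) with n2 := una (8 * pe - v)} :
      GT E).st
  have e1 : (List.replicate (pe * 8) mk : List (SSym E)) = una (8 * pe) := by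
    rw [Nat.mul_comm]
    rfl
  simp only [KN, GT.st, length_una, List.append_nil, drop_una, e1] at h1 h2 h3 h4
  have g1 := h1.of_eq (upd_n2 _ _)
  have g2 := h2.of_eq (upd_n1 _ _)
  have g3 := h3.of_eq (by rw [upd_n1, upd_n2])
  have g4 := h4.of_eq (upd_n2 _ _)
  exact (g1.seq (g2.seq (g3.seq g4))).mono (by omega)

/-- `n1 := u - 8 * pe`. -/
def cmpU : PT E :=
  (Prog.forr .pe .n3 (Prog.pushN 8 .n2 mk)).seq ((Prog.copyOnto .u .n1 .n3).seq
    ((Prog.subtr .n1 .n2).seq (Prog.clear .n2)))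

theorem runs_cmpU (K : GT E) (X u v z m pe t lw g : ℕ) (P Q D : List (SSym E)) :
    Runs cmpU (KN K X u v z m pe t lw g P Q D []).st
      (KN K X u v z m pe t lw g P Q D (una (u - 8 * pe))).st (72 * pe + 9 * u + 10) := by
  have h1 := Runs.scaleOnto (v := Gr.pe) (t' := .n3) (i := .n2) (by decide) (by decide)
    (by decide) 8 mk mk (KN K X u v z m pe t lw g P Q D [] : GT E).st pe rfl rfl
  have h2 := Runs.copyOnto (a := Gr.u) (b := .n1) (t := .n3) (by decide) (by decide)
    (by decide) ({KN K X u v z m pe t lw g P Q D [] with n2 := una (8 * pe)} : GT E).st rfl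
  have h3 := Runs.subtr (u := Gr.n1) (v := .n2) (by decide)
    ({KN K X u v z m pe t lw g P Q D (una u) with n2 := una (8 * pe)} : GT E).st
  have h4 := Runs.clear Gr.n2
    ({KN K X u v z m pe t lw g P Q D (una (u - 8 * pe)) with n2 := una (8 * pe - u)} :
      GT E).st
  have e1 : (List.replicate (pe * 8) mk : List (SSym E)) = una (8 * pe) := by
    rw [Nat.mul_comm]
    rfl
  simp only [KN, GT.st, length_una, List.append_nil, drop_una, e1] at h1 h2 h3 h4
  have g1 := h1.of_eq (upd_n2 _ _)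
  have g2 := h2.of_eq (upd_n1 _ _)
  have g3 := h3.of_eq (by rw [upd_n1, upd_n2])
  have g4 := h4.of_eq (upd_n2 _ _)
  exact (g1.seq (g2.seq (g3.seq g4))).mono (by omega)

end Vale.Agent.P338.GS.Top
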