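import Vale.Agent.P338.H921.T2B

/-!
# P338, matrices of every shape: large matrices
-/

namespace Vale.Agent.P338.GS.Top

open Vale.Agent.P338

variable {J E : Type}

theorem big_KN_wsc (K : GT E) (X u v w m pe t lw g : ℕ) (P Q D : List (SSym E)) :
    ∀ r ∈ wsc, SW.at (big (KN K X u v w m pe t lw g P Q D []) : SW J E) r = [] := by
  intro r hr
  cases r <;> first | rfl | (exact absurd hr (by decide))

theorem big_KN_cln (K : GT E) (X u v w m pe t lw g : ℕ) (P Q D : List (SSym E)) :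
    Cln0 (big (KN K X u v w m pe t lw g P Q D []) : SW J E) where
  idle := fun _ => rfl
  emp := by
    intro r hr
    cases r <;> first | rfl | (exact absurd hr (by decide))

/-- The transposition of words. -/
theorem perm2_big [DecidableEq J] {p : PW J E} {Tb : ℕ → ℕ} {C : ℕ}
    (hp : PermSpec2 p Tb C) (X u v w m pe t g : ℕ) (P : ℕ → ℕ → ℕ → List Bool)
    (hP : ∀ x i j, (P x i j).length = w * t) (hX : 1 ≤ X) (hu : 6 ≤ u) (hv : 6 ≤ v)
    (hw : 1 ≤ w) (ht : 1 ≤ t) (hg : 1 ≤ g) (huv : u + v ≤ wL g) (htl : t ≤ wL g)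
    (h1 : wL g ≤ X * w * 2 ^ u) (h2 : wL g ≤ X * w * 2 ^ (v / 2))
    (h3 : wL g ≤ X * w * 2 ^ ((u + v) / 4))
    (hm : 600000 * (X * 2 ^ u * 2 ^ v * w * wL g) ≤ m) (K : GT E) :
    Runs p (big (KN K X u v w m pe t (wL g) g [] [] (bits (A3 X (2 ^ u) (2 ^ v) P)) []))
      (big (KN K X u v w m pe t (wL g) g [] []
        (bits (A3 X (2 ^ v) (2 ^ u) fun x j i => P x i j)) []))
      (C * (m + Tb m + X * 2 ^ u * 2 ^ v * w * wL g * g + wL g ^ 4)) := by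
  have h := hp X u v w t g m (wX t P)
    (big (KN K X u v w m pe t (wL g) g [] [] (bits (A3 X (2 ^ u) (2 ^ v) P)) []))
    hX hu hv hw ht hg huv htl h1 h2 h3 hm (big_KN_cln _ _ _ _ _ _ _ _ _ _ _ _ _)
    (big_KN_wsc _ _ _ _ _ _ _ _ _ _ _ _ _) rfl rfl rfl rfl rfl rfl rfl rfl
    (fun x i j z => wX_lt _ _ _ _ _ _) (by rw [arr4_wX _ _ _ _ _ _ hP]; rfl)
  rw [big_set_x, arr4_wX' _ _ _ _ _ _ hP] at h
  exact h

/-- Large matrices. -/
noncomputable def bigP (p : PW J E) : PW J E :=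
  ((subV : PT E).map Gr.loc).seq (p.seq (((blkP : PT E).map Gr.loc).seq
    (((dealsP : PT E).map Gr.loc).seq (((unblkP : PT E).map Gr.loc).seq p))))

theorem runs_bigP [DecidableEq J] {p : PW J E} {Tb : ℕ → ℕ} {C : ℕ}
    (hp : PermSpec2 p Tb C) (X u v w m π g : ℕ) (e : ℕ → ℕ → ℕ → List Bool)
    (he : ∀ x i j, (e x i j).length = w) (hX : 1 ≤ X) (hπ : 6 ≤ π) (hu : 8 * π < u)
    (hv : 8 * π < v) (hw : 1 ≤ w) (hg : 1 ≤ g) (huv : u + v ≤ 2 ^ π)
    (hg1 : 2 ^ π ≤ wL g) (hg2 : wL g ≤ 8 * 2 ^ π)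
    (hm : 4800000 * (X * 2 ^ (u + v) * w) ≤ m) (K : GT E) :
    Runs (bigP p)
      (big (KN K X u v w m π (2 ^ π) (wL g) g [] [] (bits (A3 X (2 ^ u) (2 ^ v) e)) []))
      (big (KN K (X * 2 ^ (v - π)) (u - π) π w m π (2 ^ π) (wL g) g [] []
        (bits (A3 X (2 ^ v) (2 ^ u) fun x j i => e x i j)) []))
      (2 * C * (m + Tb m + 8 * (X * 2 ^ (u + v) * w) * g + wL g ^ 4) +
        100 * (X * 2 ^ (u + v) * w) * (π + 1) + 200 * (X * 2 ^ (u + v) * w)) := by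
  obtain ⟨v', hv'⟩ : ∃ v', v - π = v' := ⟨_, rfl⟩
  obtain ⟨u', hu'⟩ : ∃ u', u - π = u' := ⟨_, rfl⟩
  have hv2 : v = v' + π := by omega
  have hu2 : u = u' + π := by omega
  have hpw : wL g ≤ 2 ^ (π + 3) := by
    rw [pow_add]
    omega
  have key : ∀ Y x : ℕ, 1 ≤ Y → π + 3 ≤ x → wL g ≤ Y * w * 2 ^ x := by
    intro Y x hY hx
    calc wL g ≤ 2 ^ (π + 3) := hpw
      _ ≤ 2 ^ x := Nat.pow_le_pow_right (by norm_num) hx
      _ ≤ Y * w * 2 ^ x := Nat.le_mul_of_pos_left _ (Nat.mul_pos hY hw)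
  have hX' : 1 ≤ X * 2 ^ v' := Nat.mul_pos hX (by positivity)
  obtain ⟨D, hD⟩ : ∃ D, X * 2 ^ (u + v) * w = D := ⟨_, rfl⟩
  have hD1 : X * 2 ^ u * 2 ^ v' * w * wL g ≤ 8 * D := by
    calc X * 2 ^ u * 2 ^ v' * w * wL g ≤ X * 2 ^ u * 2 ^ v' * w * (8 * 2 ^ π) :=
          Nat.mul_le_mul_left _ hg2
      _ = 8 * D := by
        rw [← hD, show u + v = u + v' + π by omega, pow_add, pow_add]
        ring
  have hD2 : X * 2 ^ v' * 2 ^ u' * 2 ^ π * w * wL g ≤ 8 * D := by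
    calc X * 2 ^ v' * 2 ^ u' * 2 ^ π * w * wL g ≤
          X * 2 ^ v' * 2 ^ u' * 2 ^ π * w * (8 * 2 ^ π) := Nat.mul_le_mul_left _ hg2
      _ = 8 * D := by
        rw [← hD, show u + v = v' + u' + π + π by omega, pow_add, pow_add, pow_add]
        ring
  have hD3 : X * 2 ^ v' * 2 ^ u' * 2 ^ (π + π) * w = D := by
    rw [← hD, show u + v = v' + u' + (π + π) by omega, pow_add _ (v' + u'), pow_add _ v']
    ring
  rw [hD] at hm ⊢
  rw [hv', hu']
  -- the steps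
  have k1 := Runs.big' (J := J) (runs_subV K X u v w m π (2 ^ π) (wL g) g [] []
    (bits (A3 X (2 ^ u) (2 ^ v) e)))
  rw [hv'] at k1
  have hW : ∀ x i j, (cat (2 ^ π) fun j₀ => e x i (j * 2 ^ π + j₀)).length =
      w * 2 ^ π := by
    intro x i j
    rw [length_cat_of (L := w) fun _ _ => he _ _ _]
    ring
  have k2 := perm2_big hp X u v' w m π (2 ^ π) g
    (fun x i j₁ => cat (2 ^ π) fun j₀ => e x i (j₁ * 2 ^ π + j₀)) hW hX (by omega)
    (by omega) hw Nat.one_le_two_pow hg (by omega) hg1 (key X u hX (by omega))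
    (key X (v' / 2) hX (by omega)) (key X ((u + v') / 4) hX (by omega)) (by omega) K
  rw [← A3_in, ← hv2, A3_mid] at k2
  have k3 := Runs.big' (J := J) (runs_blkP K X u v' w m π (2 ^ π) (wL g) g
    (bits (A3 (X * 2 ^ v') (2 ^ u) (2 ^ π) (eA v' π e))))
  rw [hu'] at k3
  have k4 := Runs.big' (J := J) (runs_dealsP (X * 2 ^ v' * 2 ^ u') π π w
    (Nat.mul_pos hX' (by positivity)) (by omega) hw
    (fun x i j => (bits (eB u' π (eA v' π e) x i j) : List (SSym E)))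
    (fun x i j => by rw [length_bits]; exact he _ _ _)
    (KN K (X * 2 ^ v' * 2 ^ u') π π w m π (2 ^ π) (wL g) g (una (X * 2 ^ v')) (una u')
      [] []))
  rw [← bits_A3, ← bits_A3 _ _ _ fun x j i => eB u' π (eA v' π e) x i j, ← A3_rows, ← hu2,
    hD3] at k4
  have k5 := Runs.big' (J := J) (runs_unblkP K (X * 2 ^ v' * 2 ^ u') (X * 2 ^ v') π u' π w m π
    (2 ^ π) (wL g) g (bits (A3 (X * 2 ^ v' * 2 ^ u') (2 ^ π) (2 ^ π)
      fun y j i => eB u' π (eA v' π e) y i j)))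
  rw [A3_out] at k4 k5
  have hW' : ∀ x i j, (cat (2 ^ π) fun i₀ => eA v' π e x (i * 2 ^ π + i₀) j).length =
      w * 2 ^ π := by
    intro x i j
    have h : ∀ i₀ < 2 ^ π, (eA v' π e x (i * 2 ^ π + i₀) j).length = w :=
      fun _ _ => he _ _ _
    rw [length_cat_of h]
    ring
  have k6 := perm2_big hp (X * 2 ^ v') u' π w m π (2 ^ π) g
    (fun x i₁ j => cat (2 ^ π) fun i₀ => eA v' π e x (i₁ * 2 ^ π + i₀) j) hW' hX' (by omega)
    hπ hw Nat.one_le_two_pow hg (by omega) hg1 (key _ u' hX' (by omega))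
    (by
      have h1 := key X (v' + π / 2) hX (by omega)
      rw [pow_add] at h1
      calc wL g ≤ X * w * (2 ^ v' * 2 ^ (π / 2)) := h1
        _ = X * 2 ^ v' * w * 2 ^ (π / 2) := by ring)
    (key _ ((u' + π) / 4) hX' (by omega)) (by omega) K
  rw [A3_out', ← hu2, A3_end, ← hv2] at k6
  refine (k1.seq (k2.seq (k3.seq (k4.seq (k5.seq k6))))).mono ?_
  -- the time
  have t1 : X * 2 ^ u * 2 ^ v' * w * wL g * g ≤ 8 * D * g := Nat.mul_le_mul_right _ hD1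
  have t2 : X * 2 ^ v' * 2 ^ u' * 2 ^ π * w * wL g * g ≤ 8 * D * g :=
    Nat.mul_le_mul_right _ hD2
  have t3 : C * (m + Tb m + X * 2 ^ u * 2 ^ v' * w * wL g * g + wL g ^ 4) ≤
      C * (m + Tb m + 8 * D * g + wL g ^ 4) := Nat.mul_le_mul_left _ (by omega)
  have t4 : C * (m + Tb m + X * 2 ^ v' * 2 ^ u' * 2 ^ π * w * wL g * g + wL g ^ 4) ≤
      C * (m + Tb m + 8 * D * g + wL g ^ 4) := Nat.mul_le_mul_left _ (by omega)
  have t5 : 2 * C * (m + Tb m + 8 * D * g + wL g ^ 4) =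
      C * (m + Tb m + 8 * D * g + wL g ^ 4) + C * (m + Tb m + 8 * D * g + wL g ^ 4) := by ring
  have d1 : X * 2 ^ v' * 2 ^ u' ≤ D := by
    rw [← hD3]
    calc X * 2 ^ v' * 2 ^ u' ≤ X * 2 ^ v' * 2 ^ u' * 2 ^ (π + π) :=
          Nat.le_mul_of_pos_right _ (by positivity)
      _ ≤ X * 2 ^ v' * 2 ^ u' * 2 ^ (π + π) * w := Nat.le_mul_of_pos_right _ hw
  have d2 : X * 2 ^ v' ≤ X * 2 ^ v' * 2 ^ u' := Nat.le_mul_of_pos_right _ (by positivity)
  have d3 : u + v ≤ D := by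
    have h1 : u + v ≤ 2 ^ (u + v) := Nat.lt_two_pow_self.le
    rw [← hD, Nat.mul_assoc]
    calc u + v ≤ 2 ^ (u + v) := h1
      _ ≤ 2 ^ (u + v) * w := Nat.le_mul_of_pos_right _ hw
      _ ≤ X * (2 ^ (u + v) * w) := Nat.le_mul_of_pos_left _ hX
  rw [t5]
  omega

end Vale.Agent.P338.GS.Top
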