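import Vale.Agent.P338.H921.T2C

/-!
# P338, matrices of every shape: the second main program
-/

namespace Vale.Agent.P338.GS.Top

open Vale.Agent.P338

variable {J E : Type}

/-! ### The parameters -/

/-- The program `mq` computes the size `κ * M a c w` of the long multiplications. -/
def MqSpec (mq : PT E) (κ : ℕ) (M : ℕ → ℕ → ℕ → ℕ) (Cm : ℕ) : Prop :=
  ∀ (a c w e d u v : ℕ) (D : List (SSym E)), 1 ≤ a → 1 ≤ c → 1 ≤ w →
    Runs mq (KM (KT a c w e d 0) 0 u v 0 0 0 0 [] [] D [] []).st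
      (KM (KT a c w e d 0) 0 u v 0 (κ * M a c w) 0 0 [] [] D [] []).st (Cm * M a c w)

/-- The size of the long multiplications: `κ * (a * c * w)`. -/
def mP3 (κ : ℕ) : PT E :=
  (Prog.mulOnto .a .n1 .w .n2 1 .n3 mk).seq ((Prog.mulOnto .c .n1 .n3 .n2 κ .m mk).seq
    (Prog.clear .n3))

theorem mP3_spec (κ : ℕ) :
    MqSpec (mP3 κ : PT E) κ (fun a c w => a * c * w) (2 * κ + 50) := by
  intro a c w e d u v D ha hc hw
  beta_reduce
  have h1 := Runs.mulOnto (u := Gr.a) (t := .n1) (v := .w) (t' := .n2) (i := .n3) (by decide)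
    (by decide) (by decide) (by decide) (by decide) (by decide) (by decide) (by decide)
    (by decide) (by decide) 1 mk mk mk
    (KM (KT a c w e d 0) 0 u v 0 0 0 0 [] [] D [] [] : GT E).st a w rfl rfl rfl rfl
  have h2 := Runs.mulOnto (u := Gr.c) (t := .n1) (v := .n3) (t' := .n2) (i := .m) (by decide)
    (by decide) (by decide) (by decide) (by decide) (by decide) (by decide) (by decide)
    (by decide) (by decide) κ mk mk mk
    ({KM (KT a c w e d 0) 0 u v 0 0 0 0 [] [] D [] [] with n3 := una (a * w)} : GT E).st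
    c (a * w) rfl rfl rfl rfl
  have h3 := Runs.clear Gr.n3
    ({KM (KT a c w e d 0) 0 u v 0 (c * (a * w * κ)) 0 0 [] [] D [] [] with
      n3 := una (a * w)} : GT E).st
  rw [upd_n3] at h1 h3
  rw [upd_m] at h2
  simp only [GT.st, KM, List.append_nil, length_una] at h1 h2 h3
  have e1 : a * (w * 1) = a * w := by rw [Nat.mul_one]
  rw [show List.replicate (a * (w * 1)) (mk : SSym E) = una (a * w) by rw [e1]; rfl] at h1
  have e0 : (una 0 : List (SSym E)) = [] := rfl
  rw [e0, List.append_nil] at h2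
  have hm : c * (a * w * κ) = κ * (a * c * w) := by ring
  have h4 := h1.seq (h2.seq h3)
  rw [hm] at h4
  refine h4.mono ?_
  obtain ⟨N, hN⟩ : ∃ N, a * c * w = N := ⟨_, rfl⟩
  have b1 : a * c ≤ N := by rw [← hN]; exact Nat.le_mul_of_pos_right _ hw
  have b2 : a ≤ a * c := Nat.le_mul_of_pos_right _ hc
  have b3 : c ≤ a * c := Nat.le_mul_of_pos_left _ ha
  have b5 : a * w ≤ N := by
    rw [← hN, Nat.mul_right_comm]
    exact Nat.le_mul_of_pos_right _ hc
  have f4 : a * (w * (2 * 1 + 8) + 8) = 10 * (a * w) + 8 * a := by ring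
  have f5 : c * (a * w * (2 * κ + 8) + 8) = 2 * (κ * N) + 8 * N + 8 * c := by
    rw [← hN]
    ring
  have f6 : (2 * κ + 50) * N = 2 * (κ * N) + 50 * N := by ring
  rw [hN, f4, f5, f6]
  omega

/-- All parameters, and the padding. -/
def midQ (mq : PT E) : PT E :=
  mq.seq ((Prog.push .h mk).seq (piP.seq (gP.seq ((Prog.copyOnto .w .z .n1).seq padP))))

theorem runs_midQ {mq : PT E} {κ Cm : ℕ} {M : ℕ → ℕ → ℕ → ℕ} (hmq : MqSpec mq κ M Cm)
    (a c w e d u v : ℕ) (ha : 1 ≤ a) (hc : 1 ≤ c) (hw : 1 ≤ w) (hu : 1 ≤ u)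
    (g : ℕ → ℕ → List Bool) (hg : ∀ i j, (g i j).length = w) :
    Runs (midQ mq) (KM (KT a c w e d 0) 0 u v 0 0 0 0 [] []
        (bits (cat a fun i => cat c fun j => g i j)) [] []).st
      (KN (KT a c w e d 0) 1 u v w (κ * M a c w) (Nat.size (u + v))
        (2 ^ Nat.size (u + v)) (wL (gO (Nat.size (u + v)))) (gO (Nat.size (u + v))) [] []
        (bits (padBits a e c d w 0 g)) [] : GT E).st
      (Cm * M a c w +
        6 * (u + v) + 1019 * 2 ^ Nat.size (u + v) + 6 * w +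
        (a + e) * ((c + d) * (8 * w + 10) + 10) + 3 * ((a + e) * ((c + d) * w)) + 40) := by
  obtain ⟨D, hD⟩ : ∃ D, (bits (cat a fun i => cat c fun j => g i j) : List (SSym E)) = D :=
    ⟨_, rfl⟩
  have hπ : 1 ≤ Nat.size (u + v) := Nat.size_pos.2 (by omega)
  have h1 := hmq a c w e d u v D ha hc hw
  obtain ⟨m, hm⟩ : ∃ m, κ * M a c w = m := ⟨_, rfl⟩
  rw [hm] at h1 ⊢
  have h2 := Runs.push Gr.h mk
    (KM (KT a c w e d 0) 0 u v 0 m 0 0 [] [] D [] [] : GT E).st
  rw [upd_h] at h2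
  have h3 := runs_piP 1 u v 0 m D [] (KT a c w e d 0 : GT E)
  have h4 := runs_gP (E := E) a c w e d 1 u v 0 m (Nat.size (u + v)) hπ D
  generalize Nat.size (u + v) = π at *
  have h5 := Runs.copyOnto (a := Gr.w) (b := .z) (t := .n1) (by decide) (by decide)
    (by decide) (KN (KT a c w e d 0) 1 u v 0 m π (2 ^ π) (wL (gO π)) (gO π)
      [] [] D [] : GT E).st rfl
  rw [upd_z] at h5
  have h6 := runs_padP a e c d w 0 g hg
    (KN (KT a c w e d 0) 1 u v w m π (2 ^ π) (wL (gO π)) (gO π)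
      [] [] [] [] : GT E)
  rw [hD] at h6 ⊢
  simp only [GT.st, KN, KT, length_una, Nat.mul_zero, Nat.add_zero] at h5 h6
  have e0 : (una 0 : List (SSym E)) = [] := rfl
  rw [e0, List.append_nil] at h5
  refine (h1.seq (h2.seq (h3.seq (h4.seq (h5.seq h6))))).mono ?_
  omega

/-! ### The end -/

theorem runs_end2 [DecidableEq J] (a c w u v X u' v' z m pe t lw g' : ℕ) (P Q : List (SSym E))
    (g : ℕ → ℕ → List Bool)
    (hg : ∀ i j, (g i j).length = w) (ha : a ≤ 2 ^ u) (hc : c ≤ 2 ^ v) :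
    ∃ s' : SW J E, Runs ((unpP : PT E).map Gr.loc)
      (big (KN (KT a c w (2 ^ u - a) (2 ^ v - c) 0) X u' v' z m pe t lw g' P Q
        (bits (A3 1 (2 ^ v) (2 ^ u) fun _ j i => pword a c w 0 g i j)) [])) s'
      (c * (2 ^ u * (8 * w + 10) + 10) +
        3 * ((2 ^ v - c) * (2 ^ u * w)) + 3 * (c * (a * w)) + 3) ∧
      s' (Sum.inr W.XR) = bits (cat c fun j => cat a fun i => g i j) := by
  have k3 := Runs.big' (J := J) (runs_unpP (E := E) a (2 ^ u - a) c (2 ^ v - c) w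
    0 (fun j i => (pword a c w 0 g i j).take w) (fun j i => (pword a c w 0 g i j).drop w)
    (fun j i => by rw [List.length_take, length_pword hg]; omega)
    (fun j i => by rw [List.length_drop, length_pword hg]; omega)
    (KN (KT a c w (2 ^ u - a) (2 ^ v - c) 0) X u' v' z m pe t lw g' P Q [] []))
  have hsplit : (A3 1 (2 ^ v) (2 ^ u) fun _ j i => pword a c w 0 g i j) =
      cat (c + (2 ^ v - c)) fun j => cat (a + (2 ^ u - a)) fun i =>
        (pword a c w 0 g i j).take w ++ (pword a c w 0 g i j).drop w := by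
    rw [A3, cat_one, show a + (2 ^ u - a) = 2 ^ u by omega,
      show c + (2 ^ v - c) = 2 ^ v by omega]
    refine cat_congr fun j _ => cat_congr fun i _ => ?_
    rw [List.take_append_drop]
  rw [← hsplit] at k3
  rw [show a + (2 ^ u - a) = 2 ^ u by omega] at k3
  refine ⟨_, k3, ?_⟩
  show bits (cat c fun j => cat a fun i => (pword a c w 0 g i j).take w) = _
  congr 1
  refine cat_congr fun j hj => cat_congr fun i hi => ?_
  rw [pword, if_pos ⟨hi, hj⟩]
  have := hg i j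
  rw [List.take_append_of_le_length (by omega), List.take_of_length_le (by omega)]

/-! ### The main program -/

/-- The transposition, for all shapes. -/
noncomputable def trP (p : PW J E) : PW J E :=
  ((cmpV : PT E).map Gr.loc).seq (Prog.ite (nonempty (Gr.loc .n1))
    (((Prog.clear .n1 : PT E).map Gr.loc).seq (((cmpU : PT E).map Gr.loc).seq
      (Prog.ite (nonempty (Gr.loc .n1))
        (((Prog.clear .n1 : PT E).map Gr.loc).seq (bigP p))
        ((undealsP : PT E).map Gr.loc))))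
    ((dealsP : PT E).map Gr.loc))

/-- The main program. -/
noncomputable def main2P (mq : PT E) (p : PW J E) : PW J E :=
  ((midQ mq).map Gr.loc).seq ((trP p).seq ((unpP : PT E).map Gr.loc))

theorem runs_clear_n1 (K : GT E) (X u v z m pe t lw g k : ℕ) (P Q D : List (SSym E)) :
    Runs (Prog.clear .n1) (KN K X u v z m pe t lw g P Q D (una k)).st
      (KN K X u v z m pe t lw g P Q D []).st (3 * k) := by
  have h := Runs.clear Gr.n1 (KN K X u v z m pe t lw g P Q D (una k) : GT E).st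
  simp only [KN, GT.st, length_una] at h
  exact (h.of_eq (upd_n1 _ _)).mono (by omega)

theorem pow_four_le (x : ℕ) : x ^ 4 ≤ 32 * 2 ^ x := by
  rcases lt_or_ge x 6 with h | h
  · interval_cases x <;> norm_num
  · induction x, h using Nat.le_induction with
    | base => norm_num
    | succ n hn ih =>
      have h1 : 4 * n ^ 3 + 6 * n ^ 2 + 4 * n + 1 ≤ n ^ 4 := by
        have a1 : 6 * n ^ 3 ≤ n ^ 4 := by
          calc 6 * n ^ 3 ≤ n * n ^ 3 := Nat.mul_le_mul_right _ hn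
            _ = n ^ 4 := by ring
        have a2 : 6 * n ^ 2 ≤ n ^ 3 := by
          calc 6 * n ^ 2 ≤ n * n ^ 2 := Nat.mul_le_mul_right _ hn
            _ = n ^ 3 := by ring
        have a3 : 6 * n ≤ n ^ 2 := by
          calc 6 * n ≤ n * n := Nat.mul_le_mul_right _ hn
            _ = n ^ 2 := by ring
        omega
      have h2 : (n + 1) ^ 4 = n ^ 4 + (4 * n ^ 3 + 6 * n ^ 2 + 4 * n + 1) := by ring
      have h3 : 32 * 2 ^ (n + 1) = 2 * (32 * 2 ^ n) := by ring
      omega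

theorem wL4_le {u v : ℕ} (hu : 1 ≤ u) :
    wL (gO (Nat.size (u + v))) ^ 4 ≤ 2097152 * 2 ^ (u + v) := by
  have h1 := wL_gO_le (π := Nat.size (u + v)) (Nat.size_pos.2 (by omega))
  have h2 := pl_le (v := v) hu
  calc wL (gO (Nat.size (u + v))) ^ 4 ≤ (16 * (u + v)) ^ 4 :=
        Nat.pow_le_pow_left (by omega) 4
    _ = 65536 * (u + v) ^ 4 := by ring
    _ ≤ 65536 * (32 * 2 ^ (u + v)) := Nat.mul_le_mul_left _ (pow_four_le _)
    _ = 2097152 * 2 ^ (u + v) := by ring

theorem six_le_size {u v : ℕ} (hu : 8 * Nat.size (u + v) < u) (hv : 8 * Nat.size (u + v) < v) :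
    6 ≤ Nat.size (u + v) := by
  by_contra hcon
  have h1 : Nat.size (u + v) ≤ 5 := by omega
  have h2 : u + v < 2 ^ 5 := Nat.size_le.1 h1
  have h3 : 2 ≤ Nat.size (u + v) := by
    by_contra h
    have : u + v < 2 ^ 1 := Nat.size_le.1 (by omega)
    omega
  omega

/-- The transposition. -/
theorem runs_trP [DecidableEq J] {p : PW J E} {Tb : ℕ → ℕ} {C : ℕ}
    (hp : PermSpec2 p Tb C) (u v w m : ℕ) (e : ℕ → ℕ → ℕ → List Bool)
    (he : ∀ x i j, (e x i j).length = w) (hu : 1 ≤ u) (hv : 1 ≤ v) (hw : 1 ≤ w)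
    (hm : 4800000 * (2 ^ (u + v) * w) ≤ m) (K : GT E) :
    ∃ X u' v' : ℕ, Runs (trP p)
      (big (KN K 1 u v w m (Nat.size (u + v)) (2 ^ Nat.size (u + v))
        (wL (gO (Nat.size (u + v)))) (gO (Nat.size (u + v))) [] []
        (bits (A3 1 (2 ^ u) (2 ^ v) e)) []))
      (big (KN K X u' v' w m (Nat.size (u + v)) (2 ^ Nat.size (u + v))
        (wL (gO (Nat.size (u + v)))) (gO (Nat.size (u + v))) [] []
        (bits (A3 1 (2 ^ v) (2 ^ u) fun x j i => e x i j)) []))
      (2 * C * (m + Tb m + 24 * (2 ^ (u + v) * w * (Nat.size (u + v) + 1)) +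
        2097152 * 2 ^ (u + v)) + 2000 * (2 ^ (u + v) * w * (Nat.size (u + v) + 1))) := by
  have hwL4 := wL4_le (v := v) hu
  have h6 := six_le_size (u := u) (v := v)
  have hπ1 : 1 ≤ Nat.size (u + v) := Nat.size_pos.2 (by omega)
  have hgw := wL_gO_le hπ1
  have hwg := le_wL_gO hπ1
  have hg1 := one_le_gO (Nat.size (u + v))
  have hg3 := gO_le (Nat.size (u + v))
  have hlt : u + v < 2 ^ Nat.size (u + v) := Nat.lt_size_self _
  have hsz : Nat.size (u + v) ≤ u + v := size_le_self' _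
  have hb : u + v ≤ 2 ^ (u + v) * w :=
    le_trans Nat.lt_two_pow_self.le (Nat.le_mul_of_pos_right _ hw)
  generalize gO (Nat.size (u + v)) = g at *
  generalize Nat.size (u + v) = π at *
  obtain ⟨D, hD⟩ : ∃ D, 2 ^ (u + v) * w = D := ⟨_, rfl⟩
  have hXD : 1 * 2 ^ (u + v) * w = D := by rw [Nat.one_mul, hD]
  have r1 : D * (π + 1) = D * π + D := by ring
  have r2 : D ≤ D * (π + 1) := Nat.le_mul_of_pos_right _ (by omega)
  have k1 := Runs.big' (J := J) (runs_cmpV K 1 u v w m π (2 ^ π) (wL g) g [] []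
    (bits (A3 1 (2 ^ u) (2 ^ v) e)))
  have n1 : ∀ k : ℕ, nonempty (Gr.loc .n1) (tops (big (KN K 1 u v w m π (2 ^ π) (wL g) g [] []
      (bits (A3 1 (2 ^ u) (2 ^ v) e)) (una k)) : SW J E)) = decide (k ≠ 0) :=
    fun k => nonempty_una_big _ k rfl
  rw [hD] at hm hb ⊢
  rcases Nat.lt_or_ge (8 * π) v with hv8 | hv8
  · rcases Nat.lt_or_ge (8 * π) u with hu8 | hu8
    · -- large matrices
      have k2 := Runs.big' (J := J) (runs_clear_n1 K 1 u v w m π (2 ^ π) (wL g) g (v - 8 * π)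
        [] [] (bits (A3 1 (2 ^ u) (2 ^ v) e)))
      have k3 := Runs.big' (J := J) (runs_cmpU K 1 u v w m π (2 ^ π) (wL g) g [] []
        (bits (A3 1 (2 ^ u) (2 ^ v) e)))
      have k4 := Runs.big' (J := J) (runs_clear_n1 K 1 u v w m π (2 ^ π) (wL g) g (u - 8 * π)
        [] [] (bits (A3 1 (2 ^ u) (2 ^ v) e)))
      have k5 := runs_bigP hp 1 u v w m π g e he le_rfl (h6 hu8 hv8) hu8 hv8 hw hg1 hlt.le
        hwg hgw (by rw [hXD]; exact hm) K
      rw [hXD] at k5
      refine ⟨_, _, _, (k1.seq (Runs.iteT ?_ (k2.seq (k3.seq (Runs.iteT ?_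
        (k4.seq k5)))))).mono ?_⟩
      · rw [n1, decide_eq_true_eq]
        omega
      · rw [n1, decide_eq_true_eq]
        omega
      · have t1 : 8 * D * g ≤ 24 * (D * (π + 1)) := by
          calc 8 * D * g ≤ 8 * D * (3 * (π + 1)) := Nat.mul_le_mul_left _ (by omega)
            _ = 24 * (D * (π + 1)) := by ring
        have t2 : 2 * C * (m + Tb m + 8 * D * g + wL g ^ 4) ≤
            2 * C * (m + Tb m + 24 * (D * (π + 1)) + 2097152 * 2 ^ (u + v)) :=
          Nat.mul_le_mul_left _ (by omega)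
        have t3 : 100 * D * (π + 1) = 100 * (D * (π + 1)) := by ring
        rw [t3]
        omega
    · -- few rows
      have k2 := Runs.big' (J := J) (runs_clear_n1 K 1 u v w m π (2 ^ π) (wL g) g (v - 8 * π)
        [] [] (bits (A3 1 (2 ^ u) (2 ^ v) e)))
      have k3 := Runs.big' (J := J) (runs_cmpU K 1 u v w m π (2 ^ π) (wL g) g [] []
        (bits (A3 1 (2 ^ u) (2 ^ v) e)))
      have k4 := Runs.big' (J := J) (runs_undealsP 1 u v w le_rfl hu hw
        (fun x i j => (bits (e x i j) : List (SSym E)))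
        (fun x i j => by rw [length_bits, he])
        (KN K 1 u v w m π (2 ^ π) (wL g) g [] [] [] []))
      rw [← bits_A3, ← bits_A3 _ _ _ fun x j i => e x i j, hXD] at k4
      have e0 : u - 8 * π = 0 := by omega
      rw [e0] at k3
      refine ⟨1, u, v, (k1.seq (Runs.iteT ?_ (k2.seq (k3.seq (Runs.iteF ?_ k4))))).mono ?_⟩
      · rw [n1, decide_eq_true_eq]
        omega
      · exact (n1 0).trans rfl
      · have t1 : 100 * D * (u + 1) ≤ 800 * (D * (π + 1)) := by
          calc 100 * D * (u + 1) ≤ 100 * D * (8 * (π + 1)) := Nat.mul_le_mul_left _ (by omega)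
            _ = 800 * (D * (π + 1)) := by ring
        have t2 := Nat.zero_le (2 * C * (m + Tb m + 24 * (D * (π + 1)) + 2097152 * 2 ^ (u + v)))
        omega
  · -- few columns
    have k2 := Runs.big' (J := J) (runs_dealsP 1 u v w le_rfl hu hw
      (fun x i j => (bits (e x i j) : List (SSym E)))
      (fun x i j => by rw [length_bits, he])
      (KN K 1 u v w m π (2 ^ π) (wL g) g [] [] [] []))
    rw [← bits_A3, ← bits_A3 _ _ _ fun x j i => e x i j, hXD] at k2
    have e0 : v - 8 * π = 0 := by omega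
    rw [e0] at k1
    refine ⟨1, u, v, (k1.seq (Runs.iteF ?_ k2)).mono ?_⟩
    · exact (n1 0).trans rfl
    · have t1 : 100 * D * (v + 1) ≤ 800 * (D * (π + 1)) := by
        calc 100 * D * (v + 1) ≤ 100 * D * (8 * (π + 1)) := Nat.mul_le_mul_left _ (by omega)
          _ = 800 * (D * (π + 1)) := by ring
      have t2 := Nat.zero_le (2 * C * (m + Tb m + 24 * (D * (π + 1)) + 2097152 * 2 ^ (u + v)))
      omega

/-- The constant in the time. -/
def cC (C Cm κ : ℕ) : ℕ := 2 * C * (κ + 8400000) + Cm + 20000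

theorem main2_runs [DecidableEq J] {p : PW J E} {Tb : ℕ → ℕ} {C κ Cm : ℕ} {mq : PT E}
    {M : ℕ → ℕ → ℕ → ℕ} (hmq : MqSpec mq κ M Cm)
    (hp : PermSpec2 p Tb C) (hκ : 38400000 ≤ κ) {a c w u v : ℕ} (ha : 1 ≤ a) (hc : 1 ≤ c)
    (hw : 1 ≤ w) (hM : a * c * w ≤ 2 * M a c w) (hu1 : 1 ≤ u) (hv1 : 1 ≤ v)
    (hua : a ≤ 2 ^ u) (hvc : c ≤ 2 ^ v)
    (hu : 2 ^ u ≤ 2 * a) (hv : 2 ^ v ≤ 2 * c)
    (g : ℕ → ℕ → List Bool) (hg : ∀ i j, (g i j).length = w) :
    ∃ s' : SW J E, Runs (main2P mq p)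
      (big (KM (KT a c w (2 ^ u - a) (2 ^ v - c) 0) 0 u v 0 0 0 0 [] []
        (bits (cat a fun i => cat c fun j => g i j)) [] [])) s'
      (cC C Cm κ * (M a c w + Tb (κ * M a c w) + a * c * w * (Nat.size (u + v) + 1))) ∧
      s' (Sum.inr W.XR) = bits (cat c fun j => cat a fun i => g i j) := by
  obtain ⟨N, hN⟩ : ∃ N, a * c * w = N := ⟨_, rfl⟩
  have hpl := pl_le (v := v) hu1
  -- simple bounds
  have b1 : a * c ≤ N := by rw [← hN]; exact Nat.le_mul_of_pos_right _ hw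
  have b2 : a ≤ a * c := Nat.le_mul_of_pos_right _ hc
  have b3 : c ≤ a * c := Nat.le_mul_of_pos_left _ ha
  have b4 : w ≤ N := by rw [← hN]; exact Nat.le_mul_of_pos_left _ (Nat.mul_pos ha hc)
  have b5 : a * w ≤ N := by
    rw [← hN, Nat.mul_right_comm]
    exact Nat.le_mul_of_pos_right _ hc
  have b6 : u ≤ 2 ^ u := Nat.lt_two_pow_self.le
  have b7 : v ≤ 2 ^ v := Nat.lt_two_pow_self.le
  have b8 : 2 ^ u * 2 ^ v ≤ 4 * (a * c) := by
    calc 2 ^ u * 2 ^ v ≤ (2 * a) * (2 * c) := Nat.mul_le_mul hu hv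
      _ = 4 * (a * c) := by ring
  have b9 : 2 ^ (u + v) ≤ 4 * N := by
    rw [pow_add]
    omega
  have b10 : 2 ^ (u + v) * w ≤ 4 * N := by
    rw [pow_add]
    calc 2 ^ u * 2 ^ v * w ≤ 4 * (a * c) * w := Nat.mul_le_mul_right _ b8
      _ = 4 * N := by rw [← hN]; ring
  have b11 : c * (a * w) = N := by rw [← hN]; ring
  have b12 : c * 2 ^ u * w ≤ 2 * N := by
    calc c * 2 ^ u * w ≤ c * (2 * a) * w :=
          Nat.mul_le_mul_right _ (Nat.mul_le_mul_left _ hu)
      _ = 2 * N := by rw [← hN]; ring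
  have b13 : c * 2 ^ u ≤ 2 * N := by
    calc c * 2 ^ u ≤ c * (2 * a) := Nat.mul_le_mul_left _ hu
      _ = 2 * (a * c) := by ring
      _ ≤ 2 * N := by omega
  have k1 := Runs.big' (J := J) (runs_midQ hmq a c w (2 ^ u - a) (2 ^ v - c) u v ha hc hw hu1
    g hg)
  rw [hN] at hM
  obtain ⟨M', hM'⟩ : ∃ M', M a c w = M' := ⟨_, rfl⟩
  rw [hM'] at k1 hM
  rw [padBits_A3 a c w 0 u v g hua hvc, show a + (2 ^ u - a) = 2 ^ u by omega,
    show c + (2 ^ v - c) = 2 ^ v by omega] at k1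
  have hPl : ∀ i j, (pword a c w 0 g i j).length = w := by
    intro i j
    rw [length_pword hg, Nat.add_zero]
  obtain ⟨X, u', v', k2⟩ := runs_trP hp u v w (κ * M') (fun _ i j => pword a c w 0 g i j)
    (fun _ i j => hPl i j) hu1 hv1 hw (by
      calc 4800000 * (2 ^ (u + v) * w) ≤ 4800000 * (4 * N) := Nat.mul_le_mul_left _ b10
        _ ≤ 4800000 * (8 * M') := Nat.mul_le_mul_left _ (by omega)
        _ = 38400000 * M' := by ring
        _ ≤ κ * M' := Nat.mul_le_mul_right _ hκ) (KT a c w (2 ^ u - a) (2 ^ v - c) 0)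
  generalize gO (Nat.size (u + v)) = g' at *
  generalize Nat.size (u + v) = π at *
  obtain ⟨s', k3, hs'⟩ := runs_end2 (J := J) a c w u v X u' v' w (κ * M') π (2 ^ π) (wL g') g'
    ([] : List (SSym E)) [] g hg hua hvc
  refine ⟨s', (k1.seq (k2.seq k3)).mono ?_, hs'⟩
  rw [hN, hM']
  have t1 : 2 ^ u * (2 ^ v * (8 * w + 10) + 10) =
      8 * (2 ^ (u + v) * w) + 10 * 2 ^ (u + v) + 10 * 2 ^ u := by
    rw [pow_add]
    ring
  have t2 : 2 ^ u * (2 ^ v * w) = 2 ^ (u + v) * w := by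
    rw [pow_add]
    ring
  have t3 : c * (2 ^ u * (8 * w + 10) + 10) =
      8 * (c * 2 ^ u * w) + 10 * (c * 2 ^ u) + 10 * c := by ring
  have t4 : (2 ^ v - c) * (2 ^ u * w) ≤ c * 2 ^ u * w := by
    rw [Nat.mul_assoc c]
    exact Nat.mul_le_mul_right _ (by omega)
  rw [t1, t2, t3, b11]
  have t5 : 2 ^ (u + v) * w * (π + 1) ≤ 4 * (N * (π + 1)) := by
    calc 2 ^ (u + v) * w * (π + 1) ≤ 4 * N * (π + 1) := Nat.mul_le_mul_right _ b10
      _ = 4 * (N * (π + 1)) := by ring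
  have t6 : N ≤ N * (π + 1) := Nat.le_mul_of_pos_right _ (by omega)
  obtain ⟨W, hW⟩ : ∃ W, M' + Tb (κ * M') + N * (π + 1) = W := ⟨_, rfl⟩
  have t7 : κ * M' + Tb (κ * M') + 24 * (2 ^ (u + v) * w * (π + 1)) + 2097152 * 2 ^ (u + v) ≤
      (κ + 8400000) * W := by
    have e1 : (κ + 8400000) * W = κ * W + 8400000 * W := by ring
    have e2 : κ * M' ≤ κ * W := Nat.mul_le_mul_left _ (by omega)
    rw [e1]
    omega
  have t8 : 2 * C * (κ * M' + Tb (κ * M') + 24 * (2 ^ (u + v) * w * (π + 1)) +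
      2097152 * 2 ^ (u + v)) ≤ 2 * C * (κ + 8400000) * W := by
    rw [Nat.mul_assoc (2 * C)]
    exact Nat.mul_le_mul_left _ t7
  have t9 : cC C Cm κ * W = 2 * C * (κ + 8400000) * W + Cm * W + 20000 * W := by
    unfold cC
    ring
  have t10 : Cm * M' ≤ Cm * W := Nat.mul_le_mul_left _ (by omega)
  rw [hW, t9]
  omega

end Vale.Agent.P338.GS.Top
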