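import Vale.Agent.P338.GS.Defs

/-!
# P338: definitions for the comparison of running times
-/

namespace Vale.Agent.P338.GS.Top

open Vale.Agent.P338

/-- `t n ≥ c * f n` for all large `n`, for some `c > 0`. -/
def AtLeast (f : ℕ → ℝ) (t : ℕ → ℕ) : Prop :=
  ∃ c : ℝ, 0 < c ∧ ∃ N : ℕ, ∀ n : ℕ, N ≤ n → c * f n ≤ t n

/-- `g = o(f)`. -/
def Small (g : ℕ → ℕ) (f : ℕ → ℝ) : Prop :=
  ∀ ε : ℝ, 0 < ε → ∃ N : ℕ, ∀ n : ℕ, N ≤ n → (g n : ℝ) ≤ ε * f n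

/-- The double logarithm, plus one. -/
def lam (n : ℕ) : ℕ := Nat.log 2 (Nat.log 2 n) + 1

/-- `t m / m` is nondecreasing up to a constant factor. -/
def Regular (t : ℕ → ℕ) : Prop :=
  ∃ c : ℕ, ∀ m m' : ℕ, 1 ≤ m → m ≤ m' → t m * m' ≤ c * (t m' * m)

/-- For a constant `c > 0` and all large `a`, the machine `B` needs at least `c * a² * φ(a)`
steps for `a × b` matrices, for all shapes `a ≤ b ≤ (1 + δ) a`. -/
def NearAtLeast (δ : ℝ) (φ : ℕ → ℝ) (B : TM) : Prop :=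
  ∃ c : ℝ, 0 < c ∧ ∃ N : ℕ, ∀ a b : ℕ, N ≤ a → a ≤ b → (b : ℝ) ≤ (1 + δ) * a →
    c * ((a : ℝ) ^ 2 * φ a) ≤ rectTime B a b

end Vale.Agent.P338.GS.Top
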