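import Vale.Agent.P338.H921.S2Mach
import Vale.Agent.P338.H921.T2D

/-!
# P338, matrices of every shape: multiplications of a given size
-/

namespace Vale.Agent.P338.GS.Top

open Vale.Agent.P338 Vale.Agent.P338.S2

variable {E : Type}

/-! ### Squares of numbers -/

/-- `n3 := a ^ 2`. -/
def sqA : PT E :=
  (Prog.copyOnto .a .n6 .n1).seq ((Prog.mulOnto .a .n1 .n6 .n2 1 .n3 mk).seq (Prog.clear .n6))

theorem runs_sqA (a : ℕ) (N4 : List (SSym E)) (K : GT E) :
    Runs sqA ({K with a := una a, n1 := [], n2 := [], n3 := [], n4 := N4, n5 := [],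
                      n6 := []} : GT E).st
      ({K with a := una a, n1 := [], n2 := [], n3 := una (a ^ 2), n4 := N4, n5 := [],
               n6 := []} : GT E).st (10 * a ^ 2 + 17 * a + 10) := by
  have h1 := Runs.copyOnto (a := Gr.a) (b := .n6) (t := .n1) (by decide) (by decide)
    (by decide) ({K with a := una a, n1 := [], n2 := [], n3 := [], n4 := N4, n5 := [],
                         n6 := []} : GT E).st rfl
  have h2 := Runs.mulOnto (u := Gr.a) (t := .n1) (v := .n6) (t' := .n2) (i := .n3) (by decide)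
    (by decide) (by decide) (by decide) (by decide) (by decide) (by decide) (by decide)
    (by decide) (by decide) 1 mk mk mk
    ({K with a := una a, n1 := [], n2 := [], n3 := [], n4 := N4, n5 := [],
             n6 := una a} : GT E).st a a rfl rfl rfl rfl
  have h3 := Runs.clear Gr.n6
    ({K with a := una a, n1 := [], n2 := [], n3 := una (a ^ 2), n4 := N4, n5 := [],
             n6 := una a} : GT E).st
  simp only [GT.st, length_una, List.append_nil] at h1 h2 h3
  have e1 : (List.replicate (a * (a * 1)) mk : List (SSym E)) = una (a ^ 2) := by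
    rw [Nat.mul_one, sq]
    rfl
  rw [e1] at h2
  have g1 := h1.of_eq (upd_n6 _ _)
  have g2 := h2.of_eq (upd_n3 _ _)
  have g3 := h3.of_eq (upd_n6 _ _)
  refine (g1.seq (g2.seq g3)).mono ?_
  have : a * (a * (2 * 1 + 8) + 8) = 10 * a ^ 2 + 8 * a := by ring
  omega

/-- `n3 := c ^ 2`. -/
def sqC : PT E :=
  (Prog.copyOnto .c .n6 .n1).seq ((Prog.mulOnto .c .n1 .n6 .n2 1 .n3 mk).seq (Prog.clear .n6))

theorem runs_sqC (a : ℕ) (N4 : List (SSym E)) (K : GT E) :
    Runs sqC ({K with c := una a, n1 := [], n2 := [], n3 := [], n4 := N4, n5 := [],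
                      n6 := []} : GT E).st
      ({K with c := una a, n1 := [], n2 := [], n3 := una (a ^ 2), n4 := N4, n5 := [],
               n6 := []} : GT E).st (10 * a ^ 2 + 17 * a + 10) := by
  have h1 := Runs.copyOnto (a := Gr.c) (b := .n6) (t := .n1) (by decide) (by decide)
    (by decide) ({K with c := una a, n1 := [], n2 := [], n3 := [], n4 := N4, n5 := [],
                         n6 := []} : GT E).st rfl
  have h2 := Runs.mulOnto (u := Gr.c) (t := .n1) (v := .n6) (t' := .n2) (i := .n3) (by decide)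
    (by decide) (by decide) (by decide) (by decide) (by decide) (by decide) (by decide)
    (by decide) (by decide) 1 mk mk mk
    ({K with c := una a, n1 := [], n2 := [], n3 := [], n4 := N4, n5 := [],
             n6 := una a} : GT E).st a a rfl rfl rfl rfl
  have h3 := Runs.clear Gr.n6
    ({K with c := una a, n1 := [], n2 := [], n3 := una (a ^ 2), n4 := N4, n5 := [],
             n6 := una a} : GT E).st
  simp only [GT.st, length_una, List.append_nil] at h1 h2 h3
  have e1 : (List.replicate (a * (a * 1)) mk : List (SSym E)) = una (a ^ 2) := by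
    rw [Nat.mul_one, sq]
    rfl
  rw [e1] at h2
  have g1 := h1.of_eq (upd_n6 _ _)
  have g2 := h2.of_eq (upd_n3 _ _)
  have g3 := h3.of_eq (upd_n6 _ _)
  refine (g1.seq (g2.seq g3)).mono ?_
  have : a * (a * (2 * 1 + 8) + 8) = 10 * a ^ 2 + 8 * a := by ring
  omega

/-! ### The number `mszK 1 q ρ a c` -/

/-- The last case. -/
def baseC (q ρ : ℕ) : PT E :=
  sqA.seq ((Prog.forr .n4 .n1 (Prog.pushN q .n3 mk)).seq ((Prog.clear .n4).seq
    (Prog.pushN ρ .n3 mk)))

/-- The second case and the last case. -/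
def baseB (q ρ : ℕ) : PT E :=
  (Prog.copyOnto .n4 .n6 .n1).seq ((Prog.copyOnto .a .n5 .n1).seq ((Prog.subtr .n6 .n5).seq
    ((Prog.clear .n5).seq (Prog.ite (nonempty .n6)
      ((Prog.clear .n6).seq ((Prog.clear .n4).seq sqC))
      (baseC q ρ)))))

/-- `n3 := mszK 1 q ρ a c`. -/
def baseP (q ρ : ℕ) : PT E :=
  (Prog.copyOnto .c .n4 .n1).seq ((Prog.copyOnto .a .n5 .n1).seq ((Prog.subtr .n4 .n5).seq
    (Prog.ite (nonempty .n5) ((Prog.clear .n5).seq sqA) (baseB q ρ))))

/-- The stacks. -/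
def KQ (K : GT E) (a c n3 n4 n5 n6 : ℕ) : GT E :=
  {K with a := una a, c := una c, n1 := [], n2 := [], n3 := una n3, n4 := una n4,
          n5 := una n5, n6 := una n6}

theorem ne_una (K : GT E) (a c n3 n4 n5 n6 : ℕ) :
    nonempty Gr.n5 (tops (KQ K a c n3 n4 n5 n6).st) = decide (n5 ≠ 0) := by
  rw [nonempty_tops]
  cases n5 <;> rfl

theorem ne_una' (K : GT E) (a c n3 n4 n5 n6 : ℕ) :
    nonempty Gr.n6 (tops (KQ K a c n3 n4 n5 n6).st) = decide (n6 ≠ 0) := by
  rw [nonempty_tops]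
  cases n6 <;> rfl

theorem runs_baseC (q ρ a c n : ℕ) (K : GT E) :
    Runs (baseC q ρ) (KQ K a c 0 n 0 0).st (KQ K a c (a ^ 2 + q * n + ρ) 0 0 0).st
      (10 * a ^ 2 + 17 * a + n * (2 * q + 11) + 2 * ρ + 20) := by
  have h1 := runs_sqA a (una n) (KQ K a c 0 n 0 0)
  have h2 := Runs.scaleOnto (v := Gr.n4) (t' := .n1) (i := .n3) (by decide) (by decide)
    (by decide) q mk mk (KQ K a c (a ^ 2) n 0 0 : GT E).st n rfl rfl
  have h3 := Runs.clear Gr.n4 (KQ K a c (a ^ 2 + q * n) n 0 0 : GT E).st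
  have h4 := Runs.pushN ρ Gr.n3 mk (KQ K a c (a ^ 2 + q * n) 0 0 0 : GT E).st
  have e0 : (una 0 : List (SSym E)) = [] := rfl
  have e1 : (List.replicate (n * q) mk ++ una (a ^ 2) : List (SSym E)) =
      una (a ^ 2 + q * n) := by
    have := una_append_una (E := E) (n * q) (a ^ 2) []
    rw [List.append_nil, List.append_nil] at this
    show una (n * q) ++ una (a ^ 2) = _
    rw [this, Nat.add_comm, Nat.mul_comm]
  have e2 : (List.replicate ρ mk ++ una (a ^ 2 + q * n) : List (SSym E)) =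
      una (a ^ 2 + q * n + ρ) := by
    have := una_append_una (E := E) ρ (a ^ 2 + q * n) []
    rw [List.append_nil, List.append_nil] at this
    show una ρ ++ una (a ^ 2 + q * n) = _
    rw [this, Nat.add_comm]
  simp only [KQ, GT.st, length_una, e0, e1, e2] at h1 h2 h3 h4
  have g2 := h2.of_eq (upd_n3 _ _)
  have g3 := h3.of_eq (upd_n4 _ _)
  have g4 := h4.of_eq (upd_n3 _ _)
  refine (h1.seq (g2.seq (g3.seq g4))).mono ?_
  have : n * (2 * q + 11) = n * (2 * q + 8) + 3 * n := by ring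
  omega

theorem runs_baseB (q ρ a c n : ℕ) (hn : c = a + n) (ha : 1 ≤ a) (K : GT E) :
    Runs (baseB q ρ) (KQ K a c 0 n 0 0).st (KQ K a c (mszK 1 q ρ a c) 0 0 0).st
      ((100 + 2 * q + 2 * ρ) * mszK 1 q ρ a c) := by
  have h1 := Runs.copyOnto (a := Gr.n4) (b := .n6) (t := .n1) (by decide) (by decide)
    (by decide) (KQ K a c 0 n 0 0 : GT E).st rfl
  have h2 := Runs.copyOnto (a := Gr.a) (b := .n5) (t := .n1) (by decide) (by decide)
    (by decide) (KQ K a c 0 n 0 n : GT E).st rfl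
  have h3 := Runs.subtr (u := Gr.n6) (v := .n5) (by decide) (KQ K a c 0 n a n : GT E).st
  have h4 := Runs.clear Gr.n5 (KQ K a c 0 n (a - n) (n - a) : GT E).st
  have e0 : (una 0 : List (SSym E)) = [] := rfl
  simp only [KQ, GT.st, length_una, List.append_nil, drop_una, e0] at h1 h2 h3 h4
  have g1 := h1.of_eq (upd_n6 _ _)
  have g2 := h2.of_eq (upd_n5 _ _)
  have g3 := h3.of_eq (by rw [upd_n6, upd_n5])
  have g4 := h4.of_eq (upd_n5 _ _)
  have hsq : a ≤ a ^ 2 := Nat.le_self_pow (by norm_num) a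
  unfold mszK
  rcases le_or_gt n a with h | h
  · rw [if_pos ⟨by omega, by omega⟩]
    have e1 : n - a = 0 := by omega
    rw [e1] at g3 g4
    have h5 := runs_baseC q ρ a c n K
    have h6 : Runs (Prog.ite (nonempty .n6)
      ((Prog.clear .n6).seq ((Prog.clear .n4).seq sqC)) (baseC q ρ))
      (KQ K a c 0 n 0 0 : GT E).st _ _ := Runs.iteF (by rw [ne_una']; rfl) h5
    have e2 : c - a = n := by omega
    rw [e2, Nat.one_mul]
    refine (g1.seq (g2.seq (g3.seq (g4.seq h6)))).mono ?_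
    have b1 : n * (2 * q + 11) = 2 * (q * n) + 11 * n := by ring
    have b2 : (100 + 2 * q + 2 * ρ) * (a ^ 2 + q * n + ρ) = 100 * (a ^ 2 + q * n + ρ) +
      (2 * q + 2 * ρ) * (a ^ 2 + q * n + ρ) := by ring
    rw [b1, b2]
    have b3 := Nat.zero_le ((2 * q + 2 * ρ) * (a ^ 2 + q * n + ρ))
    omega
  · rw [if_neg (by omega)]
    have h5 := Runs.clear Gr.n6 (KQ K a c 0 n 0 (n - a) : GT E).st
    have h6 := Runs.clear Gr.n4 (KQ K a c 0 n 0 0 : GT E).st
    have h7 := runs_sqC c [] (KQ K a c 0 0 0 0)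
    simp only [KQ, GT.st, length_una, e0] at h5 h6 h7
    have g5 := h5.of_eq (upd_n6 _ _)
    have g6 := h6.of_eq (upd_n4 _ _)
    have h8 : Runs (Prog.ite (nonempty .n6)
      ((Prog.clear .n6).seq ((Prog.clear .n4).seq sqC)) (baseC q ρ))
      (KQ K a c 0 n 0 (n - a) : GT E).st _ _ :=
      Runs.iteT (by rw [ne_una', decide_eq_true_eq]; omega) (g5.seq (g6.seq h7))
    have e2 : max a c = c := max_eq_right (by omega)
    rw [e2, Nat.one_mul]
    refine (g1.seq (g2.seq (g3.seq (g4.seq h8)))).mono ?_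
    have hsq' : c ≤ c ^ 2 := Nat.le_self_pow (by norm_num) c
    have b2 : (100 + 2 * q + 2 * ρ) * c ^ 2 = 100 * c ^ 2 + (2 * q + 2 * ρ) * c ^ 2 := by ring
    rw [b2]
    have b3 := Nat.zero_le ((2 * q + 2 * ρ) * c ^ 2)
    omega

theorem runs_baseP (q ρ a c : ℕ) (ha : 1 ≤ a) (K : GT E) :
    Runs (baseP q ρ) (KQ K a c 0 0 0 0).st (KQ K a c (mszK 1 q ρ a c) 0 0 0).st
      ((150 + 2 * q + 2 * ρ) * mszK 1 q ρ a c) := by
  have h1 := Runs.copyOnto (a := Gr.c) (b := .n4) (t := .n1) (by decide) (by decide)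
    (by decide) (KQ K a c 0 0 0 0 : GT E).st rfl
  have h2 := Runs.copyOnto (a := Gr.a) (b := .n5) (t := .n1) (by decide) (by decide)
    (by decide) (KQ K a c 0 c 0 0 : GT E).st rfl
  have h3 := Runs.subtr (u := Gr.n4) (v := .n5) (by decide) (KQ K a c 0 c a 0 : GT E).st
  have e0 : (una 0 : List (SSym E)) = [] := rfl
  simp only [KQ, GT.st, length_una, List.append_nil, drop_una, e0] at h1 h2 h3
  have g1 := h1.of_eq (upd_n4 _ _)
  have g2 := h2.of_eq (upd_n5 _ _)
  have g3 := h3.of_eq (by rw [upd_n4, upd_n5])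
  have hsq : a ≤ a ^ 2 := Nat.le_self_pow (by norm_num) a
  rcases le_or_gt a c with h | h
  · have e1 : a - c = 0 := by omega
    rw [e1] at g3
    have h4 := runs_baseB q ρ a c (c - a) (by omega) ha K
    have h5 : Runs (Prog.ite (nonempty .n5) ((Prog.clear .n5).seq sqA) (baseB q ρ))
      (KQ K a c 0 (c - a) 0 0 : GT E).st _ _ := Runs.iteF (by rw [ne_una]; rfl) h4
    refine (g1.seq (g2.seq (g3.seq h5))).mono ?_
    have b0 : a ≤ mszK 1 q ρ a c ∧ c ≤ 2 * mszK 1 q ρ a c := by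
      unfold mszK
      split_ifs with hc
      · omega
      · have : max a c ≤ max a c ^ 2 := Nat.le_self_pow (by norm_num) _
        omega
    obtain ⟨M, hM⟩ : ∃ M, mszK 1 q ρ a c = M := ⟨_, rfl⟩
    rw [hM] at b0 ⊢
    have b2 : (150 + 2 * q + 2 * ρ) * M = 50 * M + (100 + 2 * q + 2 * ρ) * M := by ring
    omega
  · have e1 : c - a = 0 := by omega
    rw [e1] at g3
    have h4 := Runs.clear Gr.n5 (KQ K a c 0 0 (a - c) 0 : GT E).st
    have h5 := runs_sqA a [] (KQ K a c 0 0 0 0)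
    simp only [KQ, GT.st, length_una, e0] at h4 h5
    have g4 := h4.of_eq (upd_n5 _ _)
    have h6 : Runs (Prog.ite (nonempty .n5) ((Prog.clear .n5).seq sqA) (baseB q ρ))
      (KQ K a c 0 0 (a - c) 0 : GT E).st _ _ :=
      Runs.iteT (by rw [ne_una, decide_eq_true_eq]; omega) (g4.seq h5)
    have e2 : mszK 1 q ρ a c = a ^ 2 := by
      unfold mszK
      rw [if_neg (by omega), max_eq_left h.le, Nat.one_mul]
    rw [e2]
    refine (g1.seq (g2.seq (g3.seq h6))).mono ?_
    have b2 : (150 + 2 * q + 2 * ρ) * a ^ 2 = 150 * a ^ 2 + (2 * q + 2 * ρ) * a ^ 2 := by ring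
    rw [b2]
    have b3 := Nat.zero_le ((2 * q + 2 * ρ) * a ^ 2)
    omega

/-- The size of the long multiplications: `κ * (mszK 1 q ρ a c * w)`. -/
def mP4 (κ q ρ : ℕ) : PT E :=
  (baseP q ρ).seq ((Prog.mulOnto .n3 .n1 .w .n2 κ .m mk).seq (Prog.clear .n3))

theorem mP4_spec (κ q ρ : ℕ) :
    MqSpec (mP4 κ q ρ : PT E) κ (fun a c w => mszK 1 q ρ a c * w)
      (2 * κ + 2 * q + 2 * ρ + 200) := by
  intro a c w e d u v D ha hc hw
  beta_reduce
  have h1 := runs_baseP q ρ a c ha (KM (KT a c w e d 0) 0 u v 0 0 0 0 [] [] D [] [] : GT E)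
  obtain ⟨M, hM⟩ : ∃ M, mszK 1 q ρ a c = M := ⟨_, rfl⟩
  have hM1 : 1 ≤ M := by
    have := Nat.le_self_pow (n := 2) (by norm_num) a
    have h2 : 1 ≤ max a c ^ 2 := Nat.one_le_pow _ _ (by omega)
    rw [← hM]
    unfold mszK
    split_ifs <;> omega
  rw [hM] at h1 ⊢
  have h2 := Runs.mulOnto (u := Gr.n3) (t := .n1) (v := .w) (t' := .n2) (i := .m) (by decide)
    (by decide) (by decide) (by decide) (by decide) (by decide) (by decide) (by decide)
    (by decide) (by decide) κ mk mk mk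
    ({KM (KT a c w e d 0) 0 u v 0 0 0 0 [] [] D [] [] with n3 := una M} : GT E).st
    M w rfl rfl rfl rfl
  have h3 := Runs.clear Gr.n3
    ({KM (KT a c w e d 0) 0 u v 0 (κ * (M * w)) 0 0 [] [] D [] [] with
      n3 := una M} : GT E).st
  have e0 : (una 0 : List (SSym E)) = [] := rfl
  have e1 : (List.replicate (M * (w * κ)) mk : List (SSym E)) = una (κ * (M * w)) := by
    have : M * (w * κ) = κ * (M * w) := by ring
    rw [this]
    rfl
  simp only [GT.st, KQ, KM, List.append_nil, length_una, e0, e1] at h1 h2 h3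
  have g2 := h2.of_eq (upd_m _ _)
  have g3 := h3.of_eq (upd_n3 _ _)
  refine (h1.seq (g2.seq g3)).mono ?_
  obtain ⟨W, hW⟩ : ∃ W, M * w = W := ⟨_, rfl⟩
  have b1 : M ≤ W := by rw [← hW]; exact Nat.le_mul_of_pos_right _ hw
  have b2 : M * (w * (2 * κ + 8) + 8) = 2 * (κ * W) + 8 * W + 8 * M := by
    rw [← hW]
    ring
  have b3 : (2 * κ + 2 * q + 2 * ρ + 200) * W = 2 * (κ * W) + 2 * (q * W) + 2 * (ρ * W) +
    200 * W := by ring
  have b4 : (150 + 2 * q + 2 * ρ) * M = 150 * M + 2 * (q * M) + 2 * (ρ * M) := by ring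
  have b5 : q * M ≤ q * W := Nat.mul_le_mul_left _ b1
  have b6 : ρ * M ≤ ρ * W := Nat.mul_le_mul_left _ b1
  rw [hW, b2, b3, b4]
  omega

theorem le_mszK (q ρ a c w : ℕ) : a * c * w ≤ 2 * (mszK 1 q ρ a c * w) := by
  have h : a * c ≤ 2 * mszK 1 q ρ a c := by
    unfold mszK
    split_ifs with hc
    · calc a * c ≤ a * (2 * a) := Nat.mul_le_mul_left _ (by omega)
        _ = 2 * (1 * a ^ 2) := by ring
        _ ≤ 2 * (1 * a ^ 2 + q * (c - a) + ρ) := by omega
    · calc a * c ≤ max a c * max a c := Nat.mul_le_mul (le_max_left _ _) (le_max_right _ _)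
        _ = 1 * max a c ^ 2 := by ring
        _ ≤ 2 * (1 * max a c ^ 2) := by omega
  calc a * c * w ≤ 2 * mszK 1 q ρ a c * w := Nat.mul_le_mul_right _ h
    _ = 2 * (mszK 1 q ρ a c * w) := by ring

end Vale.Agent.P338.GS.Top
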