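import Vale.Agent.P338.H921.GBitsF
import Vale.Agent.P338.H921.T2E

/-!
# P338, matrices of every shape: the machines, from the second specification
-/

namespace Vale.Agent.P338.GS.Top

open Vale.Agent.P338 Vale.Agent.P338.S2

variable {J E : Type}

/-- The constant for the size of the long multiplications. -/
def K5 : ℕ := 38400000

/-- The time. -/
def cT2 (Tb : ℕ → ℕ) (κ : ℕ) (M : ℕ → ℕ → ℕ → ℕ) (a c w : ℕ) : ℕ :=
  M a c w + Tb (κ * M a c w) + a * c * w * (Nat.size (Nat.size a + Nat.size c) + 1)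

/-! ### Matrices with entries of several bits -/

/-- The program for matrices with entries of several bits. -/
noncomputable def ent2P (mq : PT E) (p : PW J E) : PW J E :=
  ((preA : PT E).map Gr.loc).seq (((preB : PT E).map Gr.loc).seq (main2P mq p))

theorem le_cT2 {Tb : ℕ → ℕ} {κ : ℕ} {M : ℕ → ℕ → ℕ → ℕ} {a c w : ℕ} :
    a * c * w ≤ cT2 Tb κ M a c w := by
  unfold cT2
  have : a * c * w ≤ a * c * w * (Nat.size (Nat.size a + Nat.size c) + 1) :=
    Nat.le_mul_of_pos_right _ (by omega)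
  omega

theorem ent2P_runs [DecidableEq J] {p : PW J E} {Tb : ℕ → ℕ} {C κ Cm : ℕ} {mq : PT E}
    {M : ℕ → ℕ → ℕ → ℕ} (hmq : MqSpec mq κ M Cm) (hp : PermSpec2 p Tb C)
    (hκ : 38400000 ≤ κ) {a c w : ℕ} (ha : 1 ≤ a) (hc : 1 ≤ c) (hw : 1 ≤ w)
    (hM : a * c * w ≤ 2 * M a c w)
    (g : ℕ → ℕ → List Bool) (hg : ∀ i j, (g i j).length = w) :
    ∃ s' : SW J E, Runs (ent2P mq p)
      (Function.update (fun _ => []) (Sum.inr W.IN) ((List.replicate a (sb true) ++
        mk :: (List.replicate w (sb true) ++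
          mk :: bits (cat a fun i => cat c fun j => g i j))).reverse)) s'
      ((cC C Cm κ + 1000) * cT2 Tb κ M a c w) ∧
      s' (Sum.inr W.XR) = bits (cat c fun j => cat a fun i => g i j) := by
  have hD : (bits (cat a fun i => cat c fun j => g i j) : List (SSym E)).length =
      c * (a * w) := by
    rw [length_bits, length_cat_of (L := c * w)]
    · ring
    · intro i _
      rw [length_cat_of (L := w)]
      intro j _
      exact hg i j
  have k1 := Runs.big' (J := J) (runs_preA a w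
    (bits (cat a fun i => cat c fun j => g i j) : List (SSym E)))
  have k2 := Runs.big' (J := J) (runs_preB a c w ha hw (una (Nat.size a))
    (una (2 ^ Nat.size a - a)) (bits (cat a fun i => cat c fun j => g i j)) hD)
  rw [big_input, hD] at k1
  obtain ⟨s', k3, hs'⟩ := main2_runs hmq hp hκ ha hc hw hM (Nat.size_pos.2 ha)
    (Nat.size_pos.2 hc) (Nat.lt_size_self a).le (Nat.lt_size_self c).le
    (two_pow_size_le ha) (two_pow_size_le hc) g hg
  have k4 := k1.seq (k2.seq k3)
  refine ⟨s', k4.mono ?_, hs'⟩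
  have t1 := preAB_le ha hc hw
  have t2 : a * c * w ≤ cT2 Tb κ M a c w := le_cT2
  have t3 : M a c w + Tb (κ * M a c w) +
    a * c * w * (Nat.size (Nat.size a + Nat.size c) + 1) = cT2 Tb κ M a c w := rfl
  rw [t3]
  generalize cT2 Tb κ M a c w = T at *
  generalize cC C Cm κ = c1 at *
  have t4 : (c1 + 1000) * T = c1 * T + 1000 * T := by ring
  rw [t4]
  omega

/-- The machine for matrices with entries of several bits. -/
theorem ent2_machine [DecidableEq J] [Finite J] [Finite E] {p : PW J E} {Tb : ℕ → ℕ}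
    {C κ Cm : ℕ} {mq : PT E} {M : ℕ → ℕ → ℕ → ℕ} (hmq : MqSpec mq κ M Cm)
    (hp : PermSpec2 p Tb C) (hκ : 38400000 ≤ κ) (hM : ∀ a c w, a * c * w ≤ 2 * M a c w) :
    ∃ (B : TM) (C' : ℕ), TransposesEnt B ∧
      ∀ a c w : ℕ, 1 ≤ a → 1 ≤ c → 1 ≤ w → entTime B a c w ≤ C' * cT2 Tb κ M a c w := by
  obtain ⟨B, C', hB, hC'⟩ := exists_transposesEnt (ent2P mq p) (Sum.inr W.IN)
    (Sum.inr W.XR) (fun a c w => (cC C Cm κ + 1000) * cT2 Tb κ M a c w)
    (by
      intro a c w ha hc hw
      exact le_cT2.trans (Nat.le_mul_of_pos_left _ (by omega)))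
    (by
      intro a c w ha hc hw x
      obtain ⟨s', h1, h2⟩ := ent2P_runs hmq hp hκ ha hc hw (hM a c w) (gE x) (length_gE x)
      refine ⟨s', ?_, ?_⟩
      · rw [embS_entInput]
        exact h1
      · rw [h2, entries_transpose_eq])
  refine ⟨B, C' * (cC C Cm κ + 1000), hB, fun a c w ha hc hw => ?_⟩
  rw [Nat.mul_assoc]
  exact hC' a c w ha hc hw

/-! ### Bit matrices -/

/-- The program for bit matrices. -/
noncomputable def bit2P (mq : PT E) (p : PW J E) : PW J E :=
  ((preR : PT E).map Gr.loc).seq (((preB : PT E).map Gr.loc).seq (main2P mq p))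

theorem bit2P_runs [DecidableEq J] {p : PW J E} {Tb : ℕ → ℕ} {C κ Cm : ℕ} {mq : PT E}
    {M : ℕ → ℕ → ℕ → ℕ} (hmq : MqSpec mq κ M Cm) (hp : PermSpec2 p Tb C)
    (hκ : 38400000 ≤ κ) {a b : ℕ} (ha : 1 ≤ a) (hb : 1 ≤ b)
    (hM : a * b * 1 ≤ 2 * M a b 1) (x : ℕ → ℕ → Bool) :
    ∃ s' : SW J E, Runs (bit2P mq p)
      (Function.update (fun _ => []) (Sum.inr W.IN) ((List.replicate a (sb true) ++
        mk :: bits (cat a fun i => cat b fun j => [x i j])).reverse)) s'
      ((cC C Cm κ + 1000) * cT2 Tb κ M a b 1) ∧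
      s' (Sum.inr W.XR) = bits (cat b fun j => cat a fun i => [x i j]) := by
  have hD : (bits (cat a fun i => cat b fun j => [x i j]) : List (SSym E)).length =
      b * (a * 1) := by
    rw [length_bits, length_cat_of (L := b)]
    · ring
    · intro i _
      rw [length_cat_of (L := 1) fun _ _ => rfl, Nat.mul_one]
  have k1 := Runs.big' (J := J) (runs_preR a
    (bits (cat a fun i => cat b fun j => [x i j]) : List (SSym E)))
  have k2 := Runs.big' (J := J) (runs_preB a b 1 ha le_rfl (una (Nat.size a))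
    (una (2 ^ Nat.size a - a)) (bits (cat a fun i => cat b fun j => [x i j])) hD)
  rw [big_input, hD] at k1
  obtain ⟨s', k3, hs'⟩ := main2_runs hmq hp hκ ha hb le_rfl hM (Nat.size_pos.2 ha)
    (Nat.size_pos.2 hb) (Nat.lt_size_self a).le (Nat.lt_size_self b).le
    (two_pow_size_le ha) (two_pow_size_le hb) (fun i j => [x i j]) (fun _ _ => rfl)
  have k4 := k1.seq (k2.seq k3)
  refine ⟨s', k4.mono ?_, hs'⟩
  have t1 := preAB_le ha hb le_rfl
  have t2 : a * b * 1 ≤ cT2 Tb κ M a b 1 := le_cT2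
  have t3 : M a b 1 + Tb (κ * M a b 1) +
    a * b * 1 * (Nat.size (Nat.size a + Nat.size b) + 1) = cT2 Tb κ M a b 1 := rfl
  rw [t3]
  generalize cT2 Tb κ M a b 1 = T at *
  generalize cC C Cm κ = c1 at *
  have t4 : (c1 + 1000) * T = c1 * T + 1000 * T := by ring
  rw [t4]
  omega

/-- The machine for bit matrices of every shape. -/
theorem bit2_machine [DecidableEq J] [Finite J] [Finite E] {p : PW J E} {Tb : ℕ → ℕ}
    {C κ Cm : ℕ} {mq : PT E} {M : ℕ → ℕ → ℕ → ℕ} (hmq : MqSpec mq κ M Cm)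
    (hp : PermSpec2 p Tb C) (hκ : 38400000 ≤ κ) (hM : ∀ a c w, a * c * w ≤ 2 * M a c w) :
    ∃ (B : TM) (C' : ℕ), TransposesRect B ∧
      ∀ a b : ℕ, 1 ≤ a → 1 ≤ b → rectTime B a b ≤ C' * cT2 Tb κ M a b 1 := by
  obtain ⟨B, C', hB, hC'⟩ := exists_transposesRect' (bit2P mq p) (Sum.inr W.IN)
    (Sum.inr W.XR) (fun a b => (cC C Cm κ + 1000) * cT2 Tb κ M a b 1)
    (by
      intro a b ha hb
      have h := le_cT2 (Tb := Tb) (κ := κ) (M := M) (a := a) (c := b) (w := 1)
      rw [Nat.mul_one] at h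
      exact h.trans (Nat.le_mul_of_pos_left _ (by omega)))
    (by
      intro a b ha hb x
      obtain ⟨s', h1, h2⟩ := bit2P_runs hmq hp hκ ha hb (hM a b 1) (extMat x)
      refine ⟨s', ?_, ?_⟩
      · rw [embS_rectInput]
        exact h1
      · rw [h2, rowMajor_transpose])
  refine ⟨B, C' * (cC C Cm κ + 1000), hB, fun a b ha hb => ?_⟩
  rw [Nat.mul_assoc]
  exact hC' a b ha hb

/-! ### Square bit matrices -/

/-- One round: from `i`, `M` to `i + 1`, `M - (2 * i + 1)`. -/
def isqB : PT E :=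
  (Prog.forr .a .n1 ((Prog.pop .n3).seq (Prog.pop .n3))).seq
    ((Prog.pop .n3).seq (Prog.push .a mk))

theorem runs_isqB (i M : ℕ) (K : GT E) :
    Runs isqB ({K with a := una i, n1 := [], n3 := una M} : GT E).st
      ({K with a := una (i + 1), n1 := [], n3 := una (M - (2 * i + 1))} : GT E).st
      (10 * i + 10) := by
  have h1 := Runs.forr' (u := Gr.a) (t := .n1) (by decide)
    (body := ((Prog.pop .n3).seq (Prog.pop .n3) : PT E)) i mk
    (fun k => ({K with a := una i, n1 := [], n3 := una (M - 2 * k)} : GT E).st)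
    (fun _ => 3) (fun _ _ => rfl) (fun _ _ => rfl)
    (by
      intro k hk l l'
      simp only [upd_a, upd_n1]
      have g1 := Runs.pop Gr.n3 ({K with a := l, n1 := l', n3 := una (M - 2 * k)} : GT E).st
      have g2 := Runs.pop Gr.n3
        ({K with a := l, n1 := l', n3 := una (M - 2 * k - 1)} : GT E).st
      rw [upd_n3] at g1 g2
      have e1 : ∀ n : ℕ, (una n : List (SSym E)).tail = una (n - 1) := by
        intro n
        rw [← List.drop_one, drop_una]
      simp only [GT.st, e1] at g1 g2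
      rw [show M - 2 * (k + 1) = M - 2 * k - 1 - 1 by omega]
      exact (g1.seq g2).mono (by omega))
  rw [Nat.mul_zero, Nat.sub_zero] at h1
  have h2 := Runs.pop Gr.n3
    ({K with a := una i, n1 := [], n3 := una (M - 2 * i)} : GT E).st
  have h3 := Runs.push Gr.a mk
    ({K with a := una i, n1 := [], n3 := una (M - (2 * i + 1))} : GT E).st
  rw [upd_n3] at h2
  rw [upd_a] at h3
  have e1 : (una (M - 2 * i) : List (SSym E)).tail = una (M - (2 * i + 1)) := by
    rw [← List.drop_one, drop_una, Nat.sub_sub]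
  simp only [GT.st, e1] at h2 h3
  refine (h1.seq (h2.seq h3)).mono ?_
  rw [Finset.sum_const, Finset.card_range, smul_eq_mul]
  omega

/-- The square root of the number on `n3`. -/
def isqP : PT E := Prog.loop (nonempty .n3) isqB

theorem runs_isqP (n k : ℕ) : ∀ (i : ℕ) (K : GT E), i + k = n →
    Runs isqP ({K with a := una i, n1 := [], n3 := una (n ^ 2 - i ^ 2)} : GT E).st
      ({K with a := una n, n1 := [], n3 := []} : GT E).st (k * (10 * n + 12)) := by
  induction k with
  | zero =>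
    intro i K hi
    have h : i = n := by omega
    subst h
    rw [Nat.sub_self]
    exact (Runs.loopF rfl).mono (Nat.zero_le _)
  | succ k ih =>
    intro i K hi
    have h1 := ih (i + 1) K (by omega)
    have h2 := runs_isqB i (n ^ 2 - i ^ 2) K
    have e1 : n ^ 2 - i ^ 2 - (2 * i + 1) = n ^ 2 - (i + 1) ^ 2 := by
      rw [Nat.sub_sub]
      congr 1
      ring
    rw [e1] at h2
    have hlt : i ^ 2 < n ^ 2 := Nat.pow_lt_pow_left (by omega) (by norm_num)
    refine loop_step ?_ h2 h1 ?_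
    · obtain ⟨j, hj⟩ : ∃ j, n ^ 2 - i ^ 2 = j + 1 := ⟨n ^ 2 - i ^ 2 - 1, by omega⟩
      rw [hj]
      rfl
    · have : (k + 1) * (10 * n + 12) = k * (10 * n + 12) + (10 * n + 12) := by ring
      rw [this]
      omega

/-- Find the number of rows of a square matrix. -/
def preS : PT E :=
  (Prog.rev .inp .x).seq ((Prog.tag .x .y 1 .n3 mk).seq ((Prog.rev .y .x).seq (isqP.seq
    ((Prog.copyOnto .a .n1 .n2).seq ((Prog.copyOnto .a .n5 .n2).seq (sizeP.seq
      ((Prog.rev .n3 .pa).seq ((Prog.rev .n4 .u).seq (Prog.push .w mk)))))))))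

theorem runs_preS (n : ℕ) (D : List (SSym E)) (hD : D.length = n ^ 2) :
    Runs preS ({G0 with inp := D.reverse} : GT E).st
      ({G0 with x := D, a := una n, w := una 1, u := una (Nat.size n),
                pa := una (2 ^ Nat.size n - n)} : GT E).st
      (23 * n ^ 2 + 30 * n + 11 * 2 ^ Nat.size n + 8 * Nat.size n + 20) := by
  have h1 := rev_inp_x ({G0 with inp := D.reverse} : GT E)
  have h2 := Runs.tag (x := Gr.x) (y := .y) (i := .n3) (by decide) (by decide) (by decide) 1
    (mk : SSym E) ({G0 with x := D} : GT E).st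
  have h3 := rev_y_x ({G0 with y := D.reverse, n3 := una (n ^ 2)} : GT E)
  have h4 := runs_isqP n n 0 ({G0 with x := D} : GT E) (by omega)
  have h5 := Runs.copyOnto (a := Gr.a) (b := .n1) (t := .n2) (by decide) (by decide)
    (by decide) ({G0 with x := D, a := una n} : GT E).st rfl
  have h6 := Runs.copyOnto (a := Gr.a) (b := .n5) (t := .n2) (by decide) (by decide)
    (by decide) ({G0 with x := D, a := una n, n1 := una n} : GT E).st rfl
  have h7 := runs_sizeP n ({G0 with x := D, a := una n} : GT E)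
  have h8 := rev_n3_pa ({G0 with x := D, a := una n, n3 := una (2 ^ Nat.size n - n),
                                 n4 := una (Nat.size n)} : GT E)
  have h9 := rev_n4_u ({G0 with x := D, a := una n, pa := una (2 ^ Nat.size n - n),
                                n4 := una (Nat.size n)} : GT E)
  have h10 := Runs.push Gr.w mk ({G0 with x := D, a := una n, u := una (Nat.size n),
                                          pa := una (2 ^ Nat.size n - n)} : GT E).st
  rw [upd_w] at h10
  have e0 : (una 0 : List (SSym E)) = [] := rfl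
  have e1 : (List.replicate (1 * n ^ 2) mk : List (SSym E)) = una (n ^ 2) := by
    rw [Nat.one_mul]
    rfl
  have e2 : n ^ 2 - 0 ^ 2 = n ^ 2 := by simp
  rw [e2] at h4
  simp only [G0, GT.st, List.reverse_reverse, List.append_nil, List.length_reverse,
    length_una, reverse_una, hD, e0, e1] at h1 h2 h3 h4 h5 h6 h7 h8 h9 h10
  have g2 := h2.of_eq (by rw [upd_x, upd_y, upd_n3])
  have g5 := h5.of_eq (upd_n1 _ _)
  have g6 := h6.of_eq (upd_n5 _ _)
  have hn : n < 2 ^ Nat.size n := Nat.lt_size_self n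
  refine (h1.seq (g2.seq (h3.seq (h4.seq (g5.seq (g6.seq (h7.seq (h8.seq (h9.seq
    h10))))))))).mono ?_
  have : n * (10 * n + 12) = 10 * n ^ 2 + 12 * n := by ring
  rw [this]
  omega

/-- The program for square bit matrices. -/
noncomputable def sq2P (mq : PT E) (p : PW J E) : PW J E :=
  ((preS : PT E).map Gr.loc).seq (((preB : PT E).map Gr.loc).seq (main2P mq p))

theorem sq2P_runs [DecidableEq J] {p : PW J E} {Tb : ℕ → ℕ} {C κ Cm : ℕ} {mq : PT E}
    {M : ℕ → ℕ → ℕ → ℕ} (hmq : MqSpec mq κ M Cm) (hp : PermSpec2 p Tb C)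
    (hκ : 38400000 ≤ κ) {n : ℕ} (hn : 1 ≤ n)
    (hM : n * n * 1 ≤ 2 * M n n 1) (x : ℕ → ℕ → Bool) :
    ∃ s' : SW J E, Runs (sq2P mq p)
      (Function.update (fun _ => []) (Sum.inr W.IN)
        ((bits (cat n fun i => cat n fun j => [x i j])).reverse)) s'
      ((cC C Cm κ + 1000) * cT2 Tb κ M n n 1) ∧
      s' (Sum.inr W.XR) = bits (cat n fun j => cat n fun i => [x i j]) := by
  have hD : (bits (cat n fun i => cat n fun j => [x i j]) : List (SSym E)).length =
      n * (n * 1) := by
    rw [length_bits, length_cat_of (L := n)]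
    · ring
    · intro i _
      rw [length_cat_of (L := 1) fun _ _ => rfl, Nat.mul_one]
  have k1 := Runs.big' (J := J) (runs_preS n
    (bits (cat n fun i => cat n fun j => [x i j]) : List (SSym E)) (by rw [hD]; ring))
  have k2 := Runs.big' (J := J) (runs_preB n n 1 hn le_rfl (una (Nat.size n))
    (una (2 ^ Nat.size n - n)) (bits (cat n fun i => cat n fun j => [x i j])) hD)
  rw [big_input] at k1
  obtain ⟨s', k3, hs'⟩ := main2_runs hmq hp hκ hn hn le_rfl hM (Nat.size_pos.2 hn)
    (Nat.size_pos.2 hn) (Nat.lt_size_self n).le (Nat.lt_size_self n).le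
    (two_pow_size_le hn) (two_pow_size_le hn) (fun i j => [x i j]) (fun _ _ => rfl)
  have k4 := k1.seq (k2.seq k3)
  refine ⟨s', k4.mono ?_, hs'⟩
  have t1 := preAB_le hn hn le_rfl
  have t2 : n * n * 1 ≤ cT2 Tb κ M n n 1 := le_cT2
  have t3 : M n n 1 + Tb (κ * M n n 1) +
    n * n * 1 * (Nat.size (Nat.size n + Nat.size n) + 1) = cT2 Tb κ M n n 1 := rfl
  rw [t3]
  have hu := two_pow_size_le hn
  generalize Nat.size n = u at *
  have t5 : u ≤ 2 ^ u := Nat.lt_two_pow_self.le
  have t6 : n ≤ n * n * 1 := by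
    rw [Nat.mul_one]
    exact Nat.le_mul_of_pos_right _ hn
  have t7 : n ^ 2 = n * n * 1 := by ring
  have t8 : n * (n * 1) = n * n * 1 := by ring
  have t9 : n * (1 * 10 + 8) + n * (8 * (n * 1) + 5) =
    8 * (n * n * 1) + 23 * n := by ring
  rw [t7, t8] at *
  generalize cT2 Tb κ M n n 1 = T at *
  generalize cC C Cm κ = c1 at *
  have t4 : (c1 + 1000) * T = c1 * T + 1000 * T := by ring
  rw [t4]
  have t10 : n * (8 * (n * n * 1) + 5) = n * (8 * (n * n * 1) + 5) := rfl
  have t11 : n * (8 * (n * 1) + 5) = 8 * (n * n * 1) + 5 * n := by ring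
  omega

theorem embS_rowMajor {n : ℕ} (a : Fin n → Fin n → Bool) :
    (bitWord (rowMajor a)).map (embS : Sym → SSym E) =
      bits (cat n fun i => cat n fun j => [extMat a i j]) := by
  rw [embS_bitWord, rowMajor_extMat]

/-- From a program to a machine for square bit matrices. -/
theorem exists_transposesSq' {κ E : Type} [DecidableEq κ] [Finite κ] [Finite E]
    (p : Prog κ (SSym E)) (inp outp : κ) (TT : ℕ → ℕ)
    (hTT : ∀ n : ℕ, 1 ≤ n → n * n ≤ TT n)
    (h : ∀ n : ℕ, 1 ≤ n → ∀ a : Fin n → Fin n → Bool,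
      ∃ s' : Store κ (SSym E),
        Runs p (Function.update (fun _ => []) inp ((bitWord (rowMajor a)).map embS).reverse)
          s' (TT n) ∧ s' outp = bits (rowMajor fun i j => a j i)) :
    ∃ (B : TM) (C : ℕ), Transposes B ∧ ∀ n : ℕ, 1 ≤ n → transTime B n ≤ C * TT n := by
  obtain ⟨B, C, hB⟩ := compile_correct (embS : Sym → SSym E) embS_injective p inp outp
  have key : ∀ n : ℕ, 1 ≤ n → ∀ a : Fin n → Fin n → Bool,
      B.WritesExactly (bitWord (rowMajor a)) (bitWord (rowMajor fun i j => a j i)) ∧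
        B.time (bitWord (rowMajor a)) ≤ 6 * C * TT n := by
    intro n hn a
    obtain ⟨s', ⟨t, ht, hE⟩, hs'⟩ := h n hn a
    obtain ⟨h1, h2⟩ := hB _ (bitWord (rowMajor fun i j => a j i)) s' t
      (blank_notMem_bitWord _) (blank_notMem_bitWord _) hE (by rw [embS_bitWord]; exact hs')
    refine ⟨h1, h2.trans ?_⟩
    have h0 := hTT n hn
    rw [length_bitWord, length_rowMajor, length_bitWord, length_rowMajor, mul_assoc 6,
      mul_left_comm 6 C]
    apply Nat.mul_le_mul_left
    have h3 : 1 ≤ n * n := Nat.mul_pos hn hn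
    omega
  refine ⟨B, 6 * C, fun n hn a => (key n hn a).1, fun n hn => ?_⟩
  unfold transTime
  exact Finset.sup_le fun a _ => (key n hn a).2

/-- The machine for square bit matrices. -/
theorem sq2_machine [DecidableEq J] [Finite J] [Finite E] {p : PW J E} {Tb : ℕ → ℕ}
    {C κ Cm : ℕ} {mq : PT E} {M : ℕ → ℕ → ℕ → ℕ} (hmq : MqSpec mq κ M Cm)
    (hp : PermSpec2 p Tb C) (hκ : 38400000 ≤ κ) (hM : ∀ a c w, a * c * w ≤ 2 * M a c w) :
    ∃ (B : TM) (C' : ℕ), Transposes B ∧
      ∀ n : ℕ, 1 ≤ n → transTime B n ≤ C' * cT2 Tb κ M n n 1 := by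
  obtain ⟨B, C', hB, hC'⟩ := exists_transposesSq' (sq2P mq p) (Sum.inr W.IN)
    (Sum.inr W.XR) (fun n => (cC C Cm κ + 1000) * cT2 Tb κ M n n 1)
    (by
      intro n hn
      have h := le_cT2 (Tb := Tb) (κ := κ) (M := M) (a := n) (c := n) (w := 1)
      rw [Nat.mul_one] at h
      exact h.trans (Nat.le_mul_of_pos_left _ (by omega)))
    (by
      intro n hn x
      obtain ⟨s', h1, h2⟩ := sq2P_runs hmq hp hκ hn (hM n n 1) (extMat x)
      refine ⟨s', ?_, ?_⟩
      · rw [embS_rowMajor]
        exact h1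
      · rw [h2, rowMajor_transpose])
  refine ⟨B, C' * (cC C Cm κ + 1000), hB, fun n hn => ?_⟩
  rw [Nat.mul_assoc]
  exact hC' n hn

end Vale.Agent.P338.GS.Top
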