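import Vale.Agent.P338.GS.Avail
import Vale.Agent.P338.H921.T2G
import Vale.Agent.P338.H921.S2Q1
import Vale.Agent.P338.H921.S2Avail

/-!
# P338, matrices of every shape: transfer of lower bounds, and the final forms
-/

namespace Vale.Agent.P338.GS.Top

open Vale.Agent.P338 Vale.Agent.P338.S2

/-! ### Transfer of lower bounds along a sequence of shapes -/

/-- Transfer of a lower bound. -/
theorem lower_seq {τ T' N g : ℕ → ℕ} {φ : ℕ → ℝ} {C : ℕ}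
    (hB : ∀ i : ℕ, τ i ≤ C * (T' i + N i * g i))
    (hφ : ∀ ε : ℝ, 0 < ε → ∃ i₀ : ℕ, ∀ i : ℕ, i₀ ≤ i → (g i : ℝ) ≤ ε * φ i)
    (h : ∃ c : ℝ, 0 < c ∧ ∃ i₀ : ℕ, ∀ i : ℕ, i₀ ≤ i → c * ((N i : ℝ) * φ i) ≤ τ i) :
    ∃ c : ℝ, 0 < c ∧ ∃ i₀ : ℕ, ∀ i : ℕ, i₀ ≤ i → c * ((N i : ℝ) * φ i) ≤ T' i := by
  obtain ⟨c, hc, i₁, hi₁⟩ := h
  obtain ⟨i₂, hi₂⟩ := hφ (c / (2 * (C + 1))) (by positivity)
  refine ⟨c / (2 * (C + 1)), by positivity, max i₁ i₂, fun i hi => ?_⟩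
  have h1 := hi₁ i ((le_max_left _ _).trans hi)
  have h2 := hi₂ i ((le_max_right _ _).trans hi)
  have h3 : (τ i : ℝ) ≤ C * (T' i + (N i : ℝ) * g i) := by exact_mod_cast hB i
  have hC : (0 : ℝ) ≤ C := Nat.cast_nonneg _
  have hT : (0 : ℝ) ≤ T' i := Nat.cast_nonneg _
  have hn2 : (0 : ℝ) ≤ N i := Nat.cast_nonneg _
  have hg : (0 : ℝ) ≤ g i := Nat.cast_nonneg _
  have h4 : (N i : ℝ) * g i ≤ (N i : ℝ) * (c / (2 * (C + 1)) * φ i) :=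
    mul_le_mul_of_nonneg_left h2 hn2
  have h5 : 0 ≤ (N i : ℝ) * (c / (2 * (C + 1)) * φ i) := le_trans (by positivity) h4
  have h6 : c * ((N i : ℝ) * φ i) ≤
      (C + 1) * (T' i) + (C + 1) * ((N i : ℝ) * (c / (2 * (C + 1)) * φ i)) := by
    refine (h1.trans h3).trans ?_
    nlinarith
  have h7 : (C + 1 : ℝ) * ((N i : ℝ) * (c / (2 * (C + 1)) * φ i)) =
      c * ((N i : ℝ) * φ i) / 2 := by
    have : (C + 1 : ℝ) ≠ 0 := by positivity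
    field_simp
  rw [h7] at h6
  have h8 : c * ((N i : ℝ) * φ i) / 2 ≤ (C + 1) * T' i := by linarith
  have h9 : c / (2 * (C + 1)) * ((N i : ℝ) * φ i) =
      (c * ((N i : ℝ) * φ i) / 2) / (C + 1) := by
    have : (C + 1 : ℝ) ≠ 0 := by positivity
    field_simp
  rw [h9, div_le_iff₀ (by positivity)]
  linarith

/-! ### The final forms -/

section

variable {T : ℕ → ℕ} (hT : ∀ m, 1 ≤ m → m ≤ T m) (h : AvailG2 (limbT K5 T))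

include hT h

theorem lower_sq2 {φ : ℕ → ℝ}
    (hφ : ∀ ε : ℝ, 0 < ε → ∃ N : ℕ, ∀ n : ℕ, N ≤ n →
      ((Nat.log 2 (Nat.log 2 n) + 1 : ℕ) : ℝ) ≤ ε * φ n)
    (hlow : ∀ B : TM, Transposes B → ∃ c : ℝ, 0 < c ∧ ∃ N : ℕ, ∀ n : ℕ, N ≤ n →
      c * ((n : ℝ) ^ 2 * φ n) ≤ transTime B n) :
    ∃ c : ℝ, 0 < c ∧ ∃ N : ℕ, ∀ n : ℕ, N ≤ n → c * ((n : ℝ) ^ 2 * φ n) ≤ T (n ^ 2) := by
  obtain ⟨B, C, hB, hC⟩ := sq2_final hT h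
  exact lower_sq (M := fun n => n ^ 2) hC hφ (hlow B hB)

theorem lower_near2 {φ : ℕ → ℝ}
    (hφ : ∀ ε : ℝ, 0 < ε → ∃ N : ℕ, ∀ n : ℕ, N ≤ n →
      ((Nat.log 2 (Nat.log 2 n) + 1 : ℕ) : ℝ) ≤ ε * φ n) {δ : ℝ} (hδ : 0 < δ)
    (hlow : ∀ B : TM, TransposesRect B → ∃ c : ℝ, 0 < c ∧ ∃ N : ℕ, ∀ a b : ℕ, N ≤ a → a ≤ b →
      (b : ℝ) ≤ (1 + δ) * a → c * ((a : ℝ) ^ 2 * φ a) ≤ rectTime B a b) :
    ∃ c : ℝ, 0 < c ∧ ∃ N : ℕ, 2 ≤ N ∧ ∀ n : ℕ, N ≤ n →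
      c * ((n : ℝ) * φ (Nat.sqrt n)) ≤ T n :=
  lower_rect hδ (fun q ρ => near2_final hT h q ρ)
    (fun ε hε => by
      obtain ⟨N, hN⟩ := hφ ε hε
      exact ⟨N, fun n hn => by rw [pow_one]; exact hN n hn⟩) hlow

theorem lower_rect2 {a b : ℕ → ℕ} (ha : ∀ i, 1 ≤ a i) (hb : ∀ i, 1 ≤ b i) {φ : ℕ → ℝ}
    (hφ : ∀ ε : ℝ, 0 < ε → ∃ i₀ : ℕ, ∀ i : ℕ, i₀ ≤ i →
      ((Nat.log 2 (Nat.log 2 (a i * b i)) + 1 : ℕ) : ℝ) ≤ ε * φ i)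
    (hlow : ∀ B : TM, TransposesRect B → ∃ c : ℝ, 0 < c ∧ ∃ i₀ : ℕ, ∀ i : ℕ, i₀ ≤ i →
      c * (((a i * b i : ℕ) : ℝ) * φ i) ≤ rectTime B (a i) (b i)) :
    ∃ c : ℝ, 0 < c ∧ ∃ i₀ : ℕ, ∀ i : ℕ, i₀ ≤ i →
      c * (((a i * b i : ℕ) : ℝ) * φ i) ≤ T (a i * b i) := by
  obtain ⟨B, C, hB, hC⟩ := rect2_final hT h
  exact lower_seq (τ := fun i => rectTime B (a i) (b i)) (T' := fun i => T (a i * b i))
    (N := fun i => a i * b i) (g := fun i => Nat.log 2 (Nat.log 2 (a i * b i)) + 1)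
    (fun i => hC (a i) (b i) (ha i) (hb i)) hφ (hlow B hB)

theorem lower_ent2 {a c w : ℕ → ℕ} (ha : ∀ i, 1 ≤ a i) (hc : ∀ i, 1 ≤ c i)
    (hw : ∀ i, 1 ≤ w i) {φ : ℕ → ℝ}
    (hφ : ∀ ε : ℝ, 0 < ε → ∃ i₀ : ℕ, ∀ i : ℕ, i₀ ≤ i →
      ((Nat.log 2 (Nat.log 2 (a i * c i)) + 1 : ℕ) : ℝ) ≤ ε * φ i)
    (hlow : ∀ B : TM, TransposesEnt B → ∃ η : ℝ, 0 < η ∧ ∃ i₀ : ℕ, ∀ i : ℕ, i₀ ≤ i →
      η * (((a i * c i * w i : ℕ) : ℝ) * φ i) ≤ entTime B (a i) (c i) (w i)) :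
    ∃ η : ℝ, 0 < η ∧ ∃ i₀ : ℕ, ∀ i : ℕ, i₀ ≤ i →
      η * (((a i * c i * w i : ℕ) : ℝ) * φ i) ≤ T (a i * c i * w i) := by
  obtain ⟨B, C, hB, hC⟩ := ent2_final hT h
  exact lower_seq (τ := fun i => entTime B (a i) (c i) (w i))
    (T' := fun i => T (a i * c i * w i)) (N := fun i => a i * c i * w i)
    (g := fun i => Nat.log 2 (Nat.log 2 (a i * c i)) + 1)
    (fun i => hC (a i) (c i) (w i) (ha i) (hc i) (hw i)) hφ (hlow B hB)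

end

/-! ### The availability of the first form -/

theorem availG_mul {A A' : TM} (hA : Multiplies A) (hA' : Multiplies A') :
    AvailG (limbT 4608 (mulTime A)) (mulTime A') :=
  availG_of (hasCall_limb (by norm_num) (hasCall_mul hA)) (hasCall_mul hA')

end Vale.Agent.P338.GS.Top
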