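import Vale.Agent.P338.H921.T2H
import Vale.Agent.P338.H921.T2Defs

/-!
# P338, matrices of every shape: the final theorem, from the availability of the programs
-/

namespace Vale.Agent.P338.GS.Top

open Vale.Agent.P338 Vale.Agent.P338.S2

/-- The final theorem, from the availability of the programs. -/
theorem result_of (hG2 : ∀ Tb : ℕ → ℕ, HasCall Tb → AvailG2 Tb) (A : TM)
    (hA : Multiplies A) :
    (∃ (B : TM) (C : ℕ), Transposes B ∧ ∀ n : ℕ, 1 ≤ n →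
      transTime B n ≤ C * (mulTime A (n ^ 2) + n ^ 2 * lam n)) ∧
    (∃ (B : TM) (C : ℕ), TransposesRect B ∧ ∀ a b : ℕ, 1 ≤ a → 1 ≤ b →
      rectTime B a b ≤ C * (mulTime A (a * b) + a * b * lam (a * b))) ∧
    (∃ (B : TM) (C : ℕ), TransposesEnt B ∧ ∀ a b w : ℕ, 1 ≤ a → 1 ≤ b → 1 ≤ w →
      entTime B a b w ≤ C * (mulTime A (a * b * w) + a * b * w * lam (a * b))) ∧
    (Regular (mulTime A) → ∀ j : ℕ,
      (∃ (B : TM) (C : ℕ), Transposes B ∧ ∀ n : ℕ, 1 ≤ n →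
        transTime B n ≤ C * (mulTime A (n ^ 2) + n ^ 2 * (Nat.log 2)^[j] n)) ∧
      (∃ (B : TM) (C : ℕ), TransposesRect B ∧ ∀ a b : ℕ, 1 ≤ a → 1 ≤ b →
        rectTime B a b ≤ C * (mulTime A (a * b) + a * b * (Nat.log 2)^[j] (a * b))) ∧
      ∃ (B : TM) (C : ℕ), TransposesEnt B ∧
        (∀ a b w : ℕ, 1 ≤ a → 1 ≤ b → 1 ≤ w → entTime B a b w ≤
          C * (mulTime A (a * b * w) + a * b * w * (Nat.log 2)^[j] (a * b))) ∧
        ∀ a b w : ℕ, 1 ≤ a → 1 ≤ b → 2 * (Nat.size a + Nat.size b) ≤ w →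
          entTime B a b w ≤ C * mulTime A (a * b * w)) ∧
    (∀ φ : ℕ → ℝ, Small lam φ →
      ((∀ B : TM, Transposes B → AtLeast (fun n => (n : ℝ) ^ 2 * φ n) (transTime B)) →
        AtLeast (fun n => (n : ℝ) ^ 2 * φ n) fun n => mulTime A (n ^ 2)) ∧
      ∀ δ : ℝ, 0 < δ → (∀ B : TM, TransposesRect B → NearAtLeast δ φ B) →
        AtLeast (fun n => n * φ (Nat.sqrt n)) (mulTime A)) ∧
    (∀ (φ : ℕ → ℝ) (a b w : ℕ → ℕ), (∀ i, 1 ≤ a i) → (∀ i, 1 ≤ b i) → (∀ i, 1 ≤ w i) →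
      Small (fun i => lam (a i * b i)) φ →
      ((∀ B : TM, TransposesRect B →
          AtLeast (fun i => (a i * b i : ℕ) * φ i) fun i => rectTime B (a i) (b i)) →
        AtLeast (fun i => (a i * b i : ℕ) * φ i) fun i => mulTime A (a i * b i)) ∧
      ((∀ B : TM, TransposesEnt B → AtLeast (fun i => (a i * b i * w i : ℕ) * φ i)
          fun i => entTime B (a i) (b i) (w i)) →
        AtLeast (fun i => (a i * b i * w i : ℕ) * φ i)
          fun i => mulTime A (a i * b i * w i))) ∧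
    ((∀ B : TM, Transposes B →
        AtLeast (fun n => (n : ℝ) ^ 2 * Real.log n) (transTime B)) →
      (∃ c : ℝ, 0 < c ∧ ∃ N : ℕ, ∀ n : ℕ, N ≤ n → ∃ k : ℕ, k ≤ n ∧
        n ≤ k + 2 * Nat.sqrt n ∧ c * (n * Real.log n) ≤ mulTime A k) ∧
      ((∃ M : ℕ, ∀ m n : ℕ, m ≤ n → n ≤ 2 * m → mulTime A m ≤ M * mulTime A n) →
        AtLeast (fun n => n * Real.log n) (mulTime A))) ∧
    ∀ δ : ℝ, 0 < δ →
      (∀ B : TM, TransposesRect B → NearAtLeast δ (fun n => Real.log n) B) →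
      AtLeast (fun n => n * Real.log n) (mulTime A) := by
  have hT : ∀ m, 1 ≤ m → m ≤ mulTime A m := fun m hm => (lt_mulTime hA hm).le
  have h2 : AvailG2 (limbT K5 (mulTime A)) :=
    hG2 _ (hasCall_limb (by norm_num [K5]) (hasCall_mul hA))
  have hlog : Small lam fun n => Real.log n := fun ε hε => by
    obtain ⟨N, hN⟩ := loglog_pow_small 1 ε hε
    refine ⟨N, fun n hn => ?_⟩
    have h := hN n hn
    rw [pow_one] at h
    exact h
  refine ⟨sq2_final hT h2, rect2_final hT h2, ent2_final hT h2, fun hreg j => ?_,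
    fun φ hφ => ⟨fun H => lower_sq2 hT h2 hφ H, fun δ hδ H => ?_⟩,
    fun φ a b w ha hb hw hφ => ⟨fun H => lower_rect2 hT h2 ha hb hφ H,
        fun H => lower_ent2 hT h2 ha hb hw hφ H⟩,
    fun H => ?_, fun δ hδ H => ?_⟩
  · obtain ⟨c, hc⟩ := hreg
    refine ⟨final_regular hT hc (avail_mul hA hA (by norm_num [K2])) j,
      bit_regular hT hc (availG_mul hA hA) j, ?_⟩
    obtain ⟨B, C, h1, h3, h4⟩ := ent_regular hT hc (availG_mul hA hA) j
    refine ⟨B, C, h1, h3, fun a b w ha hb hw => h4 a b w ha hb ?_ hw⟩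
    have := Nat.size_pos.2 ha
    omega
  · obtain ⟨c, hc, N, _, hN⟩ := lower_near2 hT h2 hφ hδ H
    exact ⟨c, hc, N, hN⟩
  · obtain ⟨c, hc, N, hN2, hN⟩ :=
      window_of_squares (lower_sq2 hT h2 hlog H)
    refine ⟨⟨c, hc, N, fun n hn => ?_⟩, ?_⟩
    · obtain ⟨k, h1, h2, _, h3⟩ := hN n hn
      exact ⟨k, h1, h2, h3⟩
    · rintro ⟨M, hM⟩
      refine ⟨c / (M + 1), by positivity, N, fun n hn => ?_⟩
      obtain ⟨k, h1, _, h2, h3⟩ := hN n hn
      have h5 : (mulTime A k : ℝ) ≤ M * mulTime A n := by exact_mod_cast hM k n h1 h2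
      have h6 : (0 : ℝ) ≤ mulTime A n := Nat.cast_nonneg _
      have h7 : (0 : ℝ) < (M : ℝ) + 1 := by positivity
      rw [div_mul_eq_mul_div, div_le_iff₀ h7]
      linarith
  · obtain ⟨c, hc, N, _, hN⟩ := log_of_sqrt (lower_near2 hT h2 hlog hδ H)
    exact ⟨c, hc, N, hN⟩

end Vale.Agent.P338.GS.Top
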